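import Mathlib

open Real

namespace Vale.Agent.Lib.P361

/-! ### Trigonometric sums -/

theorem sin_half_ne {n m : ℕ} (hm : 0 < m) (hm2 : m < 2 * n) : sin (π * m / n / 2) ≠ 0 := by
  have hn : 0 < n := by omega
  have hn' : (0 : ℝ) < n := by exact_mod_cast hn
  have hm' : (0 : ℝ) < m := by exact_mod_cast hm
  have hm2' : (m : ℝ) < 2 * n := by exact_mod_cast hm2
  apply ne_of_gt
  apply sin_pos_of_pos_of_lt_pi
  · positivity
  · rw [div_div, div_lt_iff₀ (by positivity)]
    have := pi_pos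
    nlinarith

/-- Vanishing of the sum of cosines at half integer points. -/
theorem sum_cos_half {n m : ℕ} (hm : 0 < m) (hm2 : m < 2 * n) :
    ∑ s ∈ Finset.range n, cos (π * m * ((s : ℝ) + 1 / 2) / n) = 0 := by
  have hn : 0 < n := by omega
  have hn' : (0 : ℝ) < n := by exact_mod_cast hn
  set a : ℝ := π * m / n with ha
  have hne := sin_half_ne hm hm2
  have key : ∀ s : ℕ, 2 * sin (a / 2) * cos (π * m * ((s : ℝ) + 1 / 2) / n) =
      sin (a * ((s + 1 : ℕ) : ℝ)) - sin (a * (s : ℝ)) := by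
    intro s
    have e1 : a * ((s + 1 : ℕ) : ℝ) = π * m * ((s : ℝ) + 1 / 2) / n + a / 2 := by
      rw [ha]
      push_cast
      ring
    have e2 : a * (s : ℝ) = π * m * ((s : ℝ) + 1 / 2) / n - a / 2 := by
      rw [ha]
      ring
    rw [e1, e2, sin_add, sin_sub]
    ring
  have h := Finset.sum_range_sub (fun s : ℕ => sin (a * (s : ℝ))) n
  have h0 : sin (a * (n : ℝ)) = 0 := by
    have : a * (n : ℝ) = (m : ℝ) * π := by
      rw [ha]
      field_simp
    rw [this, sin_nat_mul_pi]
  rw [h0] at h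
  simp only [← key, ← Finset.mul_sum] at h
  simp only [Nat.cast_zero, mul_zero, sin_zero, sub_zero] at h
  rcases mul_eq_zero.mp h with h1 | h1
  · exfalso
    apply hne
    linarith
  · exact h1

/-- Vanishing of the sum of cosines at integer points. -/
theorem sum_cos_int {n k : ℕ} (hk : 0 < k) (hk2 : k < n) :
    ∑ r ∈ Finset.range n, cos (2 * (π * k / n) * (r : ℝ)) = 0 := by
  have hn : 0 < n := by omega
  have hn' : (0 : ℝ) < n := by exact_mod_cast hn
  set a : ℝ := π * k / n with ha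
  have hne : sin a ≠ 0 := by
    apply ne_of_gt
    apply sin_pos_of_pos_of_lt_pi
    · have : (0 : ℝ) < k := by exact_mod_cast hk
      positivity
    · rw [ha, div_lt_iff₀ hn']
      have hk' : (k : ℝ) < n := by exact_mod_cast hk2
      have := pi_pos
      nlinarith
  have key : ∀ r : ℕ, 2 * sin a * cos (2 * a * (r : ℝ)) =
      sin (a * (2 * ((r + 1 : ℕ) : ℝ) - 1)) - sin (a * (2 * (r : ℝ) - 1)) := by
    intro r
    have e1 : a * (2 * ((r + 1 : ℕ) : ℝ) - 1) = 2 * a * (r : ℝ) + a := by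
      push_cast
      ring
    have e2 : a * (2 * (r : ℝ) - 1) = 2 * a * (r : ℝ) - a := by ring
    rw [e1, e2, sin_add, sin_sub]
    ring
  have h := Finset.sum_range_sub (fun r : ℕ => sin (a * (2 * (r : ℝ) - 1))) n
  simp only [← key, ← Finset.mul_sum] at h
  have h0 : sin (a * (2 * (n : ℝ) - 1)) = - sin a := by
    have : a * (2 * (n : ℝ) - 1) = (k : ℝ) * (2 * π) - a := by
      rw [ha]
      field_simp
    rw [this, sin_nat_mul_two_pi_sub]
  have h1 : sin (a * (2 * ((0 : ℕ) : ℝ) - 1)) = - sin a := by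
    have : a * (2 * ((0 : ℕ) : ℝ) - 1) = - a := by
      push_cast
      ring
    rw [this, sin_neg]
  rw [h0, h1, sub_self] at h
  rcases mul_eq_zero.mp h with h2 | h2
  · exfalso
    apply hne
    linarith
  · exact h2

/-! ### The cosine basis -/

/-- The normalization of the cosine basis. -/
noncomputable def alphaC (n k : ℕ) : ℝ :=
  if k = 0 then sqrt (1 / n) else sqrt (2 / n)

/-- The discrete cosine basis on `n` points. -/
noncomputable def cosB (n k s : ℕ) : ℝ :=
  alphaC n k * cos (π * k * ((s : ℝ) + 1 / 2) / n)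

theorem alphaC_sq_zero {n : ℕ} : alphaC n 0 ^ 2 = 1 / n := by
  simp only [alphaC, if_true]
  rw [sq_sqrt]
  positivity

theorem alphaC_sq_ne {n k : ℕ} (hk : k ≠ 0) : alphaC n k ^ 2 = 2 / n := by
  simp only [alphaC, if_neg hk]
  rw [sq_sqrt]
  positivity

theorem cosB_sq_le (n k s : ℕ) : cosB n k s ^ 2 ≤ 2 / n := by
  have h1 : cos (π * k * ((s : ℝ) + 1 / 2) / n) ^ 2 ≤ 1 := cos_sq_le_one _
  have h2 : alphaC n k ^ 2 ≤ 2 / n := by
    by_cases hk : k = 0
    · subst hk
      rw [alphaC_sq_zero]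
      apply div_le_div_of_nonneg_right (by norm_num) (by positivity)
    · rw [alphaC_sq_ne hk]
  unfold cosB
  rw [mul_pow]
  have h3 : 0 ≤ alphaC n k ^ 2 := sq_nonneg _
  have h4 : 0 ≤ cos (π * k * ((s : ℝ) + 1 / 2) / n) ^ 2 := sq_nonneg _
  nlinarith

theorem cosB_orth_ne {n k l : ℕ} (hlk : l < k) (hk : k < n) :
    ∑ s ∈ Finset.range n, cosB n k s * cosB n l s = 0 := by
  have h1 := sum_cos_half (n := n) (m := k - l) (by omega) (by omega)
  have h2 := sum_cos_half (n := n) (m := k + l) (by omega) (by omega)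
  have hc : ((k - l : ℕ) : ℝ) = (k : ℝ) - l := by
    rw [Nat.cast_sub hlk.le]
  have e : ∀ s : ℕ, cosB n k s * cosB n l s =
      alphaC n k * alphaC n l * (1 / 2) * (cos (π * (k - l : ℕ) * ((s : ℝ) + 1 / 2) / n) +
        cos (π * (k + l : ℕ) * ((s : ℝ) + 1 / 2) / n)) := by
    intro s
    have e1 : π * (k - l : ℕ) * ((s : ℝ) + 1 / 2) / n =
        π * k * ((s : ℝ) + 1 / 2) / n - π * l * ((s : ℝ) + 1 / 2) / n := by
      rw [hc]
      ring
    have e2 : π * (k + l : ℕ) * ((s : ℝ) + 1 / 2) / n =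
        π * k * ((s : ℝ) + 1 / 2) / n + π * l * ((s : ℝ) + 1 / 2) / n := by
      push_cast
      ring
    rw [e1, e2, cos_sub, cos_add]
    unfold cosB
    ring
  simp only [e]
  rw [← Finset.mul_sum, Finset.sum_add_distrib, h1, h2]
  ring

theorem cosB_norm {n k : ℕ} (hk : k < n) :
    ∑ s ∈ Finset.range n, cosB n k s ^ 2 = 1 := by
  have hn : 0 < n := by omega
  have hn' : (0 : ℝ) < n := by exact_mod_cast hn
  by_cases h0 : k = 0
  · subst h0
    unfold cosB
    simp only [mul_pow, alphaC_sq_zero]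
    simp only [Nat.cast_zero, mul_zero, zero_mul, zero_div, cos_zero, one_pow, mul_one,
      Finset.sum_const, Finset.card_range, nsmul_eq_mul]
    field_simp
  · have h2 := sum_cos_half (n := n) (m := 2 * k) (by omega) (by omega)
    have e : ∀ s : ℕ, cosB n k s ^ 2 =
        (2 / n) * (1 / 2) * (1 + cos (π * (2 * k : ℕ) * ((s : ℝ) + 1 / 2) / n)) := by
      intro s
      have e1 : π * (2 * k : ℕ) * ((s : ℝ) + 1 / 2) / n = 2 * (π * k * ((s : ℝ) + 1 / 2) / n) := by
        push_cast
        ring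
      rw [e1, cos_two_mul]
      unfold cosB
      rw [mul_pow, alphaC_sq_ne h0]
      ring
    simp only [e]
    rw [← Finset.mul_sum, Finset.sum_add_distrib, h2]
    simp only [Finset.sum_const, Finset.card_range, nsmul_eq_mul, mul_one, add_zero]
    field_simp

theorem cosB_orth {n k l : ℕ} (hk : k < n) (hl : l < n) :
    ∑ s ∈ Finset.range n, cosB n k s * cosB n l s = if k = l then 1 else 0 := by
  by_cases h : k = l
  · subst h
    rw [if_pos rfl]
    simpa [sq] using cosB_norm hk
  · rw [if_neg h]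
    rcases Nat.lt_or_gt_of_ne h with h1 | h1
    · simp only [mul_comm (cosB n k _)]
      exact cosB_orth_ne h1 hl
    · exact cosB_orth_ne h1 hk

/-- The Dirichlet form of a basis function. -/
theorem cosB_dir {n k : ℕ} (hk : k < n) :
    ∑ s ∈ Finset.range (n - 1), (cosB n k s - cosB n k (s + 1)) ^ 2 =
      2 * (1 - cos (π * k / n)) := by
  have hn : 0 < n := by omega
  have hn' : (0 : ℝ) < n := by exact_mod_cast hn
  by_cases h0 : k = 0
  · subst h0
    unfold cosB
    simp
  · set a : ℝ := π * k / n with ha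
    have hα := alphaC_sq_ne (n := n) h0
    have e : ∀ s : ℕ, (cosB n k s - cosB n k (s + 1)) ^ 2 =
        (alphaC n k ^ 2 * (4 * sin (a / 2) ^ 2)) * sin (a * ((s + 1 : ℕ) : ℝ)) ^ 2 := by
      intro s
      have e1 : π * k * (((s + 1 : ℕ) : ℝ) + 1 / 2) / n = a * ((s + 1 : ℕ) : ℝ) + a / 2 := by
        rw [ha]
        push_cast
        ring
      have e2 : π * k * ((s : ℝ) + 1 / 2) / n = a * ((s + 1 : ℕ) : ℝ) - a / 2 := by
        rw [ha]
        push_cast
        ring
      unfold cosB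
      rw [e1, e2, cos_add, cos_sub]
      ring
    simp only [e]
    rw [← Finset.mul_sum]
    -- shift the sum
    have h1 : ∑ s ∈ Finset.range (n - 1), sin (a * ((s + 1 : ℕ) : ℝ)) ^ 2 =
        ∑ r ∈ Finset.range n, sin (a * (r : ℝ)) ^ 2 := by
      have : n = (n - 1) + 1 := by omega
      conv_rhs => rw [this, Finset.sum_range_succ']
      simp
    have h2 : ∑ r ∈ Finset.range n, sin (a * (r : ℝ)) ^ 2 = (n : ℝ) / 2 := by
      have h3 := sum_cos_int (n := n) (k := k) (by omega) hk
      have e3 : ∀ r : ℕ, sin (a * (r : ℝ)) ^ 2 = 1 / 2 - (1 / 2) * cos (2 * a * (r : ℝ)) := by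
        intro r
        have : 2 * a * (r : ℝ) = 2 * (a * (r : ℝ)) := by ring
        rw [this, cos_two_mul]
        have := sin_sq_add_cos_sq (a * (r : ℝ))
        nlinarith
      simp only [e3]
      rw [Finset.sum_sub_distrib, ← Finset.mul_sum, h3]
      simp
      ring
    rw [h1, h2, hα]
    have e4 : cos a = 1 - 2 * sin (a / 2) ^ 2 := by
      have h5 : a = 2 * (a / 2) := by ring
      conv_lhs => rw [h5]
      rw [cos_two_mul]
      have := sin_sq_add_cos_sq (a / 2)
      nlinarith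
    rw [e4]
    field_simp
    ring

end Vale.Agent.Lib.P361
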