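import Vale.Agent.Lib.P361.SpinComm
import Vale.Agent.Lib.P361.DCT

open scoped Matrix
open Function

set_option linter.unusedSectionVars false

namespace Vale.Agent.Lib.P361

variable {N : ℕ}

/-- The cosine basis on the side of the box. -/
noncomputable def cc (N : ℕ) (k s : Fin (2 * N + 1)) : ℝ := cosB (2 * N + 1) k s

theorem cc_orth (k l : Fin (2 * N + 1)) :
    ∑ s, cc N k s * cc N l s = if k = l then 1 else 0 := by
  unfold cc
  rw [Fin.sum_univ_eq_sum_range (fun s => cosB (2 * N + 1) k s * cosB (2 * N + 1) l s),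
    cosB_orth k.2 l.2]
  simp [Fin.ext_iff]

theorem cc_complete (s s' : Fin (2 * N + 1)) :
    ∑ k, cc N k s * cc N k s' = if s = s' then 1 else 0 := by
  let M : Matrix (Fin (2 * N + 1)) (Fin (2 * N + 1)) ℝ := Matrix.of (cc N)
  have h1 : M * M.transpose = 1 := by
    ext k l
    rw [Matrix.mul_apply, Matrix.one_apply]
    simpa [M] using cc_orth k l
  have h2 : M.transpose * M = 1 := mul_eq_one_comm.mp h1
  have h3 := congrFun (congrFun h2 s) s'
  rw [Matrix.mul_apply, Matrix.one_apply] at h3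
  simpa [M] using h3

theorem cc_norm (k : Fin (2 * N + 1)) : ∑ s, cc N k s ^ 2 = 1 := by
  have := cc_orth k k
  simpa [sq] using this

theorem cc_sq_le (k s : Fin (2 * N + 1)) : cc N k s ^ 2 ≤ 2 / ((2 * N + 1 : ℕ) : ℝ) :=
  cosB_sq_le _ _ _

/-- The factor of the Dirichlet form. -/
noncomputable def hd (N : ℕ) (k s : Fin (2 * N + 1)) : ℝ :=
  if (s : ℕ) < 2 * N then (cc N k s - cc N k (s + 1)) ^ 2 else 0

theorem hd_sum (k : Fin (2 * N + 1)) :
    ∑ s, hd N k s = 2 * (1 - Real.cos (Real.pi * (k : ℕ) / ((2 * N + 1 : ℕ) : ℝ))) := by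
  rw [← cosB_dir k.2]
  have h1 : ∀ s : Fin (2 * N + 1), hd N k s =
      (fun r : ℕ => if r < 2 * N then
        (cosB (2 * N + 1) k r - cosB (2 * N + 1) k (r + 1)) ^ 2 else 0) s := by
    intro s
    unfold hd cc
    beta_reduce
    split_ifs with h
    · have : ((s + 1 : Fin (2 * N + 1)) : ℕ) = (s : ℕ) + 1 := by
        rw [Fin.val_add_one_of_lt]
        rw [Fin.lt_def]
        simpa using h
      rw [this]
    · rfl
  simp only [h1]
  rw [Fin.sum_univ_eq_sum_range (fun r : ℕ => if r < 2 * N then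
        (cosB (2 * N + 1) k r - cosB (2 * N + 1) k (r + 1)) ^ 2 else 0) (2 * N + 1),
    Finset.sum_range_succ, if_neg (by omega), add_zero]
  simp only [Nat.add_sub_cancel]
  refine Finset.sum_congr rfl fun r hr => ?_
  rw [if_pos (Finset.mem_range.mp hr)]

/-- The product basis of the box. -/
noncomputable def ff (N : ℕ) (k x : Site N) : ℝ := ∏ i, cc N (k i) (x i)

theorem ff_norm (k : Site N) : ∑ x, ff N k x ^ 2 = 1 := by
  unfold ff
  have e : ∀ x : Site N, (∏ i, cc N (k i) (x i)) ^ 2 = ∏ i, (cc N (k i) (x i)) ^ 2 := by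
    intro x
    rw [Finset.prod_pow]
  simp only [e]
  rw [sum_site_prod (fun i s => cc N (k i) s ^ 2)]
  simp [cc_norm]

theorem card_site_eq : (Fintype.card (Site N) : ℝ) = ((2 * N + 1 : ℕ) : ℝ) ^ 3 := by
  simp

theorem ff_sq_le (k x : Site N) : ff N k x ^ 2 ≤ 8 / (Fintype.card (Site N) : ℝ) := by
  unfold ff
  rw [← Finset.prod_pow, card_site_eq]
  have h1 : ∏ i : Fin 3, cc N (k i) (x i) ^ 2 ≤ ∏ _i : Fin 3, (2 / ((2 * N + 1 : ℕ) : ℝ)) :=
    Finset.prod_le_prod (fun i _ => sq_nonneg _) (fun i _ => cc_sq_le _ _)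
  refine h1.trans (le_of_eq ?_)
  simp only [Finset.prod_const, Finset.card_univ, Fintype.card_fin]
  have : (0 : ℝ) < ((2 * N + 1 : ℕ) : ℝ) := by positivity
  field_simp
  norm_num

theorem ff_complete (x y : Site N) :
    ∑ k, ff N k x * ff N k y = if x = y then 1 else 0 := by
  have e : ∀ k : Site N, ff N k x * ff N k y = ∏ i, (cc N (k i) (x i) * cc N (k i) (y i)) := by
    intro k
    unfold ff
    rw [Finset.prod_mul_distrib]
  simp only [e]
  rw [sum_site_prod (fun i s => cc N s (x i) * cc N s (y i))]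
  simp only [cc_complete]
  by_cases h : x = y
  · subst h
    simp
  · rw [if_neg h]
    obtain ⟨i, hi⟩ : ∃ i, x i ≠ y i := by
      by_contra hcon
      push Not at hcon
      exact h (funext hcon)
    apply Finset.prod_eq_zero (Finset.mem_univ i)
    rw [if_neg hi]

theorem ff_dir (k : Site N) :
    Dir N (ff N k) =
      ∑ j, 2 * (1 - Real.cos (Real.pi * (k j : ℕ) / ((2 * N + 1 : ℕ) : ℝ))) := by
  unfold Dir
  refine Finset.sum_congr rfl fun j _ => ?_
  rw [Finset.sum_filter, ← hd_sum]
  let f : Fin 3 → Fin (2 * N + 1) → ℝ := fun i s =>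
    if i = j then hd N (k j) s else cc N (k i) s ^ 2
  have h1 : ∀ x : Site N, (if (x j : ℕ) < 2 * N then (ff N k x - ff N k (nxt x j)) ^ 2 else 0) =
      ∏ i, f i (x i) := by
    intro x
    rw [← Finset.mul_prod_erase Finset.univ _ (Finset.mem_univ j)]
    have e1 : f j (x j) = hd N (k j) (x j) := by simp [f]
    have e2 : ∏ i ∈ Finset.univ.erase j, f i (x i) =
        (∏ i ∈ Finset.univ.erase j, cc N (k i) (x i)) ^ 2 := by
      rw [← Finset.prod_pow]
      refine Finset.prod_congr rfl fun i hi => ?_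
      simp [f, Finset.ne_of_mem_erase hi]
    rw [e1, e2]
    unfold hd
    by_cases h : (x j : ℕ) < 2 * N
    · rw [if_pos h, if_pos h]
      have e3 : ff N k x = cc N (k j) (x j) * ∏ i ∈ Finset.univ.erase j, cc N (k i) (x i) := by
        unfold ff
        exact (Finset.mul_prod_erase Finset.univ (fun i => cc N (k i) (x i)) (Finset.mem_univ j)).symm
      have e4 : ff N k (nxt x j) = cc N (k j) (x j + 1) *
          ∏ i ∈ Finset.univ.erase j, cc N (k i) (x i) := by
        unfold ff
        rw [← Finset.mul_prod_erase Finset.univ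
          (fun i => cc N (k i) (nxt x j i)) (Finset.mem_univ j)]
        congr 1
        · simp [nxt]
        · refine Finset.prod_congr rfl fun i hi => ?_
          rw [nxt_other (Finset.ne_of_mem_erase hi)]
      rw [e3, e4]
      ring
    · rw [if_neg h, if_neg h, zero_mul]
  rw [Finset.sum_congr rfl fun x _ => h1 x, sum_site_prod,
    ← Finset.mul_prod_erase Finset.univ _ (Finset.mem_univ j)]
  have h2 : ∑ s, f j s = ∑ s, hd N (k j) s := by simp [f]
  have h3 : ∏ i ∈ Finset.univ.erase j, ∑ s, f i s = 1 := by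
    apply Finset.prod_eq_one
    intro i hi
    have : ∀ s, f i s = cc N (k i) s ^ 2 := by
      intro s
      simp [f, Finset.ne_of_mem_erase hi]
    simp only [this]
    exact cc_norm _
  rw [h2, h3, mul_one]

end Vale.Agent.Lib.P361
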