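import Mathlib

set_option linter.unusedSectionVars false

namespace Vale.Agent.Lib.P361

variable {Λ : Type}

/-- The properties of `‖Ω_xy ψ‖²` used in the path comparison. -/
structure TriFun (q : Λ → Λ → ℝ) : Prop where
  nonneg : ∀ x y, 0 ≤ q x y
  self : ∀ x, q x x = 0
  symm : ∀ x y, q x y = q y x
  tri : ∀ x y z (s : ℝ), 0 < s → q x z ≤ (1 + s) * q x y + (1 + 1 / s) * q y z

theorem chain_le {q : Λ → Λ → ℝ} (hq : TriFun q) (f : ℕ → Λ) (a : ℕ) :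
    ∀ m : ℕ, q (f a) (f (a + m)) ≤ m * ∑ i ∈ Finset.Ico a (a + m), q (f i) (f (i + 1)) := by
  intro m
  induction m with
  | zero => simp [hq.self]
  | succ m ih =>
    rw [← add_assoc, Finset.sum_Ico_succ_top (by omega)]
    by_cases hm : m = 0
    · subst hm
      simp
    · have hm' : (0 : ℝ) < m := by exact_mod_cast Nat.pos_of_ne_zero hm
      have hs : (0 : ℝ) < 1 / m := by positivity
      have h1 := hq.tri (f a) (f (a + m)) (f (a + m + 1)) (1 / m) hs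
      have h2 : (1 + 1 / (m : ℝ)) * q (f a) (f (a + m)) ≤
          (1 + 1 / (m : ℝ)) * (m * ∑ i ∈ Finset.Ico a (a + m), q (f i) (f (i + 1))) :=
        mul_le_mul_of_nonneg_left ih (by positivity)
      have h3 : (1 + 1 / (m : ℝ)) * (m * ∑ i ∈ Finset.Ico a (a + m), q (f i) (f (i + 1))) =
          (m + 1) * ∑ i ∈ Finset.Ico a (a + m), q (f i) (f (i + 1)) := by
        field_simp
      have h4 : 1 + 1 / (1 / (m : ℝ)) = m + 1 := by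
        field_simp
        ring
      rw [h4] at h1
      push_cast
      nlinarith

theorem line_pair_le {q : Λ → Λ → ℝ} (hq : TriFun q) (f : ℕ → Λ) (r a b : ℕ)
    (ha : a < r) (hb : b < r) :
    q (f a) (f b) ≤ r * ∑ i ∈ Finset.range (r - 1), q (f i) (f (i + 1)) := by
  have key : ∀ a b : ℕ, a ≤ b → b < r →
      q (f a) (f b) ≤ r * ∑ i ∈ Finset.range (r - 1), q (f i) (f (i + 1)) := by
    intro a b hab hb
    obtain ⟨m, rfl⟩ := Nat.exists_eq_add_of_le hab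
    have h1 := chain_le hq f a m
    have hsub : Finset.Ico a (a + m) ⊆ Finset.range (r - 1) := by
      intro i hi
      simp only [Finset.mem_Ico, Finset.mem_range] at hi ⊢
      omega
    have h2 : ∑ i ∈ Finset.Ico a (a + m), q (f i) (f (i + 1)) ≤
        ∑ i ∈ Finset.range (r - 1), q (f i) (f (i + 1)) :=
      Finset.sum_le_sum_of_subset_of_nonneg hsub (fun i _ _ => hq.nonneg _ _)
    have h3 : 0 ≤ ∑ i ∈ Finset.range (r - 1), q (f i) (f (i + 1)) :=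
      Finset.sum_nonneg fun i _ => hq.nonneg _ _
    have h4 : (m : ℝ) ≤ r := by exact_mod_cast (by omega : m ≤ r)
    calc q (f a) (f (a + m)) ≤ m * ∑ i ∈ Finset.Ico a (a + m), q (f i) (f (i + 1)) := h1
      _ ≤ m * ∑ i ∈ Finset.range (r - 1), q (f i) (f (i + 1)) :=
          mul_le_mul_of_nonneg_left h2 (Nat.cast_nonneg _)
      _ ≤ r * ∑ i ∈ Finset.range (r - 1), q (f i) (f (i + 1)) :=
          mul_le_mul_of_nonneg_right h4 h3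
  rcases le_total a b with h | h
  · exact key a b h hb
  · rw [hq.symm]
    exact key b a h ha

theorem line_sum_le {q : Λ → Λ → ℝ} (hq : TriFun q) (f : ℕ → Λ) (r : ℕ) :
    ∑ a ∈ Finset.range r, ∑ b ∈ Finset.range r, q (f a) (f b) ≤
      (r : ℝ) ^ 3 * ∑ i ∈ Finset.range (r - 1), q (f i) (f (i + 1)) := by
  calc ∑ a ∈ Finset.range r, ∑ b ∈ Finset.range r, q (f a) (f b)
      ≤ ∑ a ∈ Finset.range r, ∑ b ∈ Finset.range r,
          ((r : ℝ) * ∑ i ∈ Finset.range (r - 1), q (f i) (f (i + 1))) := by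
        refine Finset.sum_le_sum fun a ha => Finset.sum_le_sum fun b hb => ?_
        exact line_pair_le hq f r a b (Finset.mem_range.mp ha) (Finset.mem_range.mp hb)
    _ = _ := by
        simp only [Finset.sum_const, Finset.card_range, nsmul_eq_mul]
        ring

theorem tri3 {q : Λ → Λ → ℝ} (hq : TriFun q) (x p w y : Λ) :
    q x y ≤ 3 * (q x p + q p w + q w y) := by
  have h1 := hq.tri x w y (1 / 2) (by norm_num)
  have h2 := hq.tri x p w 1 (by norm_num)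
  norm_num at h1 h2
  linarith

theorem sum3_rot {α : Type} (R : Finset α) (F : α → α → α → ℝ) :
    ∑ a ∈ R, ∑ b ∈ R, ∑ c ∈ R, F a b c = ∑ b ∈ R, ∑ c ∈ R, ∑ a ∈ R, F a b c := by
  rw [Finset.sum_comm]
  refine Finset.sum_congr rfl fun b _ => ?_
  rw [Finset.sum_comm]

/-- Path comparison on a cube, in terms of an arbitrary labelling `ι`. -/
theorem cube_compare {q : Λ → Λ → ℝ} (hq : TriFun q) (ι : ℕ → ℕ → ℕ → Λ) (r : ℕ) :
    ∑ u1 ∈ Finset.range r, ∑ u2 ∈ Finset.range r, ∑ u3 ∈ Finset.range r,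
      ∑ v1 ∈ Finset.range r, ∑ v2 ∈ Finset.range r, ∑ v3 ∈ Finset.range r,
        q (ι u1 u2 u3) (ι v1 v2 v3) ≤
    3 * (r : ℝ) ^ 5 *
      (∑ u2 ∈ Finset.range r, ∑ u3 ∈ Finset.range r, ∑ i ∈ Finset.range (r - 1),
          q (ι i u2 u3) (ι (i + 1) u2 u3)
        + ∑ u1 ∈ Finset.range r, ∑ u3 ∈ Finset.range r, ∑ i ∈ Finset.range (r - 1),
          q (ι u1 i u3) (ι u1 (i + 1) u3)
        + ∑ u1 ∈ Finset.range r, ∑ u2 ∈ Finset.range r, ∑ i ∈ Finset.range (r - 1),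
          q (ι u1 u2 i) (ι u1 u2 (i + 1))) := by
  set R := Finset.range r with hR
  have hcard : ∀ c : ℝ, ∑ _a ∈ R, c = r * c := by
    intro c
    simp [hR]
  -- the three partial sums
  have S1 : ∑ u1 ∈ R, ∑ u2 ∈ R, ∑ u3 ∈ R, ∑ v1 ∈ R, ∑ v2 ∈ R, ∑ v3 ∈ R,
      q (ι u1 u2 u3) (ι v1 u2 u3) ≤
      (r : ℝ) ^ 5 * ∑ u2 ∈ R, ∑ u3 ∈ R, ∑ i ∈ Finset.range (r - 1),
          q (ι i u2 u3) (ι (i + 1) u2 u3) := by
    have e : ∑ u1 ∈ R, ∑ u2 ∈ R, ∑ u3 ∈ R, ∑ v1 ∈ R, ∑ v2 ∈ R, ∑ v3 ∈ R,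
        q (ι u1 u2 u3) (ι v1 u2 u3) =
        ∑ u2 ∈ R, ∑ u3 ∈ R, (r : ℝ) ^ 2 * ∑ u1 ∈ R, ∑ v1 ∈ R, q (ι u1 u2 u3) (ι v1 u2 u3) := by
      rw [sum3_rot]
      refine Finset.sum_congr rfl fun u2 _ => Finset.sum_congr rfl fun u3 _ => ?_
      rw [Finset.mul_sum]
      refine Finset.sum_congr rfl fun u1 _ => ?_
      rw [Finset.mul_sum]
      refine Finset.sum_congr rfl fun v1 _ => ?_
      simp only [hcard]
      ring
    rw [e, Finset.mul_sum]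
    refine Finset.sum_le_sum fun u2 _ => ?_
    rw [Finset.mul_sum]
    refine Finset.sum_le_sum fun u3 _ => ?_
    have := line_sum_le hq (fun i => ι i u2 u3) r
    calc (r : ℝ) ^ 2 * ∑ u1 ∈ R, ∑ v1 ∈ R, q (ι u1 u2 u3) (ι v1 u2 u3)
        ≤ (r : ℝ) ^ 2 * ((r : ℝ) ^ 3 * ∑ i ∈ Finset.range (r - 1),
            q (ι i u2 u3) (ι (i + 1) u2 u3)) :=
          mul_le_mul_of_nonneg_left this (by positivity)
      _ = _ := by ring
  have S2 : ∑ u1 ∈ R, ∑ u2 ∈ R, ∑ u3 ∈ R, ∑ v1 ∈ R, ∑ v2 ∈ R, ∑ v3 ∈ R,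
      q (ι v1 u2 u3) (ι v1 v2 u3) ≤
      (r : ℝ) ^ 5 * ∑ u1 ∈ R, ∑ u3 ∈ R, ∑ i ∈ Finset.range (r - 1),
          q (ι u1 i u3) (ι u1 (i + 1) u3) := by
    have e : ∑ u1 ∈ R, ∑ u2 ∈ R, ∑ u3 ∈ R, ∑ v1 ∈ R, ∑ v2 ∈ R, ∑ v3 ∈ R,
        q (ι v1 u2 u3) (ι v1 v2 u3) =
        ∑ v1 ∈ R, ∑ u3 ∈ R, (r : ℝ) ^ 2 * ∑ u2 ∈ R, ∑ v2 ∈ R, q (ι v1 u2 u3) (ι v1 v2 u3) := by
      rw [hcard]
      have e2 : ∑ u2 ∈ R, ∑ u3 ∈ R, ∑ v1 ∈ R, ∑ v2 ∈ R, ∑ v3 ∈ R, q (ι v1 u2 u3) (ι v1 v2 u3)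
          = ∑ v1 ∈ R, ∑ u3 ∈ R, ∑ u2 ∈ R, ∑ v2 ∈ R, (r : ℝ) * q (ι v1 u2 u3) (ι v1 v2 u3) := by
        rw [sum3_rot, sum3_rot]
        refine Finset.sum_congr rfl fun v1 _ => ?_
        rw [Finset.sum_comm]
        refine Finset.sum_congr rfl fun u3 _ => Finset.sum_congr rfl fun u2 _ =>
          Finset.sum_congr rfl fun v2 _ => ?_
        rw [hcard]
      rw [e2, Finset.mul_sum]
      refine Finset.sum_congr rfl fun v1 _ => ?_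
      rw [Finset.mul_sum]
      refine Finset.sum_congr rfl fun u3 _ => ?_
      rw [Finset.mul_sum, Finset.mul_sum]
      refine Finset.sum_congr rfl fun u2 _ => ?_
      rw [Finset.mul_sum, Finset.mul_sum]
      refine Finset.sum_congr rfl fun v2 _ => ?_
      ring
    rw [e, Finset.mul_sum]
    refine Finset.sum_le_sum fun v1 _ => ?_
    rw [Finset.mul_sum]
    refine Finset.sum_le_sum fun u3 _ => ?_
    have := line_sum_le hq (fun i => ι v1 i u3) r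
    calc (r : ℝ) ^ 2 * ∑ u2 ∈ R, ∑ v2 ∈ R, q (ι v1 u2 u3) (ι v1 v2 u3)
        ≤ (r : ℝ) ^ 2 * ((r : ℝ) ^ 3 * ∑ i ∈ Finset.range (r - 1),
            q (ι v1 i u3) (ι v1 (i + 1) u3)) :=
          mul_le_mul_of_nonneg_left this (by positivity)
      _ = _ := by ring
  have S3 : ∑ u1 ∈ R, ∑ u2 ∈ R, ∑ u3 ∈ R, ∑ v1 ∈ R, ∑ v2 ∈ R, ∑ v3 ∈ R,
      q (ι v1 v2 u3) (ι v1 v2 v3) ≤
      (r : ℝ) ^ 5 * ∑ u1 ∈ R, ∑ u2 ∈ R, ∑ i ∈ Finset.range (r - 1),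
          q (ι u1 u2 i) (ι u1 u2 (i + 1)) := by
    have e : ∑ u1 ∈ R, ∑ u2 ∈ R, ∑ u3 ∈ R, ∑ v1 ∈ R, ∑ v2 ∈ R, ∑ v3 ∈ R,
        q (ι v1 v2 u3) (ι v1 v2 v3) =
        ∑ v1 ∈ R, ∑ v2 ∈ R, (r : ℝ) ^ 2 * ∑ u3 ∈ R, ∑ v3 ∈ R, q (ι v1 v2 u3) (ι v1 v2 v3) := by
      rw [hcard]
      have e2 : ∑ u2 ∈ R, ∑ u3 ∈ R, ∑ v1 ∈ R, ∑ v2 ∈ R, ∑ v3 ∈ R, q (ι v1 v2 u3) (ι v1 v2 v3)
          = ∑ v1 ∈ R, ∑ v2 ∈ R, ∑ u3 ∈ R, ∑ v3 ∈ R, (r : ℝ) * q (ι v1 v2 u3) (ι v1 v2 v3) := by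
        rw [hcard, sum3_rot]
        simp only [Finset.mul_sum]
      rw [e2, Finset.mul_sum]
      refine Finset.sum_congr rfl fun v1 _ => ?_
      rw [Finset.mul_sum]
      refine Finset.sum_congr rfl fun v2 _ => ?_
      rw [Finset.mul_sum, Finset.mul_sum]
      refine Finset.sum_congr rfl fun u3 _ => ?_
      rw [Finset.mul_sum, Finset.mul_sum]
      refine Finset.sum_congr rfl fun v3 _ => ?_
      ring
    rw [e, Finset.mul_sum]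
    refine Finset.sum_le_sum fun v1 _ => ?_
    rw [Finset.mul_sum]
    refine Finset.sum_le_sum fun v2 _ => ?_
    have := line_sum_le hq (fun i => ι v1 v2 i) r
    calc (r : ℝ) ^ 2 * ∑ u3 ∈ R, ∑ v3 ∈ R, q (ι v1 v2 u3) (ι v1 v2 v3)
        ≤ (r : ℝ) ^ 2 * ((r : ℝ) ^ 3 * ∑ i ∈ Finset.range (r - 1),
            q (ι v1 v2 i) (ι v1 v2 (i + 1))) :=
          mul_le_mul_of_nonneg_left this (by positivity)
      _ = _ := by ring
  have hmain : ∑ u1 ∈ R, ∑ u2 ∈ R, ∑ u3 ∈ R, ∑ v1 ∈ R, ∑ v2 ∈ R, ∑ v3 ∈ R,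
        q (ι u1 u2 u3) (ι v1 v2 v3) ≤
      3 * ((∑ u1 ∈ R, ∑ u2 ∈ R, ∑ u3 ∈ R, ∑ v1 ∈ R, ∑ v2 ∈ R, ∑ v3 ∈ R,
            q (ι u1 u2 u3) (ι v1 u2 u3))
        + (∑ u1 ∈ R, ∑ u2 ∈ R, ∑ u3 ∈ R, ∑ v1 ∈ R, ∑ v2 ∈ R, ∑ v3 ∈ R,
            q (ι v1 u2 u3) (ι v1 v2 u3))
        + (∑ u1 ∈ R, ∑ u2 ∈ R, ∑ u3 ∈ R, ∑ v1 ∈ R, ∑ v2 ∈ R, ∑ v3 ∈ R,
            q (ι v1 v2 u3) (ι v1 v2 v3))) := by
    simp only [← Finset.sum_add_distrib, Finset.mul_sum]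
    refine Finset.sum_le_sum fun u1 _ => Finset.sum_le_sum fun u2 _ => Finset.sum_le_sum fun u3 _ =>
      Finset.sum_le_sum fun v1 _ => Finset.sum_le_sum fun v2 _ => Finset.sum_le_sum fun v3 _ => ?_
    exact tri3 hq _ _ _ _
  have hfinal := add_le_add (add_le_add S1 S2) S3
  rw [← mul_add, ← mul_add] at hfinal
  have := mul_le_mul_of_nonneg_left hfinal (by norm_num : (0 : ℝ) ≤ 3)
  calc _ ≤ _ := hmain
    _ ≤ _ := this
    _ = _ := by ring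

end Vale.Agent.Lib.P361
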