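import Vale.Agent.Lib.P361.Gap
import Vale.Agent.Lib.P361.Compare

open scoped Matrix
open Function

set_option linter.unusedSectionVars false

namespace Vale.Agent.Lib.P361

variable {t N : ℕ}

/-- Dyadic blocks of the box. -/
def blk (N k : ℕ) (b : Fin 3 → ℕ) : Finset (Site N) :=
  Finset.univ.filter fun x => ∀ i, (x i : ℕ) / 2 ^ k = b i

/-- A dyadic block all of whose sites exist. -/
def Good (N k : ℕ) (b : Fin 3 → ℕ) : Prop := ∀ i, (b i + 1) * 2 ^ k ≤ 2 * N + 1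

/-- The labelling of a block by three coordinates. -/
def lab (N k : ℕ) (b : Fin 3 → ℕ) (u : Fin 3 → ℕ) : Site N :=
  fun i => ⟨(b i * 2 ^ k + u i) % (2 * N + 1), Nat.mod_lt _ (by omega)⟩

theorem mem_blk {k : ℕ} {b : Fin 3 → ℕ} {x : Site N} :
    x ∈ blk N k b ↔ ∀ i, (x i : ℕ) / 2 ^ k = b i := by
  simp [blk]

theorem lab_val {k : ℕ} {b u : Fin 3 → ℕ} (hG : Good N k b) (i : Fin 3) (hu : u i < 2 ^ k) :
    ((lab N k b u i : Fin _) : ℕ) = b i * 2 ^ k + u i := by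
  have h := hG i
  simp only [lab]
  apply Nat.mod_eq_of_lt
  have : (b i + 1) * 2 ^ k = b i * 2 ^ k + 2 ^ k := by ring
  omega

theorem div_helper {b u r : ℕ} (hu : u < r) : (b * r + u) / r = b := by
  have hr : 0 < r := by omega
  rw [Nat.add_comm, Nat.add_mul_div_right _ _ hr, Nat.div_eq_of_lt hu, Nat.zero_add]

theorem lab_mem {k : ℕ} {b u : Fin 3 → ℕ} (hG : Good N k b) (hu : ∀ i, u i < 2 ^ k) :
    lab N k b u ∈ blk N k b := by
  rw [mem_blk]
  intro i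
  rw [lab_val hG i (hu i), div_helper (hu i)]

theorem val_of_mem {k : ℕ} {b : Fin 3 → ℕ} {x : Site N} (hx : x ∈ blk N k b) (i : Fin 3) :
    (x i : ℕ) = b i * 2 ^ k + (x i : ℕ) % 2 ^ k := by
  have h := (mem_blk.mp hx) i
  have h2 := Nat.div_add_mod' (x i : ℕ) (2 ^ k)
  rw [h] at h2
  exact h2.symm

theorem lab_of_mem {k : ℕ} {b : Fin 3 → ℕ} (hG : Good N k b) {x : Site N} (hx : x ∈ blk N k b)
    {u : Fin 3 → ℕ} (hu : ∀ i, u i = (x i : ℕ) % 2 ^ k) : lab N k b u = x := by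
  funext i
  apply Fin.ext
  have hlt : u i < 2 ^ k := by rw [hu i]; exact Nat.mod_lt _ (by positivity)
  rw [lab_val hG i hlt, hu i]
  exact (val_of_mem hx i).symm

theorem sum_blk {α : Type} [AddCommMonoid α] {k : ℕ} {b : Fin 3 → ℕ} (hG : Good N k b)
    (F : Site N → α) :
    ∑ x ∈ blk N k b, F x =
      ∑ u1 ∈ Finset.range (2 ^ k), ∑ u2 ∈ Finset.range (2 ^ k), ∑ u3 ∈ Finset.range (2 ^ k),
        F (lab N k b ![u1, u2, u3]) := by
  have e : ∑ u1 ∈ Finset.range (2 ^ k), ∑ u2 ∈ Finset.range (2 ^ k),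
        ∑ u3 ∈ Finset.range (2 ^ k), F (lab N k b ![u1, u2, u3]) =
      ∑ p ∈ Finset.range (2 ^ k) ×ˢ (Finset.range (2 ^ k) ×ˢ Finset.range (2 ^ k)),
        F (lab N k b ![p.1, p.2.1, p.2.2]) := by
    simp only [Finset.sum_product]
  rw [e]
  have hpos : 0 < 2 ^ k := by positivity
  refine Finset.sum_nbij'
    (fun x => ((x 0 : ℕ) % 2 ^ k, (x 1 : ℕ) % 2 ^ k, (x 2 : ℕ) % 2 ^ k))
    (fun p => lab N k b ![p.1, p.2.1, p.2.2]) ?_ ?_ ?_ ?_ ?_
  · intro x _
    simp only [Finset.mem_product, Finset.mem_range]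
    exact ⟨Nat.mod_lt _ hpos, Nat.mod_lt _ hpos, Nat.mod_lt _ hpos⟩
  · intro p hp
    simp only [Finset.mem_product, Finset.mem_range] at hp
    apply lab_mem hG
    intro i
    fin_cases i
    · exact hp.1
    · exact hp.2.1
    · exact hp.2.2
  · intro x hx
    apply lab_of_mem hG hx
    intro i
    fin_cases i <;> rfl
  · intro p hp
    simp only [Finset.mem_product, Finset.mem_range] at hp
    have hu : ∀ i, (![p.1, p.2.1, p.2.2] : Fin 3 → ℕ) i < 2 ^ k := by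
      intro i
      fin_cases i
      · exact hp.1
      · exact hp.2.1
      · exact hp.2.2
    ext1
    · show ((lab N k b ![p.1, p.2.1, p.2.2] 0 : Fin _) : ℕ) % 2 ^ k = p.1
      rw [lab_val hG 0 (hu 0)]
      simpa using Nat.mod_eq_of_lt hp.1
    · ext1
      · show ((lab N k b ![p.1, p.2.1, p.2.2] 1 : Fin _) : ℕ) % 2 ^ k = p.2.1
        rw [lab_val hG 1 (hu 1)]
        simpa using Nat.mod_eq_of_lt hp.2.1
      · show ((lab N k b ![p.1, p.2.1, p.2.2] 2 : Fin _) : ℕ) % 2 ^ k = p.2.2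
        rw [lab_val hG 2 (hu 2)]
        simpa using Nat.mod_eq_of_lt hp.2.2
  · intro x hx
    congr 1
    symm
    apply lab_of_mem hG hx
    intro i
    fin_cases i <;> rfl

theorem card_blk {k : ℕ} {b : Fin 3 → ℕ} (hG : Good N k b) :
    (blk N k b).card = (2 ^ k) ^ 3 := by
  rw [Finset.card_eq_sum_ones, sum_blk hG]
  simp
  ring

theorem blk_nonempty {k : ℕ} {b : Fin 3 → ℕ} (hG : Good N k b) : (blk N k b).Nonempty := by
  refine ⟨lab N k b 0, lab_mem hG fun i => ?_⟩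
  simp

/-! ### Edges -/

/-- The next site in direction `j`. -/
def nxt (x : Site N) (j : Fin 3) : Site N := update x j (x j + 1)

theorem nxt_val {x : Site N} {j : Fin 3} (h : (x j : ℕ) < 2 * N) :
    ((nxt x j j : Fin _) : ℕ) = (x j : ℕ) + 1 := by
  simp only [nxt, update_self]
  rw [Fin.val_add_one_of_lt]
  rw [Fin.lt_def]
  simpa using h

theorem nxt_other {x : Site N} {j i : Fin 3} (h : i ≠ j) : nxt x j i = x i := by
  simp [nxt, update_of_ne h]

theorem nxt_ne {x : Site N} {j : Fin 3} (h : (x j : ℕ) < 2 * N) : x ≠ nxt x j := by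
  intro e
  have := nxt_val h
  rw [← e] at this
  omega

/-- The energy form of the edges inside the set `B`. -/
noncomputable def Eblk (t N : ℕ) (ψ : Cf (Site N) t → ℂ) (B : Finset (Site N)) : ℝ :=
  ∑ j : Fin 3, ∑ x ∈ B, if (x j : ℕ) < 2 * N ∧ nxt x j ∈ B then qf (bond t x (nxt x j)) ψ else 0

theorem qf_edge_nonneg (ψ : Cf (Site N) t → ℂ) {x : Site N} {j : Fin 3} (h : (x j : ℕ) < 2 * N) :
    0 ≤ qf (bond t x (nxt x j)) ψ := by
  rw [qf_bond (nxt_ne h)]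
  have := nsq_nonneg (omegaOp t x (nxt x j) *ᵥ ψ)
  positivity

theorem Eblk_nonneg (ψ : Cf (Site N) t → ℂ) (B : Finset (Site N)) : 0 ≤ Eblk t N ψ B := by
  refine Finset.sum_nonneg fun j _ => Finset.sum_nonneg fun x _ => ?_
  split_ifs with h
  · exact qf_edge_nonneg ψ h.1
  · exact le_rfl

/-- Superadditivity of the edge energy. -/
theorem Eblk_sum_le {ι : Type} [DecidableEq ι] (s : Finset ι) (C : ι → Finset (Site N))
    (B : Finset (Site N)) (hd : (s : Set ι).PairwiseDisjoint C) (hC : ∀ i ∈ s, C i ⊆ B)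
    (ψ : Cf (Site N) t → ℂ) :
    ∑ i ∈ s, Eblk t N ψ (C i) ≤ Eblk t N ψ B := by
  unfold Eblk
  rw [Finset.sum_comm]
  refine Finset.sum_le_sum fun j _ => ?_
  set g : Site N → ℝ := fun x =>
    if (x j : ℕ) < 2 * N ∧ nxt x j ∈ B then qf (bond t x (nxt x j)) ψ else 0 with hg
  have hg0 : ∀ x, 0 ≤ g x := by
    intro x
    simp only [hg]
    split_ifs with h
    · exact qf_edge_nonneg ψ h.1
    · exact le_rfl
  have h1 : ∀ i ∈ s, (∑ x ∈ C i, if (x j : ℕ) < 2 * N ∧ nxt x j ∈ C i then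
      qf (bond t x (nxt x j)) ψ else 0) ≤ ∑ x ∈ C i, g x := by
    intro i hi
    refine Finset.sum_le_sum fun x _ => ?_
    simp only [hg]
    by_cases h : (x j : ℕ) < 2 * N ∧ nxt x j ∈ C i
    · rw [if_pos h, if_pos ⟨h.1, hC i hi h.2⟩]
    · rw [if_neg h]
      split_ifs with h'
      · exact qf_edge_nonneg ψ h'.1
      · exact le_rfl
  refine (Finset.sum_le_sum h1).trans ?_
  rw [← Finset.sum_biUnion hd]
  apply Finset.sum_le_sum_of_subset_of_nonneg
  · intro x hx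
    obtain ⟨i, hi, hxi⟩ := Finset.mem_biUnion.mp hx
    exact hC i hi hxi
  · intro x _ _
    exact hg0 x

/-- The edges of a block in terms of the labels. -/
theorem edge_iff {k : ℕ} {b u : Fin 3 → ℕ} (hG : Good N k b) (hu : ∀ i, u i < 2 ^ k) (j : Fin 3) :
    ((lab N k b u j : Fin _) : ℕ) < 2 * N ∧ nxt (lab N k b u) j ∈ blk N k b ↔ u j + 1 < 2 ^ k := by
  have hv := lab_val hG j (hu j)
  have hg := hG j
  have e : (b j + 1) * 2 ^ k = b j * 2 ^ k + 2 ^ k := by ring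
  constructor
  · rintro ⟨h1, h2⟩
    by_contra hcon
    have h3 : u j + 1 = 2 ^ k := by have := hu j; omega
    have h4 := (mem_blk.mp h2) j
    rw [nxt_val h1, hv] at h4
    have h5 : b j * 2 ^ k + u j + 1 = (b j + 1) * 2 ^ k := by rw [e]; omega
    rw [h5, Nat.mul_div_cancel _ (by positivity)] at h4
    omega
  · intro h
    have h1 : ((lab N k b u j : Fin _) : ℕ) < 2 * N := by
      rw [hv]
      omega
    refine ⟨h1, ?_⟩
    rw [mem_blk]
    intro i
    by_cases hij : i = j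
    · subst hij
      rw [nxt_val h1, hv, add_assoc, div_helper h]
    · rw [nxt_other hij, lab_val hG i (hu i), div_helper (hu i)]

theorem nxt_lab {k : ℕ} {b u : Fin 3 → ℕ} (hG : Good N k b) (hu : ∀ i, u i < 2 ^ k) (j : Fin 3)
    (h : u j + 1 < 2 ^ k) : nxt (lab N k b u) j = lab N k b (update u j (u j + 1)) := by
  have hv := lab_val hG j (hu j)
  have hg := hG j
  have e : (b j + 1) * 2 ^ k = b j * 2 ^ k + 2 ^ k := by ring
  have h1 : ((lab N k b u j : Fin _) : ℕ) < 2 * N := by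
    rw [hv]
    omega
  funext i
  by_cases hij : i = j
  · subst hij
    apply Fin.ext
    rw [nxt_val h1, hv, lab_val hG i (by rw [update_self]; exact h), update_self]
    ring
  · rw [nxt_other hij]
    apply Fin.ext
    rw [lab_val hG i (hu i), lab_val hG i (by rw [update_of_ne hij]; exact hu i),
      update_of_ne hij]

theorem line_sum (r : ℕ) (F : ℕ → ℝ) :
    ∑ u ∈ Finset.range r, (if u + 1 < r then F u else 0) = ∑ i ∈ Finset.range (r - 1), F i := by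
  cases r with
  | zero => simp
  | succ r =>
    rw [Finset.sum_range_succ, if_neg (by omega), add_zero, Nat.add_sub_cancel]
    refine Finset.sum_congr rfl fun u hu => ?_
    rw [if_pos (by have := Finset.mem_range.mp hu; omega)]

theorem Ufin {r u1 u2 u3 : ℕ} (h1 : u1 < r) (h2 : u2 < r) (h3 : u3 < r) :
    ∀ i, (![u1, u2, u3] : Fin 3 → ℕ) i < r := by
  intro i
  fin_cases i
  · exact h1
  · exact h2
  · exact h3

/-- Direction `0`. -/
theorem dir0_eq {k : ℕ} {b : Fin 3 → ℕ} (hG : Good N k b) (ψ : Cf (Site N) t → ℂ) :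
    (∑ x ∈ blk N k b, if (x 0 : ℕ) < 2 * N ∧ nxt x 0 ∈ blk N k b then
        qf (bond t x (nxt x 0)) ψ else 0) =
      (1 / 2) * ∑ u2 ∈ Finset.range (2 ^ k), ∑ u3 ∈ Finset.range (2 ^ k),
        ∑ i ∈ Finset.range (2 ^ k - 1),
          qE t ψ (lab N k b ![i, u2, u3]) (lab N k b ![i + 1, u2, u3]) := by
  rw [sum_blk hG, Finset.sum_comm]
  rw [Finset.mul_sum]
  refine Finset.sum_congr rfl fun u2 hu2 => ?_
  rw [Finset.sum_comm, Finset.mul_sum]
  refine Finset.sum_congr rfl fun u3 hu3 => ?_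
  rw [← line_sum, Finset.mul_sum]
  refine Finset.sum_congr rfl fun u1 hu1 => ?_
  have hu := Ufin (Finset.mem_range.mp hu1) (Finset.mem_range.mp hu2) (Finset.mem_range.mp hu3)
  have hiff := edge_iff hG hu 0
  simp only [Matrix.cons_val_zero] at hiff
  by_cases h : u1 + 1 < 2 ^ k
  · rw [if_pos (hiff.mpr h), if_pos h]
    have hne := nxt_ne (hiff.mpr h).1
    have hn := nxt_lab hG hu 0 (by simpa using h)
    have e : update (![u1, u2, u3] : Fin 3 → ℕ) 0 ((![u1, u2, u3] : Fin 3 → ℕ) 0 + 1)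
        = ![u1 + 1, u2, u3] := by
      funext i
      fin_cases i <;> simp
    rw [e] at hn
    rw [qf_bond hne, hn]
    rw [hn] at hne
    rw [qE, if_neg hne]
  · rw [if_neg (fun hc => h (hiff.mp hc)), if_neg h, mul_zero]

/-- Direction `1`. -/
theorem dir1_eq {k : ℕ} {b : Fin 3 → ℕ} (hG : Good N k b) (ψ : Cf (Site N) t → ℂ) :
    (∑ x ∈ blk N k b, if (x 1 : ℕ) < 2 * N ∧ nxt x 1 ∈ blk N k b then
        qf (bond t x (nxt x 1)) ψ else 0) =
      (1 / 2) * ∑ u1 ∈ Finset.range (2 ^ k), ∑ u3 ∈ Finset.range (2 ^ k),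
        ∑ i ∈ Finset.range (2 ^ k - 1),
          qE t ψ (lab N k b ![u1, i, u3]) (lab N k b ![u1, i + 1, u3]) := by
  rw [sum_blk hG]
  rw [Finset.mul_sum]
  refine Finset.sum_congr rfl fun u1 hu1 => ?_
  rw [Finset.sum_comm, Finset.mul_sum]
  refine Finset.sum_congr rfl fun u3 hu3 => ?_
  rw [← line_sum, Finset.mul_sum]
  refine Finset.sum_congr rfl fun u2 hu2 => ?_
  have hu := Ufin (Finset.mem_range.mp hu1) (Finset.mem_range.mp hu2) (Finset.mem_range.mp hu3)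
  have hiff := edge_iff hG hu 1
  simp only [Matrix.cons_val_one, Matrix.cons_val_zero] at hiff
  by_cases h : u2 + 1 < 2 ^ k
  · rw [if_pos (hiff.mpr h), if_pos h]
    have hne := nxt_ne (hiff.mpr h).1
    have hn := nxt_lab hG hu 1 (by simpa using h)
    have e : update (![u1, u2, u3] : Fin 3 → ℕ) 1 ((![u1, u2, u3] : Fin 3 → ℕ) 1 + 1)
        = ![u1, u2 + 1, u3] := by
      funext i
      fin_cases i <;> simp
    rw [e] at hn
    rw [qf_bond hne, hn]
    rw [hn] at hne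
    rw [qE, if_neg hne]
  · rw [if_neg (fun hc => h (hiff.mp hc)), if_neg h, mul_zero]

/-- Direction `2`. -/
theorem dir2_eq {k : ℕ} {b : Fin 3 → ℕ} (hG : Good N k b) (ψ : Cf (Site N) t → ℂ) :
    (∑ x ∈ blk N k b, if (x 2 : ℕ) < 2 * N ∧ nxt x 2 ∈ blk N k b then
        qf (bond t x (nxt x 2)) ψ else 0) =
      (1 / 2) * ∑ u1 ∈ Finset.range (2 ^ k), ∑ u2 ∈ Finset.range (2 ^ k),
        ∑ i ∈ Finset.range (2 ^ k - 1),
          qE t ψ (lab N k b ![u1, u2, i]) (lab N k b ![u1, u2, i + 1]) := by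
  rw [sum_blk hG]
  rw [Finset.mul_sum]
  refine Finset.sum_congr rfl fun u1 hu1 => ?_
  rw [Finset.mul_sum]
  refine Finset.sum_congr rfl fun u2 hu2 => ?_
  rw [← line_sum, Finset.mul_sum]
  refine Finset.sum_congr rfl fun u3 hu3 => ?_
  have hu := Ufin (Finset.mem_range.mp hu1) (Finset.mem_range.mp hu2) (Finset.mem_range.mp hu3)
  have hiff := edge_iff hG hu 2
  have e2 : (![u1, u2, u3] : Fin 3 → ℕ) 2 = u3 := rfl
  rw [e2] at hiff
  by_cases h : u3 + 1 < 2 ^ k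
  · rw [if_pos (hiff.mpr h), if_pos h]
    have hne := nxt_ne (hiff.mpr h).1
    have hn := nxt_lab hG hu 2 (by rw [e2]; exact h)
    have e : update (![u1, u2, u3] : Fin 3 → ℕ) 2 ((![u1, u2, u3] : Fin 3 → ℕ) 2 + 1)
        = ![u1, u2, u3 + 1] := by
      funext i
      fin_cases i <;> simp
    rw [e] at hn
    rw [qf_bond hne, hn]
    rw [hn] at hne
    rw [qE, if_neg hne]
  · rw [if_neg (fun hc => h (hiff.mp hc)), if_neg h, mul_zero]

/-- The norm `qE` is a `TriFun`. -/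
theorem qE_trifun (ht : 0 < t) (ψ : Cf (Site N) t → ℂ) : TriFun (qE t ψ) :=
  ⟨qE_nonneg ψ, qE_self ψ, qE_symm ψ, fun x y z _ hs => qE_triangle ht ψ x y z hs⟩

/-- The gap of a dyadic cube. -/
theorem block_gap (ht : 0 < t) {k : ℕ} {b : Fin 3 → ℕ} (hG : Good N k b)
    (ψ : Cf (Site N) t → ℂ) :
    (t : ℝ) * qf (1 - topP t (blk N k b)) ψ ≤ 3 * 4 ^ k * Eblk t N ψ (blk N k b) := by
  have h1 := gap_K2 (t := t) (blk N k b) ψ
  rw [qf_K2_eq, card_blk hG] at h1
  have h2 := cube_compare (qE_trifun ht ψ) (fun u1 u2 u3 => lab N k b ![u1, u2, u3]) (2 ^ k)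
  have h3 : ∑ x ∈ blk N k b, ∑ y ∈ blk N k b, qE t ψ x y =
      ∑ u1 ∈ Finset.range (2 ^ k), ∑ u2 ∈ Finset.range (2 ^ k), ∑ u3 ∈ Finset.range (2 ^ k),
        ∑ v1 ∈ Finset.range (2 ^ k), ∑ v2 ∈ Finset.range (2 ^ k), ∑ v3 ∈ Finset.range (2 ^ k),
          qE t ψ (lab N k b ![u1, u2, u3]) (lab N k b ![v1, v2, v3]) := by
    rw [sum_blk hG]
    refine Finset.sum_congr rfl fun u1 _ => Finset.sum_congr rfl fun u2 _ =>
      Finset.sum_congr rfl fun u3 _ => ?_
    rw [sum_blk hG]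
  have h4 : Eblk t N ψ (blk N k b) = (1 / 2) *
      (∑ u2 ∈ Finset.range (2 ^ k), ∑ u3 ∈ Finset.range (2 ^ k), ∑ i ∈ Finset.range (2 ^ k - 1),
          qE t ψ (lab N k b ![i, u2, u3]) (lab N k b ![i + 1, u2, u3])
        + ∑ u1 ∈ Finset.range (2 ^ k), ∑ u3 ∈ Finset.range (2 ^ k), ∑ i ∈ Finset.range (2 ^ k - 1),
          qE t ψ (lab N k b ![u1, i, u3]) (lab N k b ![u1, i + 1, u3])
        + ∑ u1 ∈ Finset.range (2 ^ k), ∑ u2 ∈ Finset.range (2 ^ k), ∑ i ∈ Finset.range (2 ^ k - 1),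
          qE t ψ (lab N k b ![u1, u2, i]) (lab N k b ![u1, u2, i + 1])) := by
    unfold Eblk
    rw [Fin.sum_univ_three, dir0_eq hG, dir1_eq hG, dir2_eq hG]
    ring
  beta_reduce at h2
  rw [← h3] at h2
  have hr : (0 : ℝ) < ((2 : ℝ) ^ k) ^ 3 := by positivity
  have h5 : (((t * (2 ^ k) ^ 3 : ℕ) : ℝ)) = t * ((2 : ℝ) ^ k) ^ 3 := by push_cast; ring
  rw [h5] at h1
  have h6 : ((2 ^ k : ℕ) : ℝ) = (2 : ℝ) ^ k := by push_cast; rfl
  rw [h6] at h2
  have h7 : (4 : ℝ) ^ k = ((2 : ℝ) ^ k) ^ 2 := by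
    rw [← pow_mul, mul_comm, pow_mul]
    norm_num
  rw [h7]
  set E := Eblk t N ψ (blk N k b) with hE
  set Q := qf (1 - topP t (blk N k b)) ψ with hQ
  set r : ℝ := (2 : ℝ) ^ k with hrdef
  have h8 : (t : ℝ) * r ^ 3 * Q ≤ 3 * r ^ 5 * E := by
    calc (t : ℝ) * r ^ 3 * Q ≤ (1 / 2) * ∑ x ∈ blk N k b, ∑ y ∈ blk N k b, qE t ψ x y := h1
      _ ≤ (1 / 2) * (3 * r ^ 5 * (2 * E)) := by
          apply mul_le_mul_of_nonneg_left _ (by norm_num)
          refine h2.trans (le_of_eq ?_)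
          rw [h4]
          ring
      _ = 3 * r ^ 5 * E := by ring
  have hr3 : 0 < r ^ 3 := by positivity
  have h9 : ((t : ℝ) * Q) * r ^ 3 ≤ (3 * r ^ 2 * E) * r ^ 3 := by nlinarith
  exact le_of_mul_le_mul_right h9 hr3

end Vale.Agent.Lib.P361
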