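import Mathlib

/-!
Definitions for the three dimensional quantum Heisenberg ferromagnet on a free box.
Spin is `S = t / 2` with `t : ℕ`; the one-site space has the basis `Fin (t + 1)`, where
`k` is the weight vector with `S^3 = t / 2 - k`.
-/

open scoped Matrix

namespace Vale.Agent.Lib.P361

/-- The matrix `S^3` of spin `t / 2`: diagonal with entries `t / 2 - k`. -/
noncomputable def spin3 (t : ℕ) : Matrix (Fin (t + 1)) (Fin (t + 1)) ℂ :=
  Matrix.diagonal fun k => (t : ℂ) / 2 - ((k : ℕ) : ℂ)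

/-- The raising matrix `S^+ = S^1 + i S^2` of spin `t / 2`: the only nonzero entries are
`S^+ (k, k + 1) = sqrt ((k + 1) (t - k))`. -/
noncomputable def spinPlus (t : ℕ) : Matrix (Fin (t + 1)) (Fin (t + 1)) ℂ :=
  Matrix.of fun k l =>
    if (k : ℕ) + 1 = (l : ℕ) then ((Real.sqrt ((((k : ℕ) : ℝ) + 1) * ((t : ℝ) - (k : ℕ))) : ℝ) : ℂ)
    else 0

/-- The matrix `S^1 = (S^+ + S^-) / 2`. -/
noncomputable def spin1 (t : ℕ) : Matrix (Fin (t + 1)) (Fin (t + 1)) ℂ :=
  (1 / 2 : ℂ) • (spinPlus t + (spinPlus t)ᴴ)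

/-- The matrix `S^2 = (S^+ - S^-) / (2 i)`. -/
noncomputable def spin2 (t : ℕ) : Matrix (Fin (t + 1)) (Fin (t + 1)) ℂ :=
  (-Complex.I / 2 : ℂ) • (spinPlus t - (spinPlus t)ᴴ)

/-- The operator acting as `A` on the tensor factor at site `x` and as the identity elsewhere. -/
noncomputable def onSite {Λ : Type} [Fintype Λ] [DecidableEq Λ] {t : ℕ} (x : Λ)
    (A : Matrix (Fin (t + 1)) (Fin (t + 1)) ℂ) :
    Matrix (Λ → Fin (t + 1)) (Λ → Fin (t + 1)) ℂ :=
  Matrix.of fun σ τ => if ∀ z, z ≠ x → σ z = τ z then A (σ x) (τ x) else 0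

/-- The box with `(2 N + 1) ^ 3` sites; coordinate `j` stands for the integer `j - N`, so this
is `{-N, ..., N}^3` up to a translation. -/
abbrev Site (N : ℕ) : Type := Fin 3 → Fin (2 * N + 1)

/-- `S_x · S_y = ∑ a, S^a_x S^a_y`. -/
noncomputable def dotS {Λ : Type} [Fintype Λ] [DecidableEq Λ] (t : ℕ) (x y : Λ) :
    Matrix (Λ → Fin (t + 1)) (Λ → Fin (t + 1)) ℂ :=
  onSite x (spin1 t) * onSite y (spin1 t) + onSite x (spin2 t) * onSite y (spin2 t)
    + onSite x (spin3 t) * onSite y (spin3 t)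

/-- The Hamiltonian `H_N = - ∑ S_x · S_y` with free boundary conditions: each nearest neighbour
edge of the box is the pair `{x, x + e_j}` with `x j < 2 N`, counted once. -/
noncomputable def heisenberg (t N : ℕ) : Matrix (Site N → Fin (t + 1)) (Site N → Fin (t + 1)) ℂ :=
  - ∑ j : Fin 3, ∑ x ∈ (Finset.univ.filter fun x : Site N => (x j : ℕ) < 2 * N),
      dotS t x (Function.update x j (x j + 1))

/-- The magnetization `M_N = ∑ S^3_x`. -/
noncomputable def magnetization (t N : ℕ) :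
    Matrix (Site N → Fin (t + 1)) (Site N → Fin (t + 1)) ℂ :=
  ∑ x : Site N, onSite x (spin3 t)

/-- The finite volume pressure `(1 / (β |Λ_N|)) log Tr exp (-β (H_N - h M_N))`. -/
noncomputable def finitePressure (t N : ℕ) (β h : ℝ) : ℝ :=
  (1 / (β * (Fintype.card (Site N) : ℝ))) *
    Real.log (Complex.re (Matrix.trace (NormedSpace.exp
      (((-β : ℝ) : ℂ) • (heisenberg t N - (h : ℂ) • magnetization t N)))))

end Vale.Agent.Lib.P361
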