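import Vale.Agent.Lib.P361.Shift

open scoped Matrix Topology
open Function Filter

set_option linter.unusedSectionVars false

namespace Vale.Agent.Lib.P361

variable {t N : ℕ}

theorem card_site_pos (N : ℕ) : (0 : ℝ) < (Fintype.card (Site N) : ℝ) := by
  exact_mod_cast Fintype.card_pos

/-- Finite volume convexity along the segment from `0` to `h`. -/
theorem finitePressure_convex {β : ℝ} (hβ : 0 < β) (h l : ℝ) (hl0 : 0 ≤ l) (hl1 : l ≤ 1) :
    finitePressure t N β (l * h) ≤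
      (1 - l) * finitePressure t N β 0 + l * finitePressure t N β h := by
  rw [finitePressure_eq hβ.ne', finitePressure_eq hβ.ne', finitePressure_eq hβ.ne']
  set L : ℝ := (Fintype.card (Site N) : ℝ) with hL
  have hLpos : 0 < L := card_site_pos N
  have h1 := log_ZZ_convex (t := t) (N := N) β (β * 0) (β * h) l hl0 hl1
  have e : (1 - l) * (β * 0) + l * (β * h) = β * (l * h) := by ring
  rw [e] at h1
  have hd : 0 < β * L := by positivity
  have h2 := div_le_div_of_nonneg_right h1 hd.le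
  have e2 : ((1 - l) * Real.log (ZZ t N β (β * 0)) + l * Real.log (ZZ t N β (β * h))) / (β * L) =
      (1 - l) * (Real.log (ZZ t N β (β * 0)) / (β * L)) +
        l * (Real.log (ZZ t N β (β * h)) / (β * L)) := by
    ring
  rw [e2] at h2
  nlinarith

theorem pressure_convex {β : ℝ} (hβ : 0 < β) {p : ℝ → ℝ}
    (hp : ∀ h, Tendsto (fun N => finitePressure t N β h) atTop (𝓝 (p h))) (h l : ℝ)
    (hl0 : 0 ≤ l) (hl1 : l ≤ 1) : p (l * h) ≤ (1 - l) * p 0 + l * p h :=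
  le_of_tendsto_of_tendsto' (hp (l * h)) (((hp 0).const_mul _).add ((hp h).const_mul _))
    fun _ => finitePressure_convex hβ h l hl0 hl1

/-- The right derivative at `0` of a function convex on the segments from `0`. -/
theorem deriv_le_slope {p : ℝ → ℝ} {m h : ℝ} (hm : HasDerivWithinAt p m (Set.Ioi 0) 0)
    (hconv : ∀ l : ℝ, 0 ≤ l → l ≤ 1 → p (l * h) ≤ (1 - l) * p 0 + l * p h) (hh : 0 < h) :
    m ≤ (p h - p 0) / h := by
  rw [hasDerivWithinAt_iff_tendsto_slope' (by simp)] at hm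
  refine le_of_tendsto hm ?_
  filter_upwards [Ioc_mem_nhdsGT hh] with h' hh'
  have h0 : 0 < h' := hh'.1
  have h1 := hconv (h' / h) (by positivity) ((div_le_one hh).mpr hh'.2)
  have e : h' / h * h = h' := by field_simp
  rw [e] at h1
  rw [slope_def_field, sub_zero, div_le_div_iff₀ h0 hh]
  have e2 : p h' ≤ (1 - h' / h) * p 0 + h' / h * p h := h1
  have e3 : (p h' - p 0) * h ≤ (p h - p 0) * h' := by
    have e4 : ((1 - h' / h) * p 0 + h' / h * p h - p 0) * h = (p h - p 0) * h' := by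
      field_simp
      ring
    rw [← e4]
    exact mul_le_mul_of_nonneg_right (by linarith) hh.le
  exact e3

/-- The difference of the finite pressures. -/
theorem pressure_diff {β : ℝ} (hβ : 0 < β) (h : ℝ) :
    (finitePressure t N β h - finitePressure t N β 0 - h * ((t : ℝ) / 2)) * β =
      (Real.log (ZZ t N β (β * h)) - Real.log (ZZ t N β 0)) / (Fintype.card (Site N) : ℝ) := by
  rw [finitePressure_eq hβ.ne', finitePressure_eq hβ.ne', mul_zero]
  have hL := (card_site_pos N).ne'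
  field_simp
  ring

theorem ZZ_zero (β : ℝ) : ZZ t N β 0 =
    (Matrix.trace (NormedSpace.exp (-((β : ℂ) • H0 t N)))).re := by
  unfold ZZ
  simp

/-- The finite volume estimate along the good subsequence. -/
theorem finite_estimate (ht : 0 < t) {β c : ℝ} (hβ : 0 < β) (hc : 0 ≤ c) {K : ℕ}
    (hτ : Real.exp (-(β * t / (4 * 4 ^ K))) ≤ 1 / 20) (hy : Real.exp (-c) ≤ 1 / 100) {M : ℕ}
    (hM : 2 ≤ M) (j : ℕ) (hN : N = j * M * 2 ^ K) :
    (Real.log (ZZ t N β c) - Real.log (ZZ t N β 0)) / (Fintype.card (Site N) : ℝ) ≤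
      3 * Real.exp (-c) * ((2 * N : ℕ) / ((2 * N : ℕ) + 1 : ℝ)) ^ 3 / ((2 : ℝ) ^ K) ^ 3
        + 2 * Real.exp (-c) * (1 - ((2 * N : ℕ) / ((2 * N : ℕ) + 1 : ℝ)) ^ 3)
        - Real.log (1 + Real.exp (-(β * (t * (36 / (((M : ℝ) - 1) * (2 * M - 1)))))))
          * ((2 * N : ℕ) / ((2 * N : ℕ) + 1 : ℝ)) ^ 3 / (2 * (M : ℝ)) ^ 3 := by
  have hu := log_upper (N := N) (K := K) (j := 2 * j * M) ht (by rw [hN]; ring) hβ hc hτ hy
  have hl := log_lower (N := N) (m := M) (q := j * 2 ^ K) ht hM (by rw [hN]; ring) hβ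
  rw [← ZZ_zero] at hl
  set ℓ := Real.log (1 + Real.exp (-(β * (t * (36 / (((M : ℝ) - 1) * (2 * M - 1))))))) with hℓ
  set y := Real.exp (-c) with hydef
  change Real.log (ZZ t N β c) ≤ _ at hu
  have hcard : (Fintype.card (Site N) : ℝ) = (((2 * N : ℕ) : ℝ) + 1) ^ 3 := by
    simp
  rw [hcard]
  set n : ℝ := ((2 * N : ℕ) : ℝ) with hn
  have hn0 : 0 ≤ n := by rw [hn]; positivity
  have hn1 : 0 < n + 1 := by linarith
  have hM0 : (0 : ℝ) < M := by
    have : 0 < M := by omega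
    exact_mod_cast this
  have hK0 : (0 : ℝ) < (2 : ℝ) ^ K := by positivity
  have e1 : (((2 * j * M : ℕ) : ℝ)) = n / (2 : ℝ) ^ K := by
    rw [hn, hN, eq_div_iff hK0.ne']
    push_cast
    ring
  have e2 : (((j * 2 ^ K : ℕ) : ℝ)) = n / (2 * (M : ℝ)) := by
    rw [hn, hN, eq_div_iff (by positivity)]
    push_cast
    ring
  have e3 : ((2 * N + 1 : ℕ) : ℝ) = n + 1 := by
    rw [hn]
    push_cast
    ring
  rw [e1, e3] at hu
  rw [e2] at hl
  rw [div_le_iff₀ (by positivity)]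
  have e4 : (3 * y * (n / (n + 1)) ^ 3 / ((2 : ℝ) ^ K) ^ 3 + 2 * y * (1 - (n / (n + 1)) ^ 3)
        - ℓ * (n / (n + 1)) ^ 3 / (2 * (M : ℝ)) ^ 3) * (n + 1) ^ 3 =
      (n / (2 : ℝ) ^ K) ^ 3 * (3 * y) + ((n + 1) ^ 3 - n ^ 3) * (2 * y)
        - (n / (2 * (M : ℝ))) ^ 3 * ℓ := by
    field_simp
  rw [e4]
  linarith

/-- The limit along the good subsequence. -/
theorem limit_estimate (ht : 0 < t) {β c : ℝ} (hβ : 0 < β) (hc : 0 ≤ c) {K : ℕ}
    (hτ : Real.exp (-(β * t / (4 * 4 ^ K))) ≤ 1 / 20) (hy : Real.exp (-c) ≤ 1 / 100) {M : ℕ}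
    (hM : 2 ≤ M) {p : ℝ → ℝ}
    (hp : ∀ h, Tendsto (fun N => finitePressure t N β h) atTop (𝓝 (p h))) :
    (p (c / β) - p 0 - c / β * ((t : ℝ) / 2)) * β ≤
      3 * Real.exp (-c) / ((2 : ℝ) ^ K) ^ 3
        - Real.log (1 + Real.exp (-(β * (t * (36 / (((M : ℝ) - 1) * (2 * M - 1)))))))
          / (2 * (M : ℝ)) ^ 3 := by
  have hM0 : 0 < M := by omega
  set Ns : ℕ → ℕ := fun j => j * M * 2 ^ K with hNs
  have hNs_top : Tendsto Ns atTop atTop := by
    apply tendsto_atTop_mono (f := fun j => j) _ tendsto_id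
    intro j
    have h1 : 1 ≤ M * 2 ^ K := Nat.mul_pos hM0 (by positivity)
    show j ≤ j * M * 2 ^ K
    rw [mul_assoc]
    exact Nat.le_mul_of_pos_right _ h1
  have h2N_top : Tendsto (fun j => 2 * Ns j) atTop atTop :=
    tendsto_atTop_mono (fun j => by omega) hNs_top
  have hr : Tendsto (fun j => (((2 * Ns j : ℕ) : ℝ) / (((2 * Ns j : ℕ) : ℝ) + 1))) atTop (𝓝 1) :=
    (tendsto_natCast_div_add_atTop (1 : ℝ)).comp h2N_top
  have hr3 : Tendsto (fun j => (((2 * Ns j : ℕ) : ℝ) / (((2 * Ns j : ℕ) : ℝ) + 1)) ^ 3) atTop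
      (𝓝 1) := by
    simpa using hr.pow 3
  have hlhs : Tendsto (fun j => (finitePressure t (Ns j) β (c / β) - finitePressure t (Ns j) β 0
      - c / β * ((t : ℝ) / 2)) * β) atTop (𝓝 ((p (c / β) - p 0 - c / β * ((t : ℝ) / 2)) * β)) :=
    ((((hp (c / β)).comp hNs_top).sub ((hp 0).comp hNs_top)).sub_const _).mul_const _
  set y := Real.exp (-c) with hydef
  set ℓ := Real.log (1 + Real.exp (-(β * (t * (36 / (((M : ℝ) - 1) * (2 * M - 1))))))) with hℓ
  have hrhs : Tendsto (fun j => 3 * y * (((2 * Ns j : ℕ) : ℝ) / (((2 * Ns j : ℕ) : ℝ) + 1)) ^ 3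
        / ((2 : ℝ) ^ K) ^ 3
      + 2 * y * (1 - (((2 * Ns j : ℕ) : ℝ) / (((2 * Ns j : ℕ) : ℝ) + 1)) ^ 3)
      - ℓ * (((2 * Ns j : ℕ) : ℝ) / (((2 * Ns j : ℕ) : ℝ) + 1)) ^ 3 / (2 * (M : ℝ)) ^ 3) atTop
      (𝓝 (3 * y * 1 / ((2 : ℝ) ^ K) ^ 3 + 2 * y * (1 - 1) - ℓ * 1 / (2 * (M : ℝ)) ^ 3)) :=
    (((hr3.const_mul _).div_const _).add (((tendsto_const_nhds).sub hr3).const_mul _)).sub
      ((hr3.const_mul _).div_const _)
  have hfin : ∀ j, (finitePressure t (Ns j) β (c / β) - finitePressure t (Ns j) β 0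
      - c / β * ((t : ℝ) / 2)) * β ≤
      3 * y * (((2 * Ns j : ℕ) : ℝ) / (((2 * Ns j : ℕ) : ℝ) + 1)) ^ 3 / ((2 : ℝ) ^ K) ^ 3
      + 2 * y * (1 - (((2 * Ns j : ℕ) : ℝ) / (((2 * Ns j : ℕ) : ℝ) + 1)) ^ 3)
      - ℓ * (((2 * Ns j : ℕ) : ℝ) / (((2 * Ns j : ℕ) : ℝ) + 1)) ^ 3 / (2 * (M : ℝ)) ^ 3 := by
    intro j
    rw [pressure_diff hβ]
    have e : β * (c / β) = c := by field_simp
    rw [e]
    exact finite_estimate ht hβ hc hτ hy hM j rfl
  have := le_of_tendsto_of_tendsto' hlhs hrhs hfin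
  refine this.trans (le_of_eq ?_)
  ring

end Vale.Agent.Lib.P361
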