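import Mathlib

open Real Set MeasureTheory

namespace Vale.Agent.Lib.P361

/-- Lower bound for the Gaussian integral over an interval. -/
theorem gauss_interval_ge {b c : ℝ} (hb : 0 < b) (hc : 0 < c) :
    √(π / b) / 2 - exp (-(b * c ^ 2)) / (b * c) ≤ ∫ u in (0 : ℝ)..c, exp (-b * u ^ 2) := by
  have hI : Integrable (fun u : ℝ => exp (-b * u ^ 2)) := integrable_exp_neg_mul_sq hb
  have hsplit : √(π / b) / 2 =
      (∫ u in (0 : ℝ)..c, exp (-b * u ^ 2)) + ∫ u in Ioi c, exp (-b * u ^ 2) := by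
    rw [← integral_gaussian_Ioi, intervalIntegral.integral_of_le hc.le,
      ← Ioc_union_Ioi_eq_Ioi hc.le]
    exact setIntegral_union Ioc_disjoint_Ioi_same measurableSet_Ioi hI.integrableOn hI.integrableOn
  have hbc : -(b * c) < 0 := by
    have := mul_pos hb hc
    linarith
  have htail : ∫ u in Ioi c, exp (-b * u ^ 2) ≤ exp (-(b * c ^ 2)) / (b * c) := by
    have h1 : ∫ u in Ioi c, exp (-b * u ^ 2) ≤ ∫ u in Ioi c, exp (-(b * c) * u) := by
      apply setIntegral_mono_on hI.integrableOn (integrableOn_exp_mul_Ioi hbc c) measurableSet_Ioi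
      intro u hu
      apply exp_le_exp.mpr
      have hu' : c < u := hu
      have : c * u ≤ u ^ 2 := by nlinarith
      nlinarith
    refine h1.trans (le_of_eq ?_)
    rw [integral_exp_mul_Ioi hbc]
    have e : -(b * c) * c = -(b * c ^ 2) := by ring
    rw [e, neg_div_neg_eq]
  linarith

/-- Sum of the values of the Gaussian at the integers. -/
theorem gauss_sum_ge {b : ℝ} (hb : 0 < b) {n : ℕ} (hn : 0 < n) :
    √(π / b) / 2 - exp (-(b * (n : ℝ) ^ 2)) / (b * n) ≤
      ∑ r ∈ Finset.range n, exp (-b * (r : ℝ) ^ 2) := by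
  have hn' : (0 : ℝ) < n := by exact_mod_cast hn
  refine (gauss_interval_ge hb hn').trans ?_
  have hanti : AntitoneOn (fun u : ℝ => exp (-b * u ^ 2)) (Icc (0 : ℝ) ((0 : ℝ) + n)) := by
    intro u hu v hv huv
    apply exp_le_exp.mpr
    have h0 : 0 ≤ u := hu.1
    have : u ^ 2 ≤ v ^ 2 := by nlinarith
    nlinarith
  have h := hanti.integral_le_sum
  simpa using h

/-- The one dimensional sum which controls the occupation of the box. -/
noncomputable def RRN (N : ℕ) (x : ℝ) : ℝ :=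
  (1 / ((2 * N + 1 : ℕ) : ℝ)) * ∑ r : Fin (2 * N + 1),
    exp (-(x * (1 - cos (π * (r : ℕ) / ((2 * N + 1 : ℕ) : ℝ)))))

theorem RRN_nonneg (N : ℕ) (x : ℝ) : 0 ≤ RRN N x := by
  unfold RRN
  have : (0 : ℝ) < ((2 * N + 1 : ℕ) : ℝ) := by positivity
  positivity

/-- The bound uniform in the size of the box. -/
theorem RRN_lower (N : ℕ) {x : ℝ} (hx : 0 < x) :
    (1 / √(2 * π * x)) * (1 - 1 / √x) ≤ RRN N x := by
  set n : ℕ := 2 * N + 1 with hn
  have hn0 : 0 < n := by omega
  have hn' : (0 : ℝ) < n := by exact_mod_cast hn0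
  have hpi := pi_pos
  set b : ℝ := x * π ^ 2 / (2 * (n : ℝ) ^ 2) with hb
  have hb0 : 0 < b := by positivity
  -- the comparison of the terms
  have h1 : ∀ r : Fin n, exp (-b * ((r : ℕ) : ℝ) ^ 2) ≤
      exp (-(x * (1 - cos (π * (r : ℕ) / (n : ℝ))))) := by
    intro r
    apply exp_le_exp.mpr
    have h2 := one_sub_sq_div_two_le_cos (x := π * (r : ℕ) / (n : ℝ))
    have h3 : 1 - cos (π * (r : ℕ) / (n : ℝ)) ≤ (π * (r : ℕ) / (n : ℝ)) ^ 2 / 2 := by linarith
    have h4 := mul_le_mul_of_nonneg_left h3 hx.le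
    have e : x * ((π * (r : ℕ) / (n : ℝ)) ^ 2 / 2) = b * ((r : ℕ) : ℝ) ^ 2 := by
      rw [hb]
      field_simp
    linarith
  have h2 : ∑ r ∈ Finset.range n, exp (-b * (r : ℝ) ^ 2) ≤
      ∑ r : Fin n, exp (-(x * (1 - cos (π * (r : ℕ) / (n : ℝ))))) := by
    rw [← Fin.sum_univ_eq_sum_range (fun r : ℕ => exp (-b * (r : ℝ) ^ 2)) n]
    exact Finset.sum_le_sum fun r _ => h1 r
  have h3 := (gauss_sum_ge hb0 hn0).trans h2
  set a : ℝ := x * π ^ 2 / 2 with ha
  have ha0 : 0 < a := by positivity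
  have hbn : b * (n : ℝ) ^ 2 = a := by
    rw [hb, ha]
    field_simp
  -- evaluation of the main term
  have hw0 : 0 < √x := sqrt_pos.mpr hx
  have hp0 : 0 < √(2 * π) := sqrt_pos.mpr (by positivity)
  have hsq : √(2 * π * x) = √(2 * π) * √x := sqrt_mul (by positivity) x
  have hmain : √(π / b) / 2 = (n : ℝ) * (1 / √(2 * π * x)) := by
    have e : π / b = ((n : ℝ) * (2 / √(2 * π * x))) ^ 2 := by
      rw [mul_pow, div_pow, sq_sqrt (by positivity), hb]
      field_simp
    rw [e, sqrt_sq (by positivity)]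
    ring
  have hexp : exp (-(b * (n : ℝ) ^ 2)) / (b * n) ≤ (n : ℝ) * (1 / a) := by
    rw [hbn]
    have e : (n : ℝ) * (1 / a) = 1 / (b * n) := by
      rw [← hbn]
      field_simp
    rw [e]
    apply div_le_div_of_nonneg_right _ (by positivity)
    exact exp_le_one_iff.mpr (by linarith)
  have hlow : (n : ℝ) * (1 / √(2 * π * x) - 1 / a) ≤
      ∑ r : Fin n, exp (-(x * (1 - cos (π * (r : ℕ) / (n : ℝ))))) := by
    rw [hmain] at h3
    rw [mul_sub]
    linarith
  have hR : 1 / √(2 * π * x) - 1 / a ≤ RRN N x := by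
    have e : RRN N x = (1 / (n : ℝ)) *
        ∑ r : Fin n, exp (-(x * (1 - cos (π * (r : ℕ) / (n : ℝ))))) := rfl
    rw [e]
    calc 1 / √(2 * π * x) - 1 / a = (1 / (n : ℝ)) * ((n : ℝ) * (1 / √(2 * π * x) - 1 / a)) := by
          field_simp
      _ ≤ _ := mul_le_mul_of_nonneg_left hlow (by positivity)
  refine le_trans ?_ hR
  have hpp : √(2 * π) ≤ π ^ 2 / 2 := by
    apply sqrt_le_iff.mpr
    constructor
    · positivity
    · have h3 : (3 : ℝ) < π := pi_gt_three
      have : π ^ 3 ≥ 8 := by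
        have : (3 : ℝ) ^ 3 ≤ π ^ 3 := pow_le_pow_left₀ (by norm_num) h3.le 3
        linarith
      nlinarith
  have hsub : 1 / a ≤ (1 / √(2 * π * x)) * (1 / √x) := by
    rw [hsq, ha]
    rw [div_mul_div_comm, one_mul]
    apply one_div_le_one_div_of_le (by positivity)
    have e : √(2 * π) * √x * √x = √(2 * π) * x := by
      rw [mul_assoc, mul_self_sqrt hx.le]
    rw [e]
    have e2 : x * π ^ 2 / 2 = (π ^ 2 / 2) * x := by ring
    rw [e2]
    exact mul_le_mul_of_nonneg_right hpp hx.le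
  have e : (1 / √(2 * π * x)) * (1 - 1 / √x) =
      1 / √(2 * π * x) - (1 / √(2 * π * x)) * (1 / √x) := by ring
  rw [e]
  linarith

end Vale.Agent.Lib.P361
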