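import Vale.Agent.Lib.P361.Basis3
import Vale.Agent.Lib.P361.Gauss1D
import Vale.Agent.Lib.P361.Final

open scoped Matrix
open Function

set_option linter.unusedSectionVars false

namespace Vale.Agent.Lib.P361

variable {t N : ℕ}

/-- The Hamiltonian in the exponent of the Gibbs operator. -/
noncomputable def YY (t N : ℕ) (β c : ℝ) : Matrix (Cf (Site N) t) (Cf (Site N) t) ℂ :=
  (β : ℂ) • H0 t N + (c : ℂ) • NB t Finset.univ

theorem YY_isHermitian (β c : ℝ) : (YY t N β c).IsHermitian :=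
  Matrix.IsHermitian.add (isHermitian_smul_real H0_isHermitian _)
    (isHermitian_smul_real (NB_isHermitian _) _)

theorem ZZ_eq_gE (β c : ℝ) : ZZ t N β c = gE (YY t N β c) 1 := by
  unfold ZZ gE YY
  rw [mul_one]

theorem gE_num_nonneg (β c : ℝ) (x : Site N) : 0 ≤ gE (YY t N β c) (onSite x (numOp t)) :=
  gE_nonneg (YY_isHermitian β c) fun ψ => qf_num_nonneg x ψ

theorem NB_expect (β c : ℝ) :
    gE (YY t N β c) (NB t Finset.univ) = ∑ x, gE (YY t N β c) (onSite x (numOp t)) := by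
  rw [NB_eq_sum, gE_sum]

/-- The difference of the two orderings for a profile. -/
theorem gE_cm_Sp_Sm (β c : ℝ) (f : Site N → ℝ) :
    gE (YY t N β c) (cm (Sm t f)ᴴ (Sm t f)) =
      ∑ x, f x ^ 2 * ((t : ℝ) * gE (YY t N β c) 1 - 2 * gE (YY t N β c) (onSite x (numOp t))) := by
  rw [cm_Sp_Sm, gE_sum]
  refine Finset.sum_congr rfl fun x _ => ?_
  rw [gE_smul, gE_sub]
  have e1 : (t : ℂ) = ((t : ℝ) : ℂ) := by push_cast; rfl
  have e2 : (2 : ℂ) = ((2 : ℝ) : ℂ) := by norm_num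
  rw [e1, gE_smul, e2, gE_smul]

theorem FG_lower (β c : ℝ) {f : Site N → ℝ} {B : ℝ} (hf1 : ∑ x, f x ^ 2 = 1)
    (hf2 : ∀ x, f x ^ 2 ≤ B) :
    (t : ℝ) * gE (YY t N β c) 1 - 2 * B * gE (YY t N β c) (NB t Finset.univ) ≤
      gE (YY t N β c) (cm (Sm t f)ᴴ (Sm t f)) := by
  rw [gE_cm_Sp_Sm, NB_expect]
  set Z := gE (YY t N β c) 1 with hZ
  have e : ∑ x, f x ^ 2 * ((t : ℝ) * Z - 2 * gE (YY t N β c) (onSite x (numOp t))) =
      (t : ℝ) * Z - 2 * ∑ x, f x ^ 2 * gE (YY t N β c) (onSite x (numOp t)) := by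
    have e1 : ∀ x, f x ^ 2 * ((t : ℝ) * Z - 2 * gE (YY t N β c) (onSite x (numOp t))) =
        f x ^ 2 * ((t : ℝ) * Z) - 2 * (f x ^ 2 * gE (YY t N β c) (onSite x (numOp t))) := by
      intro x
      ring
    simp only [e1]
    rw [Finset.sum_sub_distrib, ← Finset.sum_mul, hf1, one_mul, ← Finset.mul_sum]
  rw [e]
  have h2 : ∑ x, f x ^ 2 * gE (YY t N β c) (onSite x (numOp t)) ≤
      B * ∑ x, gE (YY t N β c) (onSite x (numOp t)) := by
    rw [Finset.mul_sum]
    exact Finset.sum_le_sum fun x _ =>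
      mul_le_mul_of_nonneg_right (hf2 x) (gE_num_nonneg β c x)
  linarith

/-- The bound on the double commutator with the shifted Hamiltonian. -/
theorem double_H0_le (β c : ℝ) (f : Site N → ℝ) :
    gE (YY t N β c) (cm (Sm t f)ᴴ (cm (H0 t N) (Sm t f))) ≤
      ((t : ℝ) ^ 2 / 2) * Dir N f * gE (YY t N β c) 1 := by
  have e : cm (Sm t f)ᴴ (cm (H0 t N) (Sm t f)) =
      ∑ j : Fin 3, ∑ x ∈ Finset.univ.filter (fun x : Site N => (x j : ℕ) < 2 * N),
        cm (Sm t f)ᴴ (cm (bond t x (nxt x j)) (Sm t f)) := by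
    unfold H0
    rw [cm_sum_left, cm_sum_right]
    refine Finset.sum_congr rfl fun j _ => ?_
    rw [cm_sum_left, cm_sum_right]
  rw [e, gE_sum]
  unfold Dir
  rw [Finset.mul_sum, Finset.sum_mul]
  refine Finset.sum_le_sum fun j _ => ?_
  rw [gE_sum, Finset.mul_sum, Finset.sum_mul]
  refine Finset.sum_le_sum fun x hx => ?_
  have hne := nxt_ne (Finset.mem_filter.mp hx).2
  have := gE_le_mul_one (YY_isHermitian (t := t) (N := N) β c)
    (X := cm (Sm t f)ᴴ (cm (bond t x (nxt x j)) (Sm t f)))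
    (a := (f x - f (nxt x j)) ^ 2 * ((t : ℝ) ^ 2 / 2)) (fun ψ => by
      have h := qf_double_bond_le hne f ψ
      calc _ ≤ _ := h
        _ = _ := by ring)
  calc _ ≤ _ := this
    _ = _ := by ring

theorem double_YY_eq (β c : ℝ) (f : Site N → ℝ) :
    gE (YY t N β c) (cm (Sm t f)ᴴ (cm (YY t N β c) (Sm t f))) =
      β * gE (YY t N β c) (cm (Sm t f)ᴴ (cm (H0 t N) (Sm t f))) +
        c * gE (YY t N β c) (cm (Sm t f)ᴴ (Sm t f)) := by
  conv_lhs => rw [YY]
  rw [cm_add_left, cm_add_right, gE_add, cm_smul_left, cm_smul_right, gE_smul, cm_smul_left,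
    cm_smul_right, gE_smul, cm_NB_Sm]
  rfl

theorem Dir_nonneg (f : Site N → ℝ) : 0 ≤ Dir N f :=
  Finset.sum_nonneg fun _ _ => Finset.sum_nonneg fun _ _ => sq_nonneg _

/-- The inequality for one profile. -/
theorem mode_bound {β c : ℝ} (hβ : 0 < β) (f : Site N → ℝ) {d0 : ℝ} (hd0 : 0 < d0)
    (hZ : 0 < gE (YY t N β c) 1)
    (hlow : d0 * gE (YY t N β c) 1 ≤ gE (YY t N β c) (cm (Sm t f)ᴴ (Sm t f))) :
    1 < Real.exp (β * (((t : ℝ) ^ 2 / 2) * Dir N f) / d0 + c) ∧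
      d0 * gE (YY t N β c) 1 ≤ gE (YY t N β c) (Sm t f * (Sm t f)ᴴ) *
        (Real.exp (β * (((t : ℝ) ^ 2 / 2) * Dir N f) / d0 + c) - 1) := by
  set Y := YY t N β c with hY
  set A := Sm t f with hA
  set Z := gE Y 1 with hZdef
  have hFG : gE Y (cm Aᴴ A) = gE Y (Aᴴ * A) - gE Y (A * Aᴴ) := by
    unfold cm
    rw [gE_sub]
  rw [hFG] at hlow
  apply stringari_bound (YY_isHermitian β c) (mul_pos hd0 hZ) hlow
  have h1 : gE Y (Aᴴ * (Y * A - A * Y) - (Y * A - A * Y) * Aᴴ) = gE Y (cm Aᴴ (cm Y A)) := rfl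
  rw [h1, hY, hA, double_YY_eq, ← hY, ← hA, hFG]
  have h2 := double_H0_le (t := t) β c f
  rw [← hY, ← hA, ← hZdef] at h2
  set F := gE Y (Aᴴ * A) - gE Y (A * Aᴴ) with hF
  set C0 := gE Y (cm Aᴴ (cm (H0 t N) A)) with hC0
  set D := (t : ℝ) ^ 2 / 2 * Dir N f with hD
  have hD0 : 0 ≤ D := mul_nonneg (by positivity) (Dir_nonneg f)
  have hZF : Z ≤ F / d0 := by
    rw [le_div_iff₀ hd0]
    linarith
  have h3 : C0 ≤ D * (F / d0) := by
    calc C0 ≤ D * Z := h2
      _ ≤ D * (F / d0) := mul_le_mul_of_nonneg_left hZF hD0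
  have h4 : β * C0 ≤ β * (D * (F / d0)) := mul_le_mul_of_nonneg_left h3 hβ.le
  have e : F * (β * D / d0 + c) = β * (D * (F / d0)) + c * F := by
    field_simp
  rw [e]
  linarith

/-- Completeness of the modes. -/
theorem sum_modes :
    ∑ k : Site N, Sm t (ff N k) * (Sm t (ff N k))ᴴ =
      ∑ x : Site N, onSite x ((spinPlus t)ᴴ * spinPlus t) := by
  have e : ∀ k : Site N, Sm t (ff N k) * (Sm t (ff N k))ᴴ =
      ∑ x : Site N, ∑ y : Site N, ((ff N k x * ff N k y : ℝ) : ℂ) •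
        (onSite x (spinPlus t)ᴴ * onSite y (spinPlus t)) := by
    intro k
    rw [Sm_conj, Sm, Finset.sum_mul_sum]
    refine Finset.sum_congr rfl fun x _ => Finset.sum_congr rfl fun y _ => ?_
    rw [Matrix.smul_mul, Matrix.mul_smul, smul_smul]
    push_cast
    rfl
  simp only [e]
  rw [Finset.sum_comm]
  refine Finset.sum_congr rfl fun x _ => ?_
  rw [Finset.sum_comm, Finset.sum_eq_single x]
  · rw [← Finset.sum_smul, ← onSite_mul, ← Complex.ofReal_sum, ff_complete, if_pos rfl]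
    simp
  · intro y _ hy
    rw [← Finset.sum_smul, ← Complex.ofReal_sum, ff_complete, if_neg hy.symm]
    simp
  · intro hn
    exact absurd (Finset.mem_univ x) hn

theorem qf_minus_plus_le (x : Site N) (ψ : Cf (Site N) t → ℂ) :
    qf (onSite x ((spinPlus t)ᴴ * spinPlus t)) ψ ≤ (t : ℝ) * qf (onSite x (numOp t)) ψ := by
  have h := qf_diag_nonneg (Λ := Site N) (t := t) (fun σ => (((σ x : ℕ) : ℝ)) * (((σ x : ℕ) : ℝ) - 1))
    (fun σ => by
      rcases Nat.eq_zero_or_pos (σ x : ℕ) with h0 | h0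
      · rw [h0]
        simp
      · have : (1 : ℝ) ≤ ((σ x : ℕ) : ℝ) := by exact_mod_cast h0
        apply mul_nonneg (by positivity) (by linarith)) ψ
  have e : (Matrix.diagonal fun σ : Cf (Site N) t =>
      (((((σ x : ℕ) : ℝ)) * (((σ x : ℕ) : ℝ) - 1) : ℝ) : ℂ)) =
      ((t : ℝ) : ℂ) • onSite x (numOp t) - onSite x ((spinPlus t)ᴴ * spinPlus t) := by
    rw [spinMinus_mul_spinPlus, numOp, onSite_diagonal, onSite_diagonal]
    ext σ τ
    by_cases h : σ = τ
    · subst h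
      simp
      ring
    · simp [h]
  rw [e, qf_sub, qf_smul] at h
  linarith

theorem G_sum_le (β c : ℝ) :
    ∑ k : Site N, gE (YY t N β c) (Sm t (ff N k) * (Sm t (ff N k))ᴴ) ≤
      (t : ℝ) * gE (YY t N β c) (NB t Finset.univ) := by
  rw [← gE_sum, sum_modes, gE_sum, NB_expect, Finset.mul_sum]
  refine Finset.sum_le_sum fun x _ => ?_
  rw [← gE_smul]
  apply gE_mono (YY_isHermitian β c)
  intro ψ
  rw [qf_smul]
  exact qf_minus_plus_le x ψ

/-- The geometric sum bound. -/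
theorem geom_exp_bound {e : ℝ} (n0 : ℕ) :
    (∑ n ∈ Finset.range n0, Real.exp (-(((n : ℝ) + 1) * e))) * (Real.exp e - 1) ≤ 1 := by
  have e1 : ∀ n : ℕ, Real.exp (-(((n : ℝ) + 1) * e)) * (Real.exp e - 1) =
      Real.exp (-((n : ℝ) * e)) - Real.exp (-(((n + 1 : ℕ) : ℝ) * e)) := by
    intro n
    rw [mul_sub, ← Real.exp_add, mul_one]
    congr 2
    · ring
    · push_cast
      ring
  rw [Finset.sum_mul]
  simp only [e1]
  have h := Finset.sum_range_sub' (fun n : ℕ => Real.exp (-((n : ℝ) * e))) n0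
  rw [h]
  simp only [Nat.cast_zero, zero_mul, neg_zero, Real.exp_zero]
  have := Real.exp_pos (-((n0 : ℝ) * e))
  linarith

/-- The sum over all modes of the exponentials. -/
theorem sum_modes_exp (N : ℕ) (x c : ℝ) (n : ℕ) :
    ∑ k : Site N, Real.exp (-(((n : ℝ) + 1) *
        (x * ∑ j, (1 - Real.cos (Real.pi * (k j : ℕ) / ((2 * N + 1 : ℕ) : ℝ))) + c))) =
      (Fintype.card (Site N) : ℝ) * (Real.exp (-(((n : ℝ) + 1) * c)) *
        RRN N (((n : ℝ) + 1) * x) ^ 3) := by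
  have e : ∀ k : Site N, Real.exp (-(((n : ℝ) + 1) *
        (x * ∑ j, (1 - Real.cos (Real.pi * (k j : ℕ) / ((2 * N + 1 : ℕ) : ℝ))) + c))) =
      Real.exp (-(((n : ℝ) + 1) * c)) * ∏ j, Real.exp (-((((n : ℝ) + 1) * x) *
        (1 - Real.cos (Real.pi * (k j : ℕ) / ((2 * N + 1 : ℕ) : ℝ))))) := by
    intro k
    rw [← Real.exp_sum, ← Real.exp_add]
    congr 1
    rw [Finset.sum_neg_distrib, ← Finset.mul_sum]
    ring
  simp only [e]
  rw [← Finset.mul_sum, sum_site_prod (fun _ s => Real.exp (-((((n : ℝ) + 1) * x) *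
        (1 - Real.cos (Real.pi * (s : ℕ) / ((2 * N + 1 : ℕ) : ℝ))))))]
  simp only [Finset.prod_const, Finset.card_univ, Fintype.card_fin]
  rw [card_site_eq]
  unfold RRN
  have h0 : (0 : ℝ) < ((2 * N + 1 : ℕ) : ℝ) := by positivity
  rw [mul_pow, div_pow, one_pow]
  field_simp

/-- The lower bound for the density of magnons at positive field. -/
theorem density_lower (ht : 0 < t) {β c η : ℝ} (hβ : 0 < β) (hη2 : 16 * η < t) (n0 : ℕ)
    (hρ : gE (YY t N β c) (NB t Finset.univ) <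
      η * gE (YY t N β c) 1 * (Fintype.card (Site N) : ℝ)) :
    (((t : ℝ) - 16 * η) / t) * ∑ n ∈ Finset.range n0, Real.exp (-(((n : ℝ) + 1) * c)) *
        RRN N (((n : ℝ) + 1) * (β * (t : ℝ) ^ 2 / ((t : ℝ) - 16 * η))) ^ 3 ≤
      gE (YY t N β c) (NB t Finset.univ) /
        (gE (YY t N β c) 1 * (Fintype.card (Site N) : ℝ)) := by
  have ht' : (0 : ℝ) < t := by exact_mod_cast ht
  set d0 : ℝ := (t : ℝ) - 16 * η with hd0def
  have hd0 : 0 < d0 := by rw [hd0def]; linarith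
  set Y := YY t N β c with hY
  set Z := gE Y 1 with hZdef
  have hZ : 0 < Z := gE_one_pos (YY_isHermitian β c)
  set L : ℝ := (Fintype.card (Site N) : ℝ) with hL
  have hL0 : 0 < L := card_site_pos N
  set Nn := gE Y (NB t Finset.univ) with hNn
  set x : ℝ := β * (t : ℝ) ^ 2 / d0 with hx
  -- each mode
  have hmode : ∀ k : Site N, ∀ n0 : ℕ, d0 * Z * ∑ n ∈ Finset.range n0, Real.exp (-(((n : ℝ) + 1) *
      (x * ∑ j, (1 - Real.cos (Real.pi * (k j : ℕ) / ((2 * N + 1 : ℕ) : ℝ))) + c))) ≤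
      gE Y (Sm t (ff N k) * (Sm t (ff N k))ᴴ) := by
    intro k n0
    have hlow : d0 * Z ≤ gE Y (cm (Sm t (ff N k))ᴴ (Sm t (ff N k))) := by
      have h1 := FG_lower (t := t) β c (ff_norm k) (ff_sq_le k)
      rw [← hY, ← hZdef, ← hL, ← hNn] at h1
      refine le_trans ?_ h1
      have e1 : 2 * (8 / L) * Nn = 16 * (Nn / L) := by ring
      have h2 : Nn / L < η * Z := by
        rw [div_lt_iff₀ hL0]
        exact hρ
      rw [e1, hd0def]
      nlinarith
    obtain ⟨h1, h2⟩ := mode_bound (t := t) hβ (ff N k) hd0 hZ hlow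
    have e2 : β * ((t : ℝ) ^ 2 / 2 * Dir N (ff N k)) / d0 + c =
        x * ∑ j, (1 - Real.cos (Real.pi * (k j : ℕ) / ((2 * N + 1 : ℕ) : ℝ))) + c := by
      rw [ff_dir, hx, ← Finset.mul_sum]
      field_simp
    rw [e2] at h1 h2
    set e := x * ∑ j, (1 - Real.cos (Real.pi * (k j : ℕ) / ((2 * N + 1 : ℕ) : ℝ))) + c with he
    set G := gE Y (Sm t (ff N k) * (Sm t (ff N k))ᴴ) with hG
    set Sk := ∑ n ∈ Finset.range n0, Real.exp (-(((n : ℝ) + 1) * e)) with hSk
    have hSk0 : 0 ≤ Sk := Finset.sum_nonneg fun n _ => (Real.exp_pos _).le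
    have h3 : Sk * (Real.exp e - 1) ≤ 1 := geom_exp_bound n0
    have hG0 : 0 ≤ G := by
      have h4 : 0 < Real.exp e - 1 := by linarith
      have h5 : 0 < d0 * Z := mul_pos hd0 hZ
      by_contra hcon
      push Not at hcon
      have : G * (Real.exp e - 1) < 0 := mul_neg_of_neg_of_pos hcon h4
      linarith
    calc d0 * Z * Sk ≤ G * (Real.exp e - 1) * Sk := mul_le_mul_of_nonneg_right h2 hSk0
      _ = G * (Sk * (Real.exp e - 1)) := by ring
      _ ≤ G * 1 := mul_le_mul_of_nonneg_left h3 hG0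
      _ = G := mul_one G
  have hsum := Finset.sum_le_sum fun k (_ : k ∈ (Finset.univ : Finset (Site N))) => hmode k n0
  rw [← Finset.mul_sum, Finset.sum_comm] at hsum
  simp only [sum_modes_exp] at hsum
  rw [← Finset.mul_sum, ← hL] at hsum
  have hG := G_sum_le (t := t) (N := N) β c
  rw [← hY, ← hNn] at hG
  have h6 := hsum.trans hG
  set W := ∑ n ∈ Finset.range n0, Real.exp (-(((n : ℝ) + 1) * c)) * RRN N (((n : ℝ) + 1) * x) ^ 3
    with hW
  rw [le_div_iff₀ (mul_pos hZ hL0), div_mul_eq_mul_div, div_mul_eq_mul_div, div_le_iff₀ ht']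
  nlinarith

end Vale.Agent.Lib.P361
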