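import Mathlib

open scoped Matrix Nat

namespace Vale.Agent.Lib.P361

variable {n : Type} [Fintype n] [DecidableEq n]

open scoped Matrix.Norms.Operator in
theorem hasSum_exp_matrix (Z : Matrix n n ℂ) :
    HasSum (fun k : ℕ => ((k ! : ℂ)⁻¹) • Z ^ k) (NormedSpace.exp Z) :=
  NormedSpace.exp_series_hasSum_exp' (𝕂 := ℂ) Z

/-- If `P Z = 0` then `P exp Z = P`. -/
theorem mul_exp_of_mul_eq_zero {P Z : Matrix n n ℂ} (h : P * Z = 0) :
    P * NormedSpace.exp Z = P := by
  have h1 := (hasSum_exp_matrix Z).mul_left P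
  have h2 : ∀ k : ℕ, P * (((k ! : ℂ)⁻¹) • Z ^ k) = if k = 0 then P else 0 := by
    intro k
    cases k with
    | zero => simp
    | succ k =>
      rw [Matrix.mul_smul, pow_succ', ← mul_assoc, h]
      simp
  simp only [h2] at h1
  have h3 : HasSum (fun k : ℕ => if k = 0 then P else 0) P := hasSum_ite_eq 0 P
  exact h1.unique h3

/-- Exponential of a multiple of an idempotent. -/
theorem exp_smul_idempotent {Q : Matrix n n ℂ} (hQ : Q * Q = Q) (a : ℝ) :
    NormedSpace.exp ((a : ℂ) • Q) = 1 + ((Real.exp a - 1 : ℝ) : ℂ) • Q := by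
  have h1 := hasSum_exp_matrix ((a : ℂ) • Q)
  have hpow : ∀ k : ℕ, Q ^ (k + 1) = Q := by
    intro k
    induction k with
    | zero => simp
    | succ k ih => rw [pow_succ, ih, hQ]
  have hc : HasSum (fun k : ℕ => ((k ! : ℂ)⁻¹) * (a : ℂ) ^ k) (Complex.exp a) := by
    have := NormedSpace.exp_series_hasSum_exp' (𝕂 := ℂ) (a : ℂ)
    rw [← Complex.exp_eq_exp_ℂ] at this
    simpa [smul_eq_mul] using this
  have h2 : HasSum (fun k : ℕ => (((k ! : ℂ)⁻¹) * (a : ℂ) ^ k) • Q) (Complex.exp a • Q) :=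
    hc.smul_const Q
  have h3 : HasSum (fun k : ℕ => if k = 0 then (1 - Q) else (0 : Matrix n n ℂ)) (1 - Q) :=
    hasSum_ite_eq 0 (1 - Q)
  have h4 := h2.add h3
  have h5 : ∀ k : ℕ, ((k ! : ℂ)⁻¹) • ((a : ℂ) • Q) ^ k =
      (((k ! : ℂ)⁻¹) * (a : ℂ) ^ k) • Q + if k = 0 then (1 - Q) else 0 := by
    intro k
    cases k with
    | zero => simp
    | succ k =>
      rw [smul_pow, hpow, smul_smul]
      simp
  simp only [h5] at h1
  rw [h1.unique h4, ← Complex.ofReal_exp]
  push_cast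
  rw [sub_smul, one_smul]
  abel

/-- Exponential of `a (1 - P)` for an idempotent `P`. -/
theorem exp_smul_one_sub {P : Matrix n n ℂ} (hP : P * P = P) (a : ℝ) :
    NormedSpace.exp ((a : ℂ) • (1 - P)) =
      ((Real.exp a : ℝ) : ℂ) • (1 - P) + P := by
  have hQ : (1 - P) * (1 - P) = 1 - P := by
    rw [mul_sub, sub_mul, sub_mul, hP]
    simp
  rw [exp_smul_idempotent hQ]
  push_cast
  rw [sub_smul, one_smul]
  abel

/-- Intertwining passes to the exponential. -/
theorem mul_exp_intertwine {P Y W : Matrix n n ℂ} (h : P * Y = W * P) :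
    P * NormedSpace.exp Y = NormedSpace.exp W * P := by
  have h1 := (hasSum_exp_matrix Y).mul_left P
  have h2 := (hasSum_exp_matrix W).mul_right P
  have hpow : ∀ k : ℕ, P * Y ^ k = W ^ k * P := by
    intro k
    induction k with
    | zero => simp
    | succ k ih =>
      rw [pow_succ, ← mul_assoc, ih, mul_assoc, h, ← mul_assoc, pow_succ]
  have h3 : ∀ k : ℕ, P * (((k ! : ℂ)⁻¹) • Y ^ k) = (((k ! : ℂ)⁻¹) • W ^ k) * P := by
    intro k
    rw [Matrix.mul_smul, hpow, Matrix.smul_mul]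
  simp only [h3] at h1
  exact h1.unique h2

/-- Exponential of a real diagonal matrix. -/
theorem exp_diag_real (f : n → ℝ) :
    NormedSpace.exp (Matrix.diagonal fun σ => ((f σ : ℝ) : ℂ)) =
      Matrix.diagonal fun σ => ((Real.exp (f σ) : ℝ) : ℂ) := by
  rw [Matrix.exp_diagonal]
  congr 1
  funext σ
  rw [Pi.coe_exp, ← Complex.exp_eq_exp_ℂ, Complex.ofReal_exp]

end Vale.Agent.Lib.P361
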