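import Vale.Agent.Lib.P361.TopProj

open scoped Matrix
open Function

set_option linter.unusedSectionVars false

namespace Vale.Agent.Lib.P361

variable {t : ℕ} {Λ : Type} [Fintype Λ] [DecidableEq Λ]

/-- `ψ` is orthogonal to all top vectors of the block `B`. -/
def PPtop (B : Finset Λ) (ψ : Cf Λ t → ℂ) : Prop := ∀ σ, ip (vecTop B σ) ψ = 0

theorem PPtop_of_topP {B : Finset Λ} {ψ : Cf Λ t → ℂ} (h : topP t B *ᵥ ψ = 0) : PPtop B ψ := by
  intro σ
  have := congrFun h σ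
  rw [topP_mulVec] at this
  have hne : ((wB B σ / Zc B σ : ℝ) : ℂ) ≠ 0 := by
    have := (div_pos (wB_pos B σ) (Zc_pos B σ)).ne'
    exact_mod_cast this
  exact (mul_eq_zero.mp this).resolve_left hne

theorem SpB_entry {B : Finset Λ} {σ τ : Cf Λ t} (h : SpB t B σ τ ≠ 0) :
    nB B τ = nB B σ + 1 := by
  rw [SpB, Matrix.sum_apply] at h
  obtain ⟨x, hx, hne⟩ := Finset.exists_ne_zero_of_sum_ne_zero h
  rw [onSite_apply] at hne
  by_cases hag : ∀ z, z ≠ x → σ z = τ z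
  · rw [if_pos hag, spinPlus_apply] at hne
    by_cases hk : ((σ x : Fin (t + 1)) : ℕ) + 1 = (τ x : ℕ)
    · unfold nB
      rw [← Finset.add_sum_erase B _ hx, ← Finset.add_sum_erase B (fun z => (σ z : ℕ)) hx]
      have : ∑ z ∈ B.erase x, (τ z : ℕ) = ∑ z ∈ B.erase x, (σ z : ℕ) := by
        refine Finset.sum_congr rfl fun z hz => ?_
        rw [hag z (Finset.ne_of_mem_erase hz)]
      rw [this, ← hk]
      omega
    · rw [if_neg hk] at hne
      exact absurd rfl hne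
  · rw [if_neg hag] at hne
    exact absurd rfl hne

/-- `S^-` of the block on the top vector. -/
theorem spinMinus_vecTop {B : Finset Λ} {x : Λ} (hx : x ∈ B) (σ ρ : Cf Λ t) :
    (onSite x (spinPlus t)ᴴ *ᵥ vecTop B σ) ρ =
      if (∀ z, z ∉ B → σ z = ρ z) ∧ nB B ρ = nB B σ + 1 then
        (((ρ x : ℕ) : ℂ) * ((wB B ρ : ℝ) : ℂ)) else 0 := by
  rw [onSite_mulVec]
  by_cases h0 : (ρ x : ℕ) = 0
  · rw [Finset.sum_eq_zero]
    · simp [h0]
    · intro k _
      rw [spinMinus_apply, if_neg (by omega), zero_mul]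
  · have hpos : 0 < (ρ x : ℕ) := Nat.pos_of_ne_zero h0
    have hlt : (ρ x : ℕ) - 1 < t + 1 := by have := (ρ x).2; omega
    let k0 : Fin (t + 1) := ⟨(ρ x : ℕ) - 1, hlt⟩
    have hk0 : (k0 : ℕ) + 1 = (ρ x : ℕ) := by simp [k0]; omega
    rw [Finset.sum_eq_single k0]
    · rw [spinMinus_apply, if_pos hk0]
      have hn := nB_update hx ρ k0
      have hcl : Cl B σ (update ρ x k0) ↔ ((∀ z, z ∉ B → σ z = ρ z) ∧ nB B ρ = nB B σ + 1) := by
        constructor
        · rintro ⟨h1, h2⟩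
          refine ⟨fun z hz => ?_, ?_⟩
          · have hzy : z ≠ x := fun e => hz (e ▸ hx)
            rw [h1 z hz, update_of_ne hzy]
          · omega
        · rintro ⟨h1, h2⟩
          refine ⟨fun z hz => ?_, ?_⟩
          · have hzy : z ≠ x := fun e => hz (e ▸ hx)
            rw [h1 z hz, update_of_ne hzy]
          · omega
      simp only [vecTop, hcl]
      split_ifs with hc
      · have hcast : ((ρ x : ℕ) : ℂ) = (((ρ x : ℕ) : ℝ) : ℂ) := by push_cast; rfl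
        rw [← Complex.ofReal_mul, hcast, ← Complex.ofReal_mul]
        congr 1
        have h1 := wB_update hx ρ k0
        have hlt2 : (k0 : ℕ) + 1 < t + 1 := by rw [hk0]; exact (ρ x).2
        have h2 := wt_step_m (t := t) (k0 : ℕ) hlt2
        have hρ : (⟨(k0 : ℕ) + 1, hlt2⟩ : Fin (t + 1)) = ρ x := Fin.ext hk0
        have hk00 : (⟨(k0 : ℕ), by omega⟩ : Fin (t + 1)) = k0 := rfl
        rw [hρ] at h2
        rw [hk00] at h2
        have hpos' := wt_pos (ρ x)
        apply mul_right_cancel₀ hpos'.ne'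
        have hcast2 : ((k0 : ℕ) : ℝ) + 1 = ((ρ x : ℕ) : ℝ) := by exact_mod_cast hk0
        rw [hcast2] at h2 ⊢
        calc Real.sqrt (((ρ x : ℕ) : ℝ) * ((t : ℝ) - (k0 : ℕ))) * wB B (update ρ x k0) * wt t (ρ x)
            = Real.sqrt (((ρ x : ℕ) : ℝ) * ((t : ℝ) - (k0 : ℕ))) * (wB B (update ρ x k0) * wt t (ρ x)) := by ring
          _ = Real.sqrt (((ρ x : ℕ) : ℝ) * ((t : ℝ) - (k0 : ℕ))) * (wB B ρ * wt t k0) := by rw [h1]
          _ = wB B ρ * (wt t k0 * Real.sqrt (((ρ x : ℕ) : ℝ) * ((t : ℝ) - (k0 : ℕ)))) := by ring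
          _ = wB B ρ * (wt t (ρ x) * ((ρ x : ℕ) : ℝ)) := by rw [h2]
          _ = _ := by ring
      · simp
    · intro k _ hk
      rw [spinMinus_apply, if_neg, zero_mul]
      intro he
      apply hk
      apply Fin.ext
      omega
    · intro hn; exact absurd (Finset.mem_univ _) hn

theorem SmB_vecTop (B : Finset Λ) (σ ρ : Cf Λ t) :
    ((SpB t B)ᴴ *ᵥ vecTop B σ) ρ =
      if (∀ z, z ∉ B → σ z = ρ z) ∧ nB B ρ = nB B σ + 1 then
        ((nB B ρ : ℂ) * ((wB B ρ : ℝ) : ℂ)) else 0 := by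
  rw [SpB_conj, Matrix.sum_mulVec, Finset.sum_apply]
  rw [Finset.sum_congr rfl fun x hx => spinMinus_vecTop hx σ ρ]
  split_ifs with hc
  · rw [← Finset.sum_mul]
    congr 1
    simp [nB]
  · simp

theorem PPtop_stable (B : Finset Λ) (ψ : Cf Λ t → ℂ) (hψ : PPtop B ψ) :
    PPtop B (SpB t B *ᵥ ψ) := by
  intro σ
  have hadj : ip (vecTop B σ) (SpB t B *ᵥ ψ) = ip ((SpB t B)ᴴ *ᵥ vecTop B σ) ψ := by
    rw [ip_adj, Matrix.conjTranspose_conjTranspose]
  rw [hadj]
  by_cases hex : ∃ ρ0 : Cf Λ t, (∀ z, z ∉ B → σ z = ρ0 z) ∧ nB B ρ0 = nB B σ + 1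
  · obtain ⟨ρ0, h1, h2⟩ := hex
    have hvec : (SpB t B)ᴴ *ᵥ vecTop B σ = ((nB B σ + 1 : ℕ) : ℂ) • vecTop B ρ0 := by
      funext ρ
      rw [SmB_vecTop]
      simp only [Pi.smul_apply, smul_eq_mul, vecTop]
      have hiff : ((∀ z, z ∉ B → σ z = ρ z) ∧ nB B ρ = nB B σ + 1) ↔ Cl B ρ0 ρ := by
        constructor
        · rintro ⟨h3, h4⟩
          exact ⟨fun z hz => by rw [← h1 z hz, h3 z hz], by rw [h2, h4]⟩
        · rintro ⟨h3, h4⟩
          exact ⟨fun z hz => by rw [h1 z hz, h3 z hz], by rw [← h4, h2]⟩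
      simp only [hiff]
      split_ifs with hc
      · have : nB B ρ = nB B σ + 1 := by rw [← hc.2, h2]
        rw [this]
      · simp
    rw [hvec]
    have e : ∀ (c : ℂ) (v u : Cf Λ t → ℂ), ip (c • v) u = star c * ip v u := by
      intro c v u
      simp [ip, star_smul, smul_dotProduct]
    rw [e, hψ ρ0, mul_zero]
  · have hvec : (SpB t B)ᴴ *ᵥ vecTop B σ = 0 := by
      funext ρ
      rw [SmB_vecTop, if_neg]
      · rfl
      · intro hc
        exact hex ⟨ρ, hc⟩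
    rw [hvec]
    simp [ip]

theorem PPtop_sector_zero (B : Finset Λ) (ψ : Cf Λ t → ℂ) (h0 : InSector (nB B) 0 ψ)
    (hψ : PPtop B ψ) : ψ = 0 := by
  funext σ
  by_cases hσ : nB B σ = 0
  · have := hψ σ
    simp only [ip, star_vecTop, dotProduct] at this
    rw [Finset.sum_eq_single σ] at this
    · simp only [vecTop, if_pos (Cl.refl B σ)] at this
      have hne : ((wB B σ : ℝ) : ℂ) ≠ 0 := by exact_mod_cast (wB_pos B σ).ne'
      exact (mul_eq_zero.mp this).resolve_left hne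
    · intro τ _ hτ
      simp only [vecTop]
      by_cases hc : Cl B σ τ
      · exfalso
        apply hτ
        funext z
        by_cases hz : z ∈ B
        · have h1 : nB B τ = 0 := by rw [← hc.2, hσ]
          have key : ∀ (ρ : Cf Λ t), nB B ρ = 0 → (ρ z : ℕ) = 0 := by
            intro ρ hρ
            have := (Finset.sum_eq_zero_iff.mp hρ) z hz
            exact this
          exact Fin.ext (by rw [key τ h1, key σ hσ])
        · exact (hc.1 z hz).symm
      · rw [if_neg hc, zero_mul]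
    · intro hn; exact absurd (Finset.mem_univ _) hn
  · exact h0 σ hσ

theorem PPtop_cut (B : Finset Λ) (ψ : Cf Λ t → ℂ) (hψ : PPtop B ψ) (m : ℕ) :
    PPtop B (cutS (nB B) m ψ) := by
  intro σ
  have := hψ σ
  simp only [ip, star_vecTop, dotProduct] at this ⊢
  by_cases hm : nB B σ = m
  · rw [← this]
    refine Finset.sum_congr rfl fun τ _ => ?_
    simp only [vecTop, cutS]
    by_cases hc : Cl B σ τ
    · have : nB B τ = m := by rw [← hc.2, hm]
      simp [hc, this]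
    · simp [hc]
  · refine Finset.sum_eq_zero fun τ _ => ?_
    simp only [vecTop, cutS]
    by_cases hc : Cl B σ τ
    · have : nB B τ ≠ m := by rw [← hc.2]; exact hm
      simp [hc, this]
    · simp [hc]

/-- `K2` is Hermitian. -/
theorem K2_isHermitian (B : Finset Λ) : (K2 t B).IsHermitian := by
  unfold K2 Matrix.IsHermitian
  rw [Matrix.conjTranspose_sum]
  refine Finset.sum_congr rfl fun x _ => ?_
  rw [Matrix.conjTranspose_sum]
  refine Finset.sum_congr rfl fun y _ => ?_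
  split_ifs with h
  · exact Matrix.conjTranspose_zero
  · exact bond_isHermitian h

theorem qf_K2_of_PP (B : Finset Λ) (φ : Cf Λ t → ℂ) (hφ : PPtop B φ) :
    ((t * B.card : ℕ) : ℝ) * nsq φ ≤ qf (K2 t B) φ := by
  have hgap := gap_abstract (SpB t B) (nB B) (t * B.card) (nB_le B) (SpB_comm B)
    (fun σ τ h => SpB_entry h) (PPtop B) (PPtop_stable B) (PPtop_sector_zero B)
    (PPtop_cut B) φ hφ
  rw [K2_eq, qf_sub, qf_conj_mul]
  have hd : qf (Matrix.diagonal fun σ : Cf Λ t =>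
        (nB B σ : ℂ) * (((t * B.card : ℕ) : ℂ) + 1 - (nB B σ : ℂ))) φ =
      ∑ σ, ((nB B σ : ℝ) * (((t * B.card : ℕ) : ℝ) + 1 - (nB B σ : ℝ))) * ‖φ σ‖ ^ 2 := by
    simp only [qf, Matrix.mulVec_diagonal, dotProduct, Pi.star_apply, Complex.re_sum]
    refine Finset.sum_congr rfl fun σ _ => ?_
    have e5 : star (φ σ) * φ σ = ((‖φ σ‖ ^ 2 : ℝ) : ℂ) := by
      rw [Complex.star_def, ← Complex.normSq_eq_conj_mul_self, Complex.normSq_eq_norm_sq]
    have : star (φ σ) * ((nB B σ : ℂ) * (((t * B.card : ℕ) : ℂ) + 1 - (nB B σ : ℂ)) * φ σ) =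
        ((((nB B σ : ℝ) * (((t * B.card : ℕ) : ℝ) + 1 - (nB B σ : ℝ))) * ‖φ σ‖ ^ 2 : ℝ) : ℂ) := by
      calc _ = ((nB B σ : ℂ) * (((t * B.card : ℕ) : ℂ) + 1 - (nB B σ : ℂ))) * (star (φ σ) * φ σ) := by
            ring
        _ = _ := by rw [e5]; push_cast; ring
    rw [this, Complex.ofReal_re]
  rw [hd]
  have hT : ((t * B.card : ℕ) : ℝ) * nsq φ = ∑ σ, ((t * B.card : ℕ) : ℝ) * ‖φ σ‖ ^ 2 := by
    rw [nsq_eq_sum, Finset.mul_sum]
  rw [hT]
  rw [← sub_nonneg] at hgap ⊢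
  have e : ∑ σ, ((nB B σ : ℝ) * (((t * B.card : ℕ) : ℝ) + 1 - (nB B σ : ℝ))) * ‖φ σ‖ ^ 2 -
        nsq (SpB t B *ᵥ φ) - ∑ σ, ((t * B.card : ℕ) : ℝ) * ‖φ σ‖ ^ 2 =
      ∑ σ, (((nB B σ : ℝ) * (((t * B.card : ℕ) : ℝ) + 1 - (nB B σ : ℝ))) - ((t * B.card : ℕ) : ℝ))
        * ‖φ σ‖ ^ 2 - nsq (SpB t B *ᵥ φ) := by
    rw [sub_right_comm, ← Finset.sum_sub_distrib]
    congr 1
    refine Finset.sum_congr rfl fun σ _ => ?_
    ring
  rw [e]
  exact hgap

/-- The gap of the complete graph Hamiltonian: `T (1 - P) ≤ K2`. -/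
theorem K2_gap (B : Finset Λ) (ψ : Cf Λ t → ℂ) :
    ((t * B.card : ℕ) : ℝ) * nsq (ψ - topP t B *ᵥ ψ) ≤ qf (K2 t B) ψ := by
  set P := topP t B with hP
  set φ := ψ - P *ᵥ ψ with hφ
  have hPφ : P *ᵥ φ = 0 := by
    rw [hφ, Matrix.mulVec_sub, Matrix.mulVec_mulVec, hP, topP_idem, sub_self]
  have h1 := qf_K2_of_PP B φ (PPtop_of_topP hPφ)
  have hKP : ∀ ρ : Cf Λ t → ℂ, K2 t B *ᵥ (P *ᵥ ρ) = 0 := by
    intro ρ
    have hcol : K2 t B * P = 0 := by
      ext σ τ
      have h2 := congrFun (K2_vecTop (B' := B) (B := B) (subset_refl _) τ) σ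
      have h3 := topP_col (t := t) B τ
      rw [Matrix.mul_apply]
      have h4 : ∀ u, P u τ = ((wB B τ / Zc B τ : ℝ) : ℂ) * vecTop B τ u := fun u => by
        have := congrFun h3 u
        simpa using this
      simp only [h4]
      simp only [Matrix.mulVec, dotProduct] at h2
      calc ∑ x, K2 t B σ x * (((wB B τ / Zc B τ : ℝ) : ℂ) * vecTop B τ x)
          = ((wB B τ / Zc B τ : ℝ) : ℂ) * ∑ x, K2 t B σ x * vecTop B τ x := by
            rw [Finset.mul_sum]
            refine Finset.sum_congr rfl fun x _ => by ring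
        _ = 0 := by rw [h2]; simp
    rw [Matrix.mulVec_mulVec, hcol, Matrix.zero_mulVec]
  have h2 : qf (K2 t B) ψ = qf (K2 t B) φ := by
    have e : ψ = φ + P *ᵥ ψ := by rw [hφ]; abel
    have e1 : K2 t B *ᵥ ψ = K2 t B *ᵥ φ := by
      conv_lhs => rw [e]
      rw [Matrix.mulVec_add, hKP, add_zero]
    have e2 : ip (P *ᵥ ψ) (K2 t B *ᵥ φ) = 0 := by
      have e3 : K2 t B *ᵥ φ = (K2 t B)ᴴ *ᵥ φ := by rw [(K2_isHermitian B).eq]
      rw [e3, ← ip_adj, hKP]
      simp [ip]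
    rw [qf_eq_ip, qf_eq_ip, e1]
    conv_lhs => rw [e]
    simp only [ip, star_add, add_dotProduct, Complex.add_re] at e2 ⊢
    rw [e2]
    simp
  rw [h2]
  exact h1

/-- A top vector of a block is a top vector of every nonempty sub-block. -/
theorem topP_mulVec_vecTop {B' B : Finset Λ} (ht : 0 < t) (hne : B'.Nonempty) (hsub : B' ⊆ B)
    (σ : Cf Λ t) : topP t B' *ᵥ vecTop B σ = vecTop B σ := by
  have h1 := K2_gap B' (vecTop B σ)
  have h2 : qf (K2 t B') (vecTop B σ) = 0 := by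
    simp only [qf]
    rw [K2_vecTop hsub]
    simp
  rw [h2] at h1
  have hpos : (0 : ℝ) < ((t * B'.card : ℕ) : ℝ) := by
    have := hne.card_pos
    exact_mod_cast Nat.mul_pos ht this
  have h3 : nsq (vecTop B σ - topP t B' *ᵥ vecTop B σ) = 0 := by
    have h4 := nsq_nonneg (vecTop B σ - topP t B' *ᵥ vecTop B σ)
    nlinarith
  have h5 := nsq_eq_zero h3
  exact (sub_eq_zero.mp h5).symm

theorem topP_nest_left {B' B : Finset Λ} (ht : 0 < t) (hne : B'.Nonempty) (hsub : B' ⊆ B) :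
    topP t B' * topP t B = topP t B := by
  ext σ τ
  have h3 := topP_col (t := t) B τ
  have h4 : ∀ u, topP t B u τ = ((wB B τ / Zc B τ : ℝ) : ℂ) * vecTop B τ u := fun u => by
    have := congrFun h3 u
    simpa using this
  have h5 := congrFun (topP_mulVec_vecTop ht hne hsub τ) σ
  rw [Matrix.mul_apply]
  simp only [h4]
  simp only [Matrix.mulVec, dotProduct] at h5
  calc ∑ x, topP t B' σ x * (((wB B τ / Zc B τ : ℝ) : ℂ) * vecTop B τ x)
      = ((wB B τ / Zc B τ : ℝ) : ℂ) * ∑ x, topP t B' σ x * vecTop B τ x := by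
        rw [Finset.mul_sum]
        refine Finset.sum_congr rfl fun x _ => by ring
    _ = _ := by rw [h5]

theorem topP_nest_right {B' B : Finset Λ} (ht : 0 < t) (hne : B'.Nonempty) (hsub : B' ⊆ B) :
    topP t B * topP t B' = topP t B := by
  have h := congrArg Matrix.conjTranspose (topP_nest_left (t := t) ht hne hsub)
  rw [Matrix.conjTranspose_mul, (topP_isHermitian B), (topP_isHermitian B')] at h
  exact h

/-- The quadratic form of `1 - P`. -/
theorem qf_one_sub_topP (B : Finset Λ) (ψ : Cf Λ t → ℂ) :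
    qf (1 - topP t B) ψ = nsq (ψ - topP t B *ᵥ ψ) := by
  have h : (1 - topP t B) = (1 - topP t B)ᴴ * (1 - topP t B) := by
    rw [Matrix.conjTranspose_sub, Matrix.conjTranspose_one, (topP_isHermitian B), mul_sub, sub_mul,
      sub_mul, topP_idem]
    simp
  conv_lhs => rw [h]
  rw [qf_conj_mul, Matrix.sub_mulVec, Matrix.one_mulVec]

theorem gap_K2 (B : Finset Λ) (ψ : Cf Λ t → ℂ) :
    ((t * B.card : ℕ) : ℝ) * qf (1 - topP t B) ψ ≤ qf (K2 t B) ψ := by
  rw [qf_one_sub_topP]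
  exact K2_gap B ψ

theorem qf_K2_eq (B : Finset Λ) (ψ : Cf Λ t → ℂ) :
    qf (K2 t B) ψ = (1 / 2) * ∑ x ∈ B, ∑ y ∈ B, qE t ψ x y := by
  unfold K2
  rw [qf_sum, Finset.mul_sum]
  refine Finset.sum_congr rfl fun x _ => ?_
  rw [qf_sum, Finset.mul_sum]
  refine Finset.sum_congr rfl fun y _ => ?_
  by_cases h : x = y
  · simp [h, qE, qf_zero]
  · rw [if_neg h, qf_bond h, qE, if_neg h]

end Vale.Agent.Lib.P361
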