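import Vale.Agent.Lib.P361.BlockGeom
import Vale.Agent.Lib.P361.ExpFacts

open scoped Matrix
open Function

set_option linter.unusedSectionVars false

namespace Vale.Agent.Lib.P361

section Number

variable {Λ : Type} [Fintype Λ] [DecidableEq Λ] {t : ℕ}

/-- The total number operator of a block, as a diagonal matrix. -/
noncomputable def NB (t : ℕ) (B : Finset Λ) : Matrix (Cf Λ t) (Cf Λ t) ℂ :=
  Matrix.diagonal fun σ => ((nB B σ : ℕ) : ℂ)

theorem NB_eq_sum (B : Finset Λ) : NB t B = ∑ x ∈ B, onSite x (numOp t) := by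
  simp only [numOp, onSite_diagonal]
  rw [sum_diagonal]
  simp [NB, nB]

theorem NB_loc (B : Finset Λ) : Loc B (NB t B) := by
  rw [NB_eq_sum]
  exact Loc.sum B fun x hx => (onSite_loc x _).mono (Finset.singleton_subset_iff.mpr hx)

theorem NB_isHermitian (B : Finset Λ) : (NB t B).IsHermitian := by
  ext σ τ
  simp only [NB, Matrix.conjTranspose_apply]
  by_cases h : σ = τ
  · subst h
    simp
  · rw [Matrix.diagonal_apply_ne _ h, Matrix.diagonal_apply_ne _ (Ne.symm h), star_zero]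

theorem NB_biUnion {ι : Type} [DecidableEq ι] (s : Finset ι) (C : ι → Finset Λ)
    (hd : (s : Set ι).PairwiseDisjoint C) :
    NB t (s.biUnion C) = ∑ i ∈ s, NB t (C i) := by
  simp only [NB]
  rw [sum_diagonal]
  congr 1
  funext σ
  simp only [nB]
  rw [Finset.sum_biUnion hd]
  push_cast
  rfl

theorem qf_diag_nonneg (f : Cf Λ t → ℝ) (hf : ∀ σ, 0 ≤ f σ) (ψ : Cf Λ t → ℂ) :
    0 ≤ qf (Matrix.diagonal fun σ => ((f σ : ℝ) : ℂ)) ψ := by
  simp only [qf, Matrix.mulVec_diagonal, dotProduct, Pi.star_apply, Complex.re_sum]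
  refine Finset.sum_nonneg fun σ _ => ?_
  have e5 : star (ψ σ) * ψ σ = ((‖ψ σ‖ ^ 2 : ℝ) : ℂ) := by
    rw [Complex.star_def, ← Complex.normSq_eq_conj_mul_self, Complex.normSq_eq_norm_sq]
  have : star (ψ σ) * (((f σ : ℝ) : ℂ) * ψ σ) = ((f σ * ‖ψ σ‖ ^ 2 : ℝ) : ℂ) := by
    calc _ = ((f σ : ℝ) : ℂ) * (star (ψ σ) * ψ σ) := by ring
      _ = _ := by rw [e5]; push_cast; ring
  rw [this, Complex.ofReal_re]
  have := hf σ
  positivity

/-- `exp (-c N_B)` is the diagonal matrix of powers of `y = exp (-c)`. -/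
theorem exp_NB (B : Finset Λ) (c : ℝ) :
    NormedSpace.exp (-((c : ℂ) • NB t B)) =
      Matrix.diagonal fun σ : Cf Λ t => (((Real.exp (-c)) ^ (nB B σ) : ℝ) : ℂ) := by
  have e : -((c : ℂ) • NB t B) =
      Matrix.diagonal fun σ : Cf Λ t => (((-c * (nB B σ : ℕ) : ℝ)) : ℂ) := by
    ext σ τ
    by_cases h : σ = τ
    · subst h
      simp [NB]
    · simp [NB, Matrix.diagonal_apply_ne _ h]
  rw [e, exp_diag_real]
  congr 1
  funext σ
  rw [Real.exp_mul, Real.rpow_natCast]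

end Number

/-! ### Real bounds for complex numbers -/

/-- `z` is a real number in `[0, a]`. -/
def RB (z : ℂ) (a : ℝ) : Prop := z.im = 0 ∧ 0 ≤ z.re ∧ z.re ≤ a

theorem RB.mul {z w : ℂ} {a b : ℝ} (h : RB z a) (h' : RB w b) : RB (z * w) (a * b) := by
  obtain ⟨h1, h2, h3⟩ := h
  obtain ⟨h4, h5, h6⟩ := h'
  refine ⟨by simp [Complex.mul_im, h1, h4], ?_, ?_⟩
  · simp only [Complex.mul_re, h1, h4]
    nlinarith [mul_nonneg h2 h5]
  · simp only [Complex.mul_re, h1, h4]
    have : z.re * w.re ≤ a * b := mul_le_mul h3 h6 h5 (h2.trans h3)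
    nlinarith

theorem RB.prod {ι : Type} [DecidableEq ι] (s : Finset ι) (f : ι → ℂ) {a : ℝ}
    (h : ∀ i ∈ s, RB (f i) a) : RB (∏ i ∈ s, f i) (a ^ s.card) := by
  induction s using Finset.induction_on with
  | empty => simp [RB]
  | insert i s hi ih =>
    rw [Finset.prod_insert hi, Finset.card_insert_of_notMem hi, pow_succ']
    exact (h i (Finset.mem_insert_self _ _)).mul
      (ih fun j hj => h j (Finset.mem_insert_of_mem hj))

theorem RB.combo {z w : ℂ} {a b e : ℝ} (h : RB z a) (h' : RB w b) (h0 : 0 ≤ e) (h1 : e ≤ 1) :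
    RB ((e : ℂ) * z + ((1 - e : ℝ) : ℂ) * w) (e * a + (1 - e) * b) := by
  obtain ⟨h2, h3, h4⟩ := h
  obtain ⟨h5, h6, h7⟩ := h'
  have h8 : 0 ≤ 1 - e := by linarith
  refine ⟨by simp [Complex.add_im, Complex.mul_im, h2, h5], ?_, ?_⟩
  · simp only [Complex.add_re, Complex.mul_re, Complex.ofReal_re, Complex.ofReal_im, zero_mul,
      sub_zero]
    positivity
  · simp only [Complex.add_re, Complex.mul_re, Complex.ofReal_re, Complex.ofReal_im, zero_mul,
      sub_zero]
    have := mul_le_mul_of_nonneg_left h4 h0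
    have := mul_le_mul_of_nonneg_left h7 h8
    linarith

theorem RB.mono {z : ℂ} {a b : ℝ} (h : RB z a) (hab : a ≤ b) : RB z b :=
  ⟨h.1, h.2.1, h.2.2.trans hab⟩

/-! ### Partial traces of number factors -/

section Tr

variable {Λ : Type} [Fintype Λ] [DecidableEq Λ] {t : ℕ}

theorem geom_le {y : ℝ} (h0 : 0 ≤ y) (h1 : y < 1) (n : ℕ) :
    ∑ m ∈ Finset.range n, y ^ m ≤ 1 / (1 - y) := by
  have h2 : 0 < 1 - y := by linarith
  rw [le_div_iff₀ h2]
  have := geom_sum_mul_neg y n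
  have h3 : 0 ≤ y ^ n := by positivity
  linarith

theorem fib_self {B : Finset Λ} {σ : Cf Λ t} (h : σ ∈ fib B (0 : Cf Λ t)) :
    fib B σ = fib B (0 : Cf Λ t) := by
  ext ρ
  simp only [mem_fib] at h ⊢
  constructor
  · intro h' z hz
    rw [h' z hz, h z hz]
  · intro h' z hz
    rw [h' z hz, h z hz]

/-- The weights of the top projection on a block sum to at most one in each sector. -/
theorem sector_sum_le (B : Finset Λ) (m : ℕ) :
    ∑ σ ∈ (fib B (0 : Cf Λ t)).filter (fun σ => nB B σ = m), (wB B σ) ^ 2 / Zc B σ ≤ 1 := by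
  set s := (fib B (0 : Cf Λ t)).filter (fun σ => nB B σ = m) with hs
  set Zm : ℝ := ∑ ρ ∈ s, (wB B ρ) ^ 2 with hZm
  have hZ : ∀ σ ∈ s, Zc B σ = Zm := by
    intro σ hσ
    have hσ' := Finset.mem_filter.mp hσ
    rw [Zc_eq_sum_fib, fib_self hσ'.1, hZm, hs, Finset.sum_filter]
    refine Finset.sum_congr rfl fun ρ _ => ?_
    rw [hσ'.2]
    simp only [eq_comm]
  rw [Finset.sum_congr rfl fun σ hσ => by rw [hZ σ hσ], ← Finset.sum_div]
  exact div_self_le_one _

/-- The partial trace of `y ^ N P` is at most `1 / (1 - y)`. -/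
theorem ltr_top_bound (B : Finset Λ) {y : ℝ} (h0 : 0 ≤ y) (h1 : y < 1) :
    RB (ltr B ((Matrix.diagonal fun σ : Cf Λ t => ((y ^ (nB B σ) : ℝ) : ℂ)) * topP t B))
      (1 / (1 - y)) := by
  have e : ltr B ((Matrix.diagonal fun σ : Cf Λ t => ((y ^ (nB B σ) : ℝ) : ℂ)) * topP t B) =
      ((∑ σ ∈ fib B (0 : Cf Λ t), y ^ (nB B σ) * ((wB B σ) ^ 2 / Zc B σ) : ℝ) : ℂ) := by
    rw [ltr, Complex.ofReal_sum]
    refine Finset.sum_congr rfl fun σ _ => ?_
    rw [Matrix.diagonal_mul, topP_apply, if_pos (Cl.refl B σ), ← Complex.ofReal_mul]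
    congr 2
    ring
  rw [e]
  refine ⟨Complex.ofReal_im _, ?_, ?_⟩
  · rw [Complex.ofReal_re]
    refine Finset.sum_nonneg fun σ _ => ?_
    have := Zc_pos B σ
    positivity
  · rw [Complex.ofReal_re]
    set M := t * B.card + 1 with hM
    have hmaps : ∀ σ ∈ fib B (0 : Cf Λ t), nB B σ ∈ Finset.range M := by
      intro σ _
      exact Finset.mem_range.mpr (Nat.lt_succ_of_le (nB_le B σ))
    rw [← Finset.sum_fiberwise_of_maps_to hmaps]
    refine le_trans (Finset.sum_le_sum fun m _ => ?_) (geom_le h0 h1 M)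
    have e2 : ∑ σ ∈ (fib B (0 : Cf Λ t)).filter (fun σ => nB B σ = m),
        y ^ (nB B σ) * ((wB B σ) ^ 2 / Zc B σ) =
        y ^ m * ∑ σ ∈ (fib B (0 : Cf Λ t)).filter (fun σ => nB B σ = m),
          (wB B σ) ^ 2 / Zc B σ := by
      rw [Finset.mul_sum]
      refine Finset.sum_congr rfl fun σ hσ => ?_
      rw [(Finset.mem_filter.mp hσ).2]
    rw [e2]
    have h3 := sector_sum_le (t := t) B m
    have h4 : 0 ≤ y ^ m := by positivity
    nlinarith

/-- The partial trace of `y ^ n_x` on one site. -/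
theorem ltr_single_bound (x : Λ) {y : ℝ} (h0 : 0 ≤ y) (h1 : y < 1) :
    RB (ltr {x} (Matrix.diagonal fun σ : Cf Λ t => ((y ^ (nB {x} σ) : ℝ) : ℂ))) (1 / (1 - y)) := by
  have e : ltr {x} (Matrix.diagonal fun σ : Cf Λ t => ((y ^ (nB {x} σ) : ℝ) : ℂ)) =
      ((∑ σ ∈ fib {x} (0 : Cf Λ t), y ^ (nB {x} σ) : ℝ) : ℂ) := by
    rw [ltr, Complex.ofReal_sum]
    refine Finset.sum_congr rfl fun σ _ => ?_
    simp
  rw [e]
  refine ⟨Complex.ofReal_im _, ?_, ?_⟩
  · rw [Complex.ofReal_re]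
    exact Finset.sum_nonneg fun σ _ => by positivity
  · rw [Complex.ofReal_re]
    have hinj : Set.InjOn (fun σ : Cf Λ t => nB {x} σ) (fib {x} (0 : Cf Λ t)) := by
      intro σ hσ τ hτ h
      have hσ' := mem_fib.mp (Finset.mem_coe.mp hσ)
      have hτ' := mem_fib.mp (Finset.mem_coe.mp hτ)
      simp only [nB, Finset.sum_singleton] at h
      funext z
      by_cases hz : z = x
      · subst hz
        exact Fin.ext h
      · have hz' : z ∉ ({x} : Finset Λ) := by simpa using hz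
        rw [hσ' z hz', hτ' z hz']
    have e2 : ∑ σ ∈ fib {x} (0 : Cf Λ t), y ^ (nB {x} σ) =
        ∑ m ∈ (fib {x} (0 : Cf Λ t)).image (fun σ => nB {x} σ), y ^ m :=
      (Finset.sum_image hinj).symm
    rw [e2]
    have hsub : (fib {x} (0 : Cf Λ t)).image (fun σ => nB {x} σ) ⊆
        Finset.range (t * ({x} : Finset Λ).card + 1) := by
      intro m hm
      obtain ⟨σ, _, rfl⟩ := Finset.mem_image.mp hm
      exact Finset.mem_range.mpr (Nat.lt_succ_of_le (nB_le {x} σ))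
    refine le_trans (Finset.sum_le_sum_of_subset_of_nonneg hsub fun m _ _ => ?_) (geom_le h0 h1 _)
    positivity

end Tr

end Vale.Agent.Lib.P361
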