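import Vale.Agent.Lib.P361.SpinAlg

open scoped Matrix

set_option linter.unusedSectionVars false

namespace Vale.Agent.Lib.P361

variable {V : Type} [Fintype V] [DecidableEq V]

/-- The inner product on vectors. -/
noncomputable def ip (u v : V → ℂ) : ℂ := star u ⬝ᵥ v

theorem ip_adj (A : Matrix V V ℂ) (u v : V → ℂ) : ip (A *ᵥ u) v = ip u (Aᴴ *ᵥ v) := by
  simp only [ip]
  rw [Matrix.star_mulVec, Matrix.dotProduct_mulVec]

theorem nsq_eq_ip (u : V → ℂ) : nsq u = (ip u u).re := rfl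

theorem qf_eq_ip (A : Matrix V V ℂ) (u : V → ℂ) : qf A u = (ip u (A *ᵥ u)).re := rfl

theorem nsq_sub (u v : V → ℂ) : nsq (u - v) = nsq u - 2 * (ip u v).re + nsq v := by
  have h1 : (ip v u).re = (ip u v).re := by
    have : ip v u = star (ip u v) := by
      simp only [ip]
      rw [Matrix.star_dotProduct]
    rw [this]
    simp
  simp only [nsq_eq_ip, ip, star_sub, sub_dotProduct, dotProduct_sub, Complex.sub_re] at *
  linarith

/-- Sectors for a grading `n`. -/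
def InSector (n : V → ℕ) (m : ℕ) (ψ : V → ℂ) : Prop := ∀ σ, n σ ≠ m → ψ σ = 0

theorem nsq_eq_zero {ψ : V → ℂ} (h : nsq ψ = 0) : ψ = 0 := by
  rw [nsq_eq_sum] at h
  funext σ
  have := (Finset.sum_eq_zero_iff_of_nonneg (fun i _ => by positivity)).mp h σ (Finset.mem_univ _)
  simpa using this

/-- The abstract ladder estimate. -/
theorem ladder_abstract (Sp : Matrix V V ℂ) (n : V → ℕ) (T : ℕ)
    (hn : ∀ σ, n σ ≤ T)
    (hcomm : Sp * Spᴴ - Spᴴ * Sp = Matrix.diagonal fun σ => (T : ℂ) - 2 * (n σ : ℂ))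
    (hSp : ∀ σ τ, Sp σ τ ≠ 0 → n τ = n σ + 1)
    (PP : (V → ℂ) → Prop)
    (hstab : ∀ ψ, PP ψ → PP (Sp *ᵥ ψ))
    (h0 : ∀ ψ, InSector n 0 ψ → PP ψ → ψ = 0) :
    ∀ m, m ≤ T → ∀ ψ, InSector n m ψ → PP ψ →
      nsq (Sp *ᵥ ψ) ≤ (((m : ℝ) * ((T : ℝ) + 1 - m)) - T) * nsq ψ := by
  have hsect : ∀ m ψ, InSector n (m + 1) ψ → InSector n m (Sp *ᵥ ψ) := by
    intro m ψ hψ σ hσ
    simp only [Matrix.mulVec, dotProduct]
    refine Finset.sum_eq_zero fun τ _ => ?_
    by_cases h : Sp σ τ = 0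
    · simp [h]
    · rw [hψ τ (by rw [hSp σ τ h]; omega), mul_zero]
  intro m
  induction m with
  | zero =>
    intro _ ψ hψ hP
    rw [h0 ψ hψ hP]
    simp [nsq_eq_sum]
  | succ m ih =>
    intro hm ψ hψ hP
    set χ := Sp *ᵥ ψ with hχ
    have hχs : InSector n m χ := hsect m ψ hψ
    have hχP : PP χ := hstab ψ hP
    have h1 := ih (by omega) χ hχs hχP
    -- the commutator
    have h2 : nsq (Spᴴ *ᵥ χ) = nsq (Sp *ᵥ χ) + ((T : ℝ) - 2 * m) * nsq χ := by
      have e1 : nsq (Spᴴ *ᵥ χ) = (ip χ ((Sp * Spᴴ) *ᵥ χ)).re := by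
        rw [nsq_eq_ip, ← Matrix.mulVec_mulVec, ip_adj, Matrix.conjTranspose_conjTranspose]
      have e2 : nsq (Sp *ᵥ χ) = (ip χ ((Spᴴ * Sp) *ᵥ χ)).re := by
        rw [nsq_eq_ip, ← Matrix.mulVec_mulVec, ip_adj]
      have e3 : Sp * Spᴴ = Spᴴ * Sp + Matrix.diagonal fun σ => (T : ℂ) - 2 * (n σ : ℂ) := by
        rw [← hcomm]; abel
      have e4 : (ip χ (Matrix.diagonal (fun σ => (T : ℂ) - 2 * (n σ : ℂ)) *ᵥ χ)).re =
          ((T : ℝ) - 2 * m) * nsq χ := by
        simp only [ip, Matrix.mulVec_diagonal, dotProduct, Pi.star_apply, nsq_eq_sum,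
          Complex.re_sum, Finset.mul_sum]
        refine Finset.sum_congr rfl fun σ _ => ?_
        by_cases hσ : n σ = m
        · rw [hσ]
          have : star (χ σ) * (((T : ℂ) - 2 * (m : ℂ)) * χ σ) =
              (((((T : ℝ) - 2 * m) * ‖χ σ‖ ^ 2 : ℝ)) : ℂ) := by
            have e5 : star (χ σ) * χ σ = ((‖χ σ‖ ^ 2 : ℝ) : ℂ) := by
              rw [Complex.star_def, ← Complex.normSq_eq_conj_mul_self, Complex.normSq_eq_norm_sq]
            calc star (χ σ) * (((T : ℂ) - 2 * (m : ℂ)) * χ σ)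
                = ((T : ℂ) - 2 * (m : ℂ)) * (star (χ σ) * χ σ) := by ring
              _ = _ := by rw [e5]; push_cast; ring
          rw [this, Complex.ofReal_re]
        · rw [hχs σ hσ]
          simp
      rw [e1, e3, Matrix.add_mulVec]
      simp only [ip, dotProduct_add, Complex.add_re] at e2 e4 ⊢
      rw [← e2, e4]
    set A : ℝ := ((m + 1 : ℕ) : ℝ) * ((T : ℝ) + 1 - (m + 1 : ℕ)) - T with hA
    have hA_eq : A = (m : ℝ) * ((T : ℝ) - m - 1) := by
      rw [hA]; push_cast; ring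
    have hmT : ((m : ℝ) + 1) ≤ T := by exact_mod_cast hm
    have hA0 : 0 ≤ A := by
      rw [hA_eq]
      apply mul_nonneg (Nat.cast_nonneg _)
      linarith
    have h3 : nsq (Spᴴ *ᵥ χ) ≤ A * nsq χ := by
      rw [h2, hA_eq]
      have : ((m : ℝ) * ((T : ℝ) + 1 - m) - T) = (m : ℝ) * ((T : ℝ) + 1 - m) - T := rfl
      nlinarith
    -- the duality step
    have h4 : (ip ψ (Spᴴ *ᵥ χ)).re = nsq χ := by
      rw [← ip_adj, nsq_eq_ip]
    rcases hA0.lt_or_eq with hApos | hA00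
    · have h5 := nsq_nonneg ((Spᴴ *ᵥ χ) - A • ψ)
      have h6 : nsq ((Spᴴ *ᵥ χ) - A • ψ) =
          nsq (Spᴴ *ᵥ χ) - 2 * A * nsq χ + A ^ 2 * nsq ψ := by
        rw [nsq_sub]
        have e1 : (ip (Spᴴ *ᵥ χ) (A • ψ)).re = A * nsq χ := by
          have : ip (Spᴴ *ᵥ χ) (A • ψ) = (A : ℂ) * ip (Spᴴ *ᵥ χ) ψ := by
            simp [ip, dotProduct_smul]
          rw [this, Complex.re_ofReal_mul, ip_adj, Matrix.conjTranspose_conjTranspose, nsq_eq_ip]
        have e2 : nsq (A • ψ) = A ^ 2 * nsq ψ := by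
          simp only [nsq_eq_sum, Pi.smul_apply, norm_smul, Finset.mul_sum]
          refine Finset.sum_congr rfl fun σ _ => ?_
          simp only [Real.norm_eq_abs, mul_pow, sq_abs]
        rw [e1, e2]
        ring
      rw [h6] at h5
      have h7 : A * (A * nsq ψ - nsq χ) ≥ 0 := by nlinarith
      have h8 : A * nsq ψ - nsq χ ≥ 0 := by
        by_contra hcon
        push Not at hcon
        nlinarith
      linarith
    · have h5 : nsq (Spᴴ *ᵥ χ) ≤ 0 := by
        rw [← hA00] at h3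
        simpa using h3
      have h6 : Spᴴ *ᵥ χ = 0 := nsq_eq_zero (le_antisymm h5 (nsq_nonneg _))
      rw [h6] at h4
      have h7 : nsq χ = 0 := by
        rw [← h4]
        simp [ip]
      rw [h7, ← hA00]
      simp

/-- Cutting a vector to a sector. -/
def cutS (n : V → ℕ) (m : ℕ) (ψ : V → ℂ) : V → ℂ := fun σ => if n σ = m then ψ σ else 0

theorem cutS_inSector (n : V → ℕ) (m : ℕ) (ψ : V → ℂ) : InSector n m (cutS n m ψ) := by
  intro σ hσ
  simp [cutS, hσ]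

theorem Sp_cut_apply (Sp : Matrix V V ℂ) (n : V → ℕ)
    (hSp : ∀ σ τ, Sp σ τ ≠ 0 → n τ = n σ + 1) (ψ : V → ℂ) (m : ℕ) (σ : V) :
    (Sp *ᵥ cutS n m ψ) σ = if n σ + 1 = m then (Sp *ᵥ ψ) σ else 0 := by
  simp only [Matrix.mulVec, dotProduct]
  split_ifs with h
  · refine Finset.sum_congr rfl fun τ _ => ?_
    by_cases hs : Sp σ τ = 0
    · simp [hs]
    · have := hSp σ τ hs
      simp [cutS, this, h]
  · refine Finset.sum_eq_zero fun τ _ => ?_
    by_cases hs : Sp σ τ = 0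
    · simp [hs]
    · have := hSp σ τ hs
      have h2 : n τ ≠ m := by omega
      simp [cutS, h2]

/-- Sum over sectors of the abstract ladder estimate. -/
theorem gap_abstract (Sp : Matrix V V ℂ) (n : V → ℕ) (T : ℕ)
    (hn : ∀ σ, n σ ≤ T)
    (hcomm : Sp * Spᴴ - Spᴴ * Sp = Matrix.diagonal fun σ => (T : ℂ) - 2 * (n σ : ℂ))
    (hSp : ∀ σ τ, Sp σ τ ≠ 0 → n τ = n σ + 1)
    (PP : (V → ℂ) → Prop)
    (hstab : ∀ ψ, PP ψ → PP (Sp *ᵥ ψ))
    (h0 : ∀ ψ, InSector n 0 ψ → PP ψ → ψ = 0)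
    (hcut : ∀ ψ, PP ψ → ∀ m, PP (cutS n m ψ)) (ψ : V → ℂ) (hψ : PP ψ) :
    nsq (Sp *ᵥ ψ) ≤ ∑ σ, (((n σ : ℝ) * ((T : ℝ) + 1 - n σ)) - T) * ‖ψ σ‖ ^ 2 := by
  have hlad := ladder_abstract Sp n T hn hcomm hSp PP hstab h0
  -- fiberwise decomposition of the right side
  have hR : ∑ σ, (((n σ : ℝ) * ((T : ℝ) + 1 - n σ)) - T) * ‖ψ σ‖ ^ 2 =
      ∑ m ∈ Finset.range (T + 1), (((m : ℝ) * ((T : ℝ) + 1 - m)) - T) * nsq (cutS n m ψ) := by
    have e : ∀ m, nsq (cutS n m ψ) = ∑ σ ∈ Finset.univ.filter (fun σ => n σ = m), ‖ψ σ‖ ^ 2 := by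
      intro m
      rw [nsq_eq_sum, Finset.sum_filter]
      refine Finset.sum_congr rfl fun σ _ => ?_
      by_cases h : n σ = m <;> simp [cutS, h]
    simp only [e, Finset.mul_sum]
    rw [← Finset.sum_fiberwise_of_maps_to (s := Finset.univ) (t := Finset.range (T + 1)) (g := n)
      (fun σ _ => Finset.mem_range.mpr (Nat.lt_succ_of_le (hn σ)))]
    refine Finset.sum_congr rfl fun m _ => Finset.sum_congr rfl fun σ hσ => ?_
    rw [(Finset.mem_filter.mp hσ).2]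
  have hL : nsq (Sp *ᵥ ψ) ≤ ∑ m ∈ Finset.range (T + 1), nsq (Sp *ᵥ cutS n m ψ) := by
    simp only [nsq_eq_sum]
    rw [Finset.sum_comm]
    refine Finset.sum_le_sum fun σ _ => ?_
    simp only [Sp_cut_apply Sp n hSp]
    by_cases hσ : n σ + 1 ≤ T
    · have hmem : n σ + 1 ∈ Finset.range (T + 1) := Finset.mem_range.mpr (by omega)
      have := Finset.single_le_sum (f := fun m => ‖if n σ + 1 = m then (Sp *ᵥ ψ) σ else 0‖ ^ 2)
        (fun m _ => by positivity) hmem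
      simpa using this
    · have : (Sp *ᵥ ψ) σ = 0 := by
        simp only [Matrix.mulVec, dotProduct]
        refine Finset.sum_eq_zero fun τ _ => ?_
        by_cases hs : Sp σ τ = 0
        · simp [hs]
        · have h1 := hSp σ τ hs
          have h2 := hn τ
          omega
      rw [this]
      simp only [norm_zero]
      have h0' : (0 : ℝ) ^ 2 = 0 := by norm_num
      rw [h0']
      exact Finset.sum_nonneg fun m _ => by positivity
  rw [hR]
  refine hL.trans (Finset.sum_le_sum fun m hm => ?_)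
  exact hlad m (by have := Finset.mem_range.mp hm; omega) _ (cutS_inSector n m ψ) (hcut ψ hψ m)

end Vale.Agent.Lib.P361
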