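import Vale.Agent.Lib.P361.Defs

open scoped Matrix
open Function

set_option linter.unusedSectionVars false

namespace Vale.Agent.Lib.P361

variable {Λ : Type} [Fintype Λ] [DecidableEq Λ] {t : ℕ}

/-- Configurations of the spin system. -/
abbrev Cf (Λ : Type) (t : ℕ) : Type := Λ → Fin (t + 1)

theorem ext_mulVec {n : Type} [Fintype n] [DecidableEq n] {A B : Matrix n n ℂ}
    (h : ∀ ψ : n → ℂ, A *ᵥ ψ = B *ᵥ ψ) : A = B := by
  ext i j
  have := congrFun (h (Pi.single j 1)) i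
  simpa using this

theorem onSite_apply (x : Λ) (A : Matrix (Fin (t + 1)) (Fin (t + 1)) ℂ) (σ τ : Cf Λ t) :
    onSite x A σ τ = if ∀ z, z ≠ x → σ z = τ z then A (σ x) (τ x) else 0 := rfl

/-- sum over configurations agreeing with `σ` off `x`. -/
theorem sum_fiber_site (x : Λ) (σ : Cf Λ t) (F : Cf Λ t → ℂ)
    (hF : ∀ τ, ¬ (∀ z, z ≠ x → σ z = τ z) → F τ = 0) :
    ∑ τ, F τ = ∑ k, F (update σ x k) := by
  classical
  symm
  refine Finset.sum_of_injOn (fun k => update σ x k) ?_ ?_ ?_ ?_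
  · intro a _ b _ hab
    have := congrFun hab x
    simpa using this
  · intro a _
    exact Finset.mem_coe.mpr (Finset.mem_univ _)
  · intro τ _ hτ
    apply hF
    intro hag
    apply hτ
    refine ⟨τ x, Finset.mem_coe.mpr (Finset.mem_univ _), ?_⟩
    funext z
    by_cases hz : z = x
    · subst hz; simp
    · simp [update_of_ne hz, hag z hz]
  · intro _ _; rfl

theorem onSite_mulVec (x : Λ) (A : Matrix (Fin (t + 1)) (Fin (t + 1)) ℂ) (ψ : Cf Λ t → ℂ)
    (σ : Cf Λ t) : (onSite x A *ᵥ ψ) σ = ∑ k, A (σ x) k * ψ (update σ x k) := by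
  simp only [Matrix.mulVec, dotProduct]
  rw [sum_fiber_site x σ (fun τ => onSite x A σ τ * ψ τ)]
  · refine Finset.sum_congr rfl fun k _ => ?_
    have : ∀ z, z ≠ x → σ z = update σ x k z := fun z hz => by simp [update_of_ne hz]
    rw [onSite_apply, if_pos this, update_self]
  · intro τ hτ
    simp [onSite_apply, hτ]

theorem onSite_one (x : Λ) : onSite x (1 : Matrix (Fin (t + 1)) (Fin (t + 1)) ℂ) = 1 := by
  ext σ τ
  rw [onSite_apply, Matrix.one_apply, Matrix.one_apply]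
  by_cases h : σ = τ
  · subst h; simp
  · rw [if_neg h]
    by_cases hag : ∀ z, z ≠ x → σ z = τ z
    · rw [if_pos hag, if_neg]
      intro hx
      apply h
      funext z
      by_cases hz : z = x
      · subst hz; exact hx
      · exact hag z hz
    · rw [if_neg hag]

theorem onSite_add (x : Λ) (A B : Matrix (Fin (t + 1)) (Fin (t + 1)) ℂ) :
    onSite x (A + B) = onSite x A + onSite x B := by
  ext σ τ
  simp only [Matrix.add_apply, onSite_apply]
  split_ifs <;> simp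

theorem onSite_sub (x : Λ) (A B : Matrix (Fin (t + 1)) (Fin (t + 1)) ℂ) :
    onSite x (A - B) = onSite x A - onSite x B := by
  ext σ τ
  simp only [Matrix.sub_apply, onSite_apply]
  split_ifs <;> simp

theorem onSite_smul (x : Λ) (c : ℂ) (A : Matrix (Fin (t + 1)) (Fin (t + 1)) ℂ) :
    onSite x (c • A) = c • onSite x A := by
  ext σ τ
  simp only [Matrix.smul_apply, onSite_apply]
  split_ifs <;> simp

theorem onSite_zero (x : Λ) : onSite x (0 : Matrix (Fin (t + 1)) (Fin (t + 1)) ℂ) = 0 := by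
  ext σ τ
  simp only [Matrix.zero_apply, onSite_apply]
  split_ifs <;> rfl

theorem onSite_conjTranspose (x : Λ) (A : Matrix (Fin (t + 1)) (Fin (t + 1)) ℂ) :
    (onSite x A)ᴴ = onSite x Aᴴ := by
  ext σ τ
  simp only [Matrix.conjTranspose_apply, onSite_apply]
  by_cases h : ∀ z, z ≠ x → σ z = τ z
  · have h' : ∀ z, z ≠ x → τ z = σ z := fun z hz => (h z hz).symm
    rw [if_pos h, if_pos h']
  · have h' : ¬ ∀ z, z ≠ x → τ z = σ z := fun h2 => h fun z hz => (h2 z hz).symm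
    rw [if_neg h, if_neg h', star_zero]

theorem onSite_mul (x : Λ) (A B : Matrix (Fin (t + 1)) (Fin (t + 1)) ℂ) :
    onSite x A * onSite x B = onSite x (A * B) := by
  apply ext_mulVec
  intro ψ
  funext σ
  rw [← Matrix.mulVec_mulVec, onSite_mulVec, onSite_mulVec]
  simp only [onSite_mulVec, update_self, update_idem, Matrix.mul_apply, Finset.mul_sum,
    Finset.sum_mul]
  rw [Finset.sum_comm]
  refine Finset.sum_congr rfl fun k _ => Finset.sum_congr rfl fun l _ => ?_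
  ring

theorem onSite_comm {x y : Λ} (hxy : x ≠ y) (A B : Matrix (Fin (t + 1)) (Fin (t + 1)) ℂ) :
    onSite x A * onSite y B = onSite y B * onSite x A := by
  apply ext_mulVec
  intro ψ
  funext σ
  rw [← Matrix.mulVec_mulVec, ← Matrix.mulVec_mulVec, onSite_mulVec, onSite_mulVec]
  simp only [onSite_mulVec, update_of_ne hxy, update_of_ne hxy.symm, Finset.mul_sum]
  rw [Finset.sum_comm]
  refine Finset.sum_congr rfl fun k _ => Finset.sum_congr rfl fun l _ => ?_
  rw [update_comm hxy]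
  ring

/-! ### Locality -/

/-- `O` acts on the sites in `B` only. -/
structure Loc (B : Finset Λ) (O : Matrix (Cf Λ t) (Cf Λ t) ℂ) : Prop where
  off : ∀ σ τ : Cf Λ t, (∃ z, z ∉ B ∧ σ z ≠ τ z) → O σ τ = 0
  dep : ∀ σ τ σ' τ' : Cf Λ t, (∀ z ∈ B, σ z = σ' z) → (∀ z ∈ B, τ z = τ' z) →
    (∀ z, z ∉ B → σ z = τ z) → (∀ z, z ∉ B → σ' z = τ' z) → O σ τ = O σ' τ'

theorem Loc.mono {B B' : Finset Λ} (h : B ⊆ B') {O : Matrix (Cf Λ t) (Cf Λ t) ℂ}
    (hO : Loc B O) : Loc B' O := by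
  refine ⟨fun σ τ ⟨z, hz, hne⟩ => hO.off σ τ ⟨z, fun hb => hz (h hb), hne⟩, ?_⟩
  intro σ τ σ' τ' h1 h2 h3 h4
  by_cases hc : ∃ z, z ∉ B ∧ σ z ≠ τ z
  · obtain ⟨z, hz, hne⟩ := hc
    have hz' : z ∈ B' := by
      by_contra hcon
      exact hne (h3 z hcon)
    rw [hO.off σ τ ⟨z, hz, hne⟩, hO.off σ' τ' ⟨z, hz, ?_⟩]
    rw [← h1 z hz', ← h2 z hz']
    exact hne
  · push Not at hc
    have hc' : ∀ z, z ∉ B → σ' z = τ' z := by
      intro z hz
      by_cases hz' : z ∈ B'
      · rw [← h1 z hz', ← h2 z hz']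
        exact hc z hz
      · exact h4 z hz'
    exact hO.dep σ τ σ' τ' (fun z hz => h1 z (h hz)) (fun z hz => h2 z (h hz)) hc hc'

theorem Loc.one (B : Finset Λ) : Loc B (1 : Matrix (Cf Λ t) (Cf Λ t) ℂ) := by
  refine ⟨?_, ?_⟩
  · rintro σ τ ⟨z, -, hne⟩
    apply Matrix.one_apply_ne
    intro h
    exact hne (congrFun h z)
  · intro σ τ σ' τ' h1 h2 h3 h4
    have e1 : (σ = τ) ↔ (σ' = τ') := by
      constructor
      · intro h
        funext z
        by_cases hz : z ∈ B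
        · rw [← h1 z hz, ← h2 z hz, h]
        · exact h4 z hz
      · intro h
        funext z
        by_cases hz : z ∈ B
        · rw [h1 z hz, h2 z hz, h]
        · exact h3 z hz
    simp only [Matrix.one_apply, e1]

theorem Loc.zero (B : Finset Λ) : Loc B (0 : Matrix (Cf Λ t) (Cf Λ t) ℂ) :=
  ⟨fun _ _ _ => rfl, fun _ _ _ _ _ _ _ _ => rfl⟩

theorem Loc.add {B : Finset Λ} {O O' : Matrix (Cf Λ t) (Cf Λ t) ℂ} (h : Loc B O) (h' : Loc B O') :
    Loc B (O + O') := by
  refine ⟨fun σ τ hz => ?_, fun σ τ σ' τ' h1 h2 h3 h4 => ?_⟩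
  · simp [h.off σ τ hz, h'.off σ τ hz]
  · simp only [Matrix.add_apply, h.dep σ τ σ' τ' h1 h2 h3 h4, h'.dep σ τ σ' τ' h1 h2 h3 h4]

theorem Loc.smul {B : Finset Λ} (c : ℂ) {O : Matrix (Cf Λ t) (Cf Λ t) ℂ} (h : Loc B O) :
    Loc B (c • O) := by
  refine ⟨fun σ τ hz => ?_, fun σ τ σ' τ' h1 h2 h3 h4 => ?_⟩
  · simp [h.off σ τ hz]
  · simp only [Matrix.smul_apply, h.dep σ τ σ' τ' h1 h2 h3 h4]

theorem Loc.neg {B : Finset Λ} {O : Matrix (Cf Λ t) (Cf Λ t) ℂ} (h : Loc B O) :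
    Loc B (-O) := by
  have := h.smul (-1)
  simpa using this

theorem Loc.sub {B : Finset Λ} {O O' : Matrix (Cf Λ t) (Cf Λ t) ℂ} (h : Loc B O) (h' : Loc B O') :
    Loc B (O - O') := by
  rw [sub_eq_add_neg]
  exact h.add h'.neg

theorem Loc.sum {ι : Type} {B : Finset Λ} (s : Finset ι) {O : ι → Matrix (Cf Λ t) (Cf Λ t) ℂ}
    (h : ∀ i ∈ s, Loc B (O i)) : Loc B (∑ i ∈ s, O i) := by
  classical
  induction s using Finset.induction_on with
  | empty => simpa using Loc.zero B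
  | insert a s ha ih =>
    rw [Finset.sum_insert ha]
    exact (h a (Finset.mem_insert_self _ _)).add
      (ih fun i hi => h i (Finset.mem_insert_of_mem hi))

/-- Glue: the values of `σ` on `B` and of `ξ` off `B`. -/
def glue (B : Finset Λ) (σ ξ : Cf Λ t) : Cf Λ t := fun z => if z ∈ B then σ z else ξ z

theorem glue_mem {B : Finset Λ} {σ ξ : Cf Λ t} {z : Λ} (hz : z ∈ B) : glue B σ ξ z = σ z := by
  simp [glue, hz]

theorem glue_notMem {B : Finset Λ} {σ ξ : Cf Λ t} {z : Λ} (hz : z ∉ B) : glue B σ ξ z = ξ z := by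
  simp [glue, hz]

/-- Sum over the fiber of `σ` (configurations agreeing with `σ` off `B`). -/
noncomputable def fib (B : Finset Λ) (σ : Cf Λ t) : Finset (Cf Λ t) :=
  Finset.univ.filter fun ρ => ∀ z, z ∉ B → ρ z = σ z

theorem mem_fib {B : Finset Λ} {σ ρ : Cf Λ t} : ρ ∈ fib B σ ↔ ∀ z, z ∉ B → ρ z = σ z := by
  simp [fib]

theorem sum_fib_reindex {β : Type} [AddCommMonoid β] (B : Finset Λ) (σ σ' : Cf Λ t)
    (F G : Cf Λ t → β) (h : ∀ ρ ∈ fib B σ, F ρ = G (glue B ρ σ')) :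
    ∑ ρ ∈ fib B σ, F ρ = ∑ ρ ∈ fib B σ', G ρ := by
  refine Finset.sum_nbij' (fun ρ => glue B ρ σ') (fun ρ => glue B ρ σ) ?_ ?_ ?_ ?_ h
  · intro ρ _
    rw [mem_fib]
    intro z hz
    exact glue_notMem hz
  · intro ρ _
    rw [mem_fib]
    intro z hz
    exact glue_notMem hz
  · intro ρ hρ
    funext z
    by_cases hz : z ∈ B
    · simp [glue, hz]
    · simp [glue, hz, (mem_fib.mp hρ) z hz]
  · intro ρ hρ
    funext z
    by_cases hz : z ∈ B
    · simp [glue, hz]
    · simp [glue, hz, (mem_fib.mp hρ) z hz]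

theorem Loc.mul_apply_eq_sum_fib {B : Finset Λ} {O O' : Matrix (Cf Λ t) (Cf Λ t) ℂ} (h : Loc B O)
    (σ τ : Cf Λ t) : (O * O') σ τ = ∑ ρ ∈ fib B σ, O σ ρ * O' ρ τ := by
  rw [Matrix.mul_apply]
  symm
  apply Finset.sum_subset (Finset.subset_univ _)
  intro ρ _ hρ
  rw [mem_fib] at hρ
  push Not at hρ
  obtain ⟨z, hz, hne⟩ := hρ
  rw [h.off σ ρ ⟨z, hz, hne.symm⟩, zero_mul]

theorem Loc.mul {B : Finset Λ} {O O' : Matrix (Cf Λ t) (Cf Λ t) ℂ} (h : Loc B O) (h' : Loc B O') :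
    Loc B (O * O') := by
  refine ⟨fun σ τ hz => ?_, fun σ τ σ' τ' h1 h2 h3 h4 => ?_⟩
  · obtain ⟨z, hz, hne⟩ := hz
    rw [Matrix.mul_apply]
    refine Finset.sum_eq_zero fun ρ _ => ?_
    by_cases hρ : σ z = ρ z
    · rw [h'.off ρ τ ⟨z, hz, by rw [← hρ]; exact hne⟩, mul_zero]
    · rw [h.off σ ρ ⟨z, hz, hρ⟩, zero_mul]
  · rw [h.mul_apply_eq_sum_fib, h.mul_apply_eq_sum_fib]
    refine sum_fib_reindex B σ σ' _ _ fun ρ hρ => ?_
    have hρ' := mem_fib.mp hρ
    congr 1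
    · refine h.dep σ ρ σ' (glue B ρ σ') h1 (fun z hz => ?_) (fun z hz => (hρ' z hz).symm)
        (fun z hz => (glue_notMem hz).symm)
      exact (glue_mem hz).symm
    · refine h'.dep ρ τ (glue B ρ σ') τ' (fun z hz => (glue_mem hz).symm) h2 (fun z hz => ?_)
        (fun z hz => ?_)
      · rw [hρ' z hz, h3 z hz]
      · rw [glue_notMem hz, h4 z hz]

/-- The product of operators acting on disjoint sets, entry by entry. -/
theorem Loc.mul_apply_disj {B B' : Finset Λ} (hd : Disjoint B B')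
    {O O' : Matrix (Cf Λ t) (Cf Λ t) ℂ} (h : Loc B O) (h' : Loc B' O') (σ τ : Cf Λ t) :
    (O * O') σ τ = O σ (glue B τ σ) * O' (glue B τ σ) τ := by
  rw [Matrix.mul_apply]
  refine Finset.sum_eq_single _ (fun ρ _ hρ => ?_) (fun hn => absurd (Finset.mem_univ _) hn)
  obtain ⟨z, hz⟩ : ∃ z, ρ z ≠ glue B τ σ z := by
    by_contra hcon
    push Not at hcon
    exact hρ (funext hcon)
  by_cases hzB : z ∈ B
  · rw [glue_mem hzB] at hz
    have : z ∉ B' := Finset.disjoint_left.mp hd hzB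
    rw [h'.off ρ τ ⟨z, this, hz⟩, mul_zero]
  · rw [glue_notMem hzB] at hz
    rw [h.off σ ρ ⟨z, hzB, fun e => hz e.symm⟩, zero_mul]

theorem Loc.commute {B B' : Finset Λ} (hd : Disjoint B B')
    {O O' : Matrix (Cf Λ t) (Cf Λ t) ℂ} (h : Loc B O) (h' : Loc B' O') : Commute O O' := by
  ext σ τ
  rw [h.mul_apply_disj hd h', h'.mul_apply_disj hd.symm h]
  have hB' : ∀ {z}, z ∈ B → z ∉ B' := fun hz => Finset.disjoint_left.mp hd hz
  have hB : ∀ {z}, z ∈ B' → z ∉ B := fun hz => Finset.disjoint_right.mp hd hz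
  by_cases hc : ∃ z, z ∉ B ∧ z ∉ B' ∧ σ z ≠ τ z
  · obtain ⟨z, hz, hz', hne⟩ := hc
    have e1 : O' (glue B τ σ) τ = 0 :=
      h'.off _ _ ⟨z, hz', by rw [glue_notMem hz]; exact hne⟩
    have e2 : O (glue B' τ σ) τ = 0 :=
      h.off _ _ ⟨z, hz, by rw [glue_notMem hz']; exact hne⟩
    rw [e1, e2, mul_zero, mul_zero]
  · push Not at hc
    have e1 : O σ (glue B τ σ) = O (glue B' τ σ) τ := by
      refine h.dep _ _ _ _ (fun z hz => ?_) (fun z hz => ?_) (fun z hz => ?_) (fun z hz => ?_)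
      · rw [glue_notMem (hB' hz)]
      · rw [glue_mem hz]
      · rw [glue_notMem hz]
      · by_cases hz' : z ∈ B'
        · rw [glue_mem hz']
        · rw [glue_notMem hz']; exact hc z hz hz'
    have e2 : O' (glue B τ σ) τ = O' σ (glue B' τ σ) := by
      refine h'.dep _ _ _ _ (fun z hz => ?_) (fun z hz => ?_) (fun z hz => ?_) (fun z hz => ?_)
      · rw [glue_notMem (hB hz)]
      · rw [glue_mem hz]
      · by_cases hz' : z ∈ B
        · rw [glue_mem hz']
        · rw [glue_notMem hz']; exact hc z hz' hz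
      · rw [glue_notMem hz]
    rw [e1, e2, mul_comm]

theorem onSite_loc (x : Λ) (A : Matrix (Fin (t + 1)) (Fin (t + 1)) ℂ) :
    Loc {x} (onSite x A) := by
  refine ⟨?_, ?_⟩
  · rintro σ τ ⟨z, hz, hne⟩
    rw [onSite_apply, if_neg]
    intro h
    refine hne (h z ?_)
    simpa using hz
  · intro σ τ σ' τ' h1 h2 h3 h4
    have hx := Finset.mem_singleton_self x
    have h3' : ∀ z, z ≠ x → σ z = τ z := fun z hz => h3 z (by simpa using hz)
    have h4' : ∀ z, z ≠ x → σ' z = τ' z := fun z hz => h4 z (by simpa using hz)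
    rw [onSite_apply, onSite_apply, if_pos h3', if_pos h4', h1 x hx, h2 x hx]

/-! ### Local trace -/

/-- The trace over the tensor factors in `B`, the other factors being frozen. -/
noncomputable def ltr (B : Finset Λ) (O : Matrix (Cf Λ t) (Cf Λ t) ℂ) : ℂ :=
  ∑ σ ∈ fib B (0 : Cf Λ t), O σ σ

theorem ltr_univ (O : Matrix (Cf Λ t) (Cf Λ t) ℂ) :
    ltr (Finset.univ : Finset Λ) O = Matrix.trace O := by
  have : fib (Finset.univ : Finset Λ) (0 : Cf Λ t) = Finset.univ := by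
    ext σ
    simp [fib]
  simp [ltr, this, Matrix.trace]

theorem ltr_mul_of_disjoint {B B' : Finset Λ} (hd : Disjoint B B')
    {O O' : Matrix (Cf Λ t) (Cf Λ t) ℂ} (h : Loc B O) (h' : Loc B' O') :
    ltr (B ∪ B') (O * O') = ltr B O * ltr B' O' := by
  have hdiag : ∀ σ : Cf Λ t, (O * O') σ σ = O σ σ * O' σ σ := by
    intro σ
    rw [h.mul_apply_disj hd h']
    have : glue B σ σ = σ := by
      funext z
      simp [glue]
    rw [this]
  have hf : ∀ σ σ' : Cf Λ t, (∀ z ∈ B, σ z = σ' z) → O σ σ = O σ' σ' := fun σ σ' hs =>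
    h.dep σ σ σ' σ' hs hs (fun _ _ => rfl) (fun _ _ => rfl)
  have hg : ∀ σ σ' : Cf Λ t, (∀ z ∈ B', σ z = σ' z) → O' σ σ = O' σ' σ' := fun σ σ' hs =>
    h'.dep σ σ σ' σ' hs hs (fun _ _ => rfl) (fun _ _ => rfl)
  simp only [ltr, hdiag]
  rw [Finset.sum_mul_sum, ← Finset.sum_product']
  symm
  refine Finset.sum_nbij' (fun p => glue B p.1 p.2) (fun σ => (glue B σ 0, glue B' σ 0))
    ?_ ?_ ?_ ?_ ?_
  · rintro ⟨a, b⟩ hp
    rw [Finset.mem_product] at hp
    rw [mem_fib]
    intro z hz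
    have hz1 : z ∉ B := fun hh => hz (Finset.mem_union_left _ hh)
    have hz2 : z ∉ B' := fun hh => hz (Finset.mem_union_right _ hh)
    simp only [glue_notMem hz1]
    exact (mem_fib.mp hp.2) z hz2
  · intro σ _
    rw [Finset.mem_product]
    refine ⟨mem_fib.mpr fun z hz => glue_notMem hz, mem_fib.mpr fun z hz => glue_notMem hz⟩
  · rintro ⟨a, b⟩ hp
    rw [Finset.mem_product] at hp
    ext z
    · by_cases hz : z ∈ B
      · simp [glue, hz]
      · have h0 : a z = 0 := (mem_fib.mp hp.1) z hz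
        simp [glue, hz, h0]
    · by_cases hz : z ∈ B'
      · have hz1 : z ∉ B := Finset.disjoint_right.mp hd hz
        simp [glue, hz, hz1]
      · have h0 : b z = 0 := (mem_fib.mp hp.2) z hz
        simp [glue, hz, h0]
  · intro σ hσ
    funext z
    by_cases hz : z ∈ B
    · simp [glue, hz]
    · by_cases hz' : z ∈ B'
      · simp [glue, hz, hz']
      · have := (mem_fib.mp hσ) z (by simp [hz, hz'])
        simp [glue, hz, hz', this]
  · rintro ⟨a, b⟩ hp
    simp only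
    rw [hf (glue B a b) a (fun z hz => glue_mem hz),
      hg (glue B a b) b (fun z hz => glue_notMem (Finset.disjoint_right.mp hd hz))]

/-! ### The exponential of a local operator is local -/

/-- The subalgebra of operators acting on `B`. -/
def locSubalgebra (B : Finset Λ) : Subalgebra ℂ (Matrix (Cf Λ t) (Cf Λ t) ℂ) where
  carrier := {O | Loc B O}
  mul_mem' := fun h h' => Loc.mul h h'
  add_mem' := fun h h' => Loc.add h h'
  algebraMap_mem' := fun r => by
    have : algebraMap ℂ (Matrix (Cf Λ t) (Cf Λ t) ℂ) r = r • (1 : Matrix (Cf Λ t) (Cf Λ t) ℂ) := by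
      rw [Algebra.algebraMap_eq_smul_one]
    show Loc B _
    rw [this]
    exact (Loc.one B).smul r

theorem locSubalgebra_closed (B : Finset Λ) :
    IsClosed ((locSubalgebra (t := t) B : Subalgebra ℂ _) : Set (Matrix (Cf Λ t) (Cf Λ t) ℂ)) := by
  have : ((locSubalgebra (t := t) B : Subalgebra ℂ _) : Set (Matrix (Cf Λ t) (Cf Λ t) ℂ)) =
      (⋂ (σ : Cf Λ t) (τ : Cf Λ t) (_ : ∃ z, z ∉ B ∧ σ z ≠ τ z), {O | O σ τ = 0}) ∩
      (⋂ (σ : Cf Λ t) (τ : Cf Λ t) (σ' : Cf Λ t) (τ' : Cf Λ t)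
        (_ : (∀ z ∈ B, σ z = σ' z) ∧ (∀ z ∈ B, τ z = τ' z) ∧
          (∀ z, z ∉ B → σ z = τ z) ∧ (∀ z, z ∉ B → σ' z = τ' z)), {O | O σ τ = O σ' τ'}) := by
    ext O
    simp only [Set.mem_inter_iff, Set.mem_iInter, Set.mem_ofPred_eq]
    constructor
    · intro h
      exact ⟨fun σ τ hz => h.off σ τ hz, fun σ τ σ' τ' hh => h.dep σ τ σ' τ' hh.1 hh.2.1 hh.2.2.1 hh.2.2.2⟩
    · rintro ⟨h1, h2⟩
      exact ⟨fun σ τ hz => h1 σ τ hz, fun σ τ σ' τ' a b c d => h2 σ τ σ' τ' ⟨a, b, c, d⟩⟩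
  rw [this]
  refine IsClosed.inter ?_ ?_
  · refine isClosed_iInter fun σ => isClosed_iInter fun τ => isClosed_iInter fun _ => ?_
    exact isClosed_eq (continuous_id.matrix_elem σ τ) continuous_const
  · refine isClosed_iInter fun σ => isClosed_iInter fun τ => isClosed_iInter fun σ' =>
      isClosed_iInter fun τ' => isClosed_iInter fun _ => ?_
    exact isClosed_eq (continuous_id.matrix_elem σ τ) (continuous_id.matrix_elem σ' τ')

theorem Loc.exp {B : Finset Λ} {O : Matrix (Cf Λ t) (Cf Λ t) ℂ} (h : Loc B O) :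
    Loc B (NormedSpace.exp O) := by
  have := NormedSpace.exp_mem (R := ℂ) (S := Subalgebra ℂ (Matrix (Cf Λ t) (Cf Λ t) ℂ))
    (s := locSubalgebra B) (locSubalgebra_closed B) (x := O) h
  exact this

/-- Factorization of `exp` of a sum of commuting local operators. -/
theorem ltr_exp_sum {ι : Type} [DecidableEq ι] (s : Finset ι) (B : ι → Finset Λ)
    (X : ι → Matrix (Cf Λ t) (Cf Λ t) ℂ) (hB : (s : Set ι).PairwiseDisjoint B)
    (hX : ∀ i ∈ s, Loc (B i) (X i)) :
    ltr (s.biUnion B) (NormedSpace.exp (∑ i ∈ s, X i)) = ∏ i ∈ s, ltr (B i) (NormedSpace.exp (X i)) := by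
  induction s using Finset.induction_on with
  | empty =>
    simp only [Finset.biUnion_empty, Finset.sum_empty, NormedSpace.exp_zero, Finset.prod_empty]
    have : fib (∅ : Finset Λ) (0 : Cf Λ t) = {0} := by
      ext σ
      simp only [mem_fib, Finset.notMem_empty, not_false_eq_true, forall_const,
        Finset.mem_singleton]
      exact ⟨fun h => funext h, fun h => by rw [h]; exact fun _ => rfl⟩
    simp [ltr, this]
  | insert a s ha ih =>
    have hB' : (s : Set ι).PairwiseDisjoint B := hB.subset (by simp)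
    have hX' : ∀ i ∈ s, Loc (B i) (X i) := fun i hi => hX i (Finset.mem_insert_of_mem hi)
    have hXa : Loc (B a) (X a) := hX a (Finset.mem_insert_self _ _)
    have hd : Disjoint (B a) (s.biUnion B) := by
      rw [Finset.disjoint_biUnion_right]
      intro i hi
      apply hB (Finset.mem_coe.mpr (Finset.mem_insert_self _ _))
        (Finset.mem_coe.mpr (Finset.mem_insert_of_mem hi))
      rintro rfl
      exact ha hi
    have hS : Loc (s.biUnion B) (∑ i ∈ s, X i) :=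
      Loc.sum s fun i hi => (hX' i hi).mono (Finset.subset_biUnion_of_mem B hi)
    rw [Finset.sum_insert ha, Finset.biUnion_insert, Finset.prod_insert ha,
      Matrix.exp_add_of_commute _ _ (hXa.commute hd hS),
      ltr_mul_of_disjoint hd hXa.exp hS.exp, ih hB' hX']

end Vale.Agent.Lib.P361
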