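import Vale.Agent.Lib.P361.Upper

open scoped Matrix
open Function

set_option linter.unusedSectionVars false

namespace Vale.Agent.Lib.P361

section Vectors

variable {Λ : Type} [Fintype Λ] [DecidableEq Λ] {t : ℕ}

/-- The basis vector of a configuration. -/
noncomputable def bas (ξ : Cf Λ t) : Cf Λ t → ℂ := fun σ => if σ = ξ then 1 else 0

theorem star_bas_dot (ξ : Cf Λ t) (v : Cf Λ t → ℂ) : star (bas ξ) ⬝ᵥ v = v ξ := by
  simp only [dotProduct, bas, Pi.star_apply]
  rw [Finset.sum_eq_single ξ]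
  · simp
  · intro σ _ hσ
    simp [hσ]
  · intro hn; exact absurd (Finset.mem_univ _) hn

theorem nsq_bas (ξ : Cf Λ t) : nsq (bas ξ) = 1 := by
  rw [nsq_eq_ip, ip, star_bas_dot]
  simp [bas]

theorem nsq_smul_real (c : ℝ) (v : Cf Λ t → ℂ) : nsq ((c : ℂ) • v) = c ^ 2 * nsq v := by
  rw [nsq_eq_sum, nsq_eq_sum, Finset.mul_sum]
  refine Finset.sum_congr rfl fun σ _ => ?_
  simp only [Pi.smul_apply, smul_eq_mul, norm_mul, Complex.norm_real, Real.norm_eq_abs, mul_pow,
    sq_abs]

/-- `a_x` on a basis vector whose occupation at `x` is zero. -/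
theorem amat_bas (x : Λ) (ξ : Cf Λ t) (hξ : (ξ x : ℕ) = 0) :
    onSite x (amat t) *ᵥ bas ξ = ((Real.sqrt t : ℝ) : ℂ) • bas ξ := by
  funext σ
  rw [onSite_amat_mulVec]
  simp only [Pi.smul_apply, smul_eq_mul, bas]
  by_cases h : σ = ξ
  · subst h
    simp [hξ]
  · simp [h]

/-- The level one state of a site. -/
def one1 (ht : 0 < t) : Fin (t + 1) := ⟨1, by omega⟩

/-- The magnon with amplitudes `c` on a vacuum `ξ`. -/
noncomputable def mag (ht : 0 < t) (B : Finset Λ) (c : Λ → ℝ) (ξ : Cf Λ t) : Cf Λ t → ℂ :=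
  fun σ => ∑ z ∈ B, (c z : ℂ) * bas (update ξ z (one1 ht)) σ

theorem update_one_inj (ht : 0 < t) {ξ ξ' : Cf Λ t} {z z' : Λ} (hz : (ξ z' : ℕ) = 0)
    (hz' : (ξ' z : ℕ) = 0) (h : update ξ z (one1 ht) = update ξ' z' (one1 ht)) :
    z = z' ∧ ξ = ξ' := by
  have hzz : z = z' := by
    by_contra hne
    have h1 := congrFun h z'
    rw [update_self, update_of_ne (Ne.symm hne)] at h1
    have := congrArg (fun k : Fin (t + 1) => (k : ℕ)) h1
    simp only [one1] at this
    omega
  refine ⟨hzz, ?_⟩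
  subst hzz
  funext w
  by_cases hw : w = z
  · subst hw
    exact Fin.ext (hz.trans hz'.symm)
  · have := congrFun h w
    rwa [update_of_ne hw, update_of_ne hw] at this

/-- The value of a magnon vector on an excited configuration. -/
theorem mag_update (ht : 0 < t) {B : Finset Λ} (c : Λ → ℝ) {ξ : Cf Λ t}
    (hξ : ∀ z ∈ B, (ξ z : ℕ) = 0) {x : Λ} (hx : x ∈ B) :
    mag ht B c ξ (update ξ x (one1 ht)) = c x := by
  simp only [mag, bas]
  rw [Finset.sum_eq_single x]
  · simp
  · intro z hz hne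
    rw [if_neg, mul_zero]
    intro h
    exact hne (update_one_inj ht (hξ x hx) (hξ z hz) h.symm).1
  · intro hn; exact absurd hx hn

theorem mag_vac (ht : 0 < t) {B : Finset Λ} (c : Λ → ℝ) {ξ ξ' : Cf Λ t}
    (hξ : ∀ z ∈ B, (ξ z : ℕ) = 0) : mag ht B c ξ' ξ = 0 := by
  simp only [mag, bas]
  refine Finset.sum_eq_zero fun z hz => ?_
  rw [if_neg, mul_zero]
  intro h
  have h1 := congrFun h z
  rw [update_self] at h1
  have h2 := hξ z hz
  rw [h1] at h2
  simp [one1] at h2

/-- `b_x` on the magnon vector. -/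
theorem bmat_mag (ht : 0 < t) {B : Finset Λ} (c : Λ → ℝ) {ξ : Cf Λ t}
    (hξ : ∀ z ∈ B, (ξ z : ℕ) = 0) {x : Λ} (hx : x ∈ B) :
    onSite x (bmat t) *ᵥ mag ht B c ξ = (c x : ℂ) • bas ξ := by
  funext σ
  rw [onSite_mulVec]
  simp only [Pi.smul_apply, smul_eq_mul]
  by_cases h : σ = ξ
  · subst h
    rw [Finset.sum_eq_single (one1 ht)]
    · rw [bmat_apply, if_pos (by simp [one1, hξ x hx]), mag_update ht c hξ hx]
      simp [bas, hξ x hx]
    · intro k _ hk
      rw [bmat_apply, if_neg, zero_mul]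
      intro he
      apply hk
      apply Fin.ext
      simp only [one1]
      rw [← he, hξ x hx]
    · intro hn; exact absurd (Finset.mem_univ _) hn
  · have hb : bas ξ σ = 0 := by simp [bas, h]
    rw [hb, mul_zero]
    refine Finset.sum_eq_zero fun k _ => ?_
    rw [bmat_apply]
    by_cases hk : (σ x : ℕ) + 1 = (k : ℕ)
    · rw [if_pos hk]
      have : mag ht B c ξ (update σ x k) = 0 := by
        simp only [mag, bas]
        refine Finset.sum_eq_zero fun z hz => ?_
        rw [if_neg, mul_zero]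
        intro he
        by_cases hzx : z = x
        · subst hzx
          have h1 := congrFun he z
          rw [update_self, update_self] at h1
          have h2 : (k : ℕ) = 1 := by rw [h1]; rfl
          apply h
          funext w
          by_cases hw : w = z
          · subst hw
            apply Fin.ext
            rw [hξ w hx]
            omega
          · have := congrFun he w
            rwa [update_of_ne hw, update_of_ne hw] at this
        · have h1 := congrFun he x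
          rw [update_self, update_of_ne (Ne.symm hzx)] at h1
          have := hξ x hx
          rw [← h1] at this
          omega
      rw [this, mul_zero]
    · rw [if_neg hk, zero_mul]

/-- `b_x` on a vacuum. -/
theorem bmat_bas {ξ : Cf Λ t} {x : Λ} (hξ : (ξ x : ℕ) = 0) :
    onSite x (bmat t) *ᵥ bas ξ = ((0 : ℝ) : ℂ) • bas ξ := by
  funext σ
  rw [onSite_mulVec]
  simp only [Pi.smul_apply, smul_eq_mul, Complex.ofReal_zero, zero_mul]
  refine Finset.sum_eq_zero fun k _ => ?_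
  rw [bmat_apply]
  by_cases hk : (σ x : ℕ) + 1 = (k : ℕ)
  · rw [if_pos hk]
    have : bas ξ (update σ x k) = 0 := by
      simp only [bas]
      rw [if_neg]
      intro he
      have h1 := congrFun he x
      rw [update_self] at h1
      rw [h1, hξ] at hk
      omega
    rw [this, mul_zero]
  · rw [if_neg hk, zero_mul]

/-- Orthonormality relations of the trial family. -/
theorem star_mag_dot (ht : 0 < t) {B : Finset Λ} (c : Λ → ℝ) {ξ ξ' : Cf Λ t}
    (hξ : ∀ z ∈ B, (ξ z : ℕ) = 0) (hξ' : ∀ z ∈ B, (ξ' z : ℕ) = 0) :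
    star (mag ht B c ξ) ⬝ᵥ mag ht B c ξ' =
      if ξ = ξ' then ((∑ z ∈ B, (c z) ^ 2 : ℝ) : ℂ) else 0 := by
  have e : star (mag ht B c ξ) = ∑ z ∈ B, (c z : ℂ) • star (bas (update ξ z (one1 ht))) := by
    funext σ
    simp only [mag, Pi.star_apply, star_sum, star_mul', Finset.sum_apply, Pi.smul_apply,
      smul_eq_mul, Complex.star_def, Complex.conj_ofReal]
  rw [e, sum_dotProduct]
  simp only [smul_dotProduct, star_bas_dot, smul_eq_mul]
  by_cases h : ξ = ξ'
  · subst h
    rw [if_pos rfl, Complex.ofReal_sum]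
    refine Finset.sum_congr rfl fun z hz => ?_
    rw [mag_update ht c hξ hz]
    push_cast
    ring
  · rw [if_neg h]
    refine Finset.sum_eq_zero fun z hz => ?_
    have : mag ht B c ξ' (update ξ z (one1 ht)) = 0 := by
      simp only [mag, bas]
      refine Finset.sum_eq_zero fun z' hz' => ?_
      rw [if_neg, mul_zero]
      intro he
      exact h (update_one_inj ht (hξ z' hz') (hξ' z hz) he).2
    rw [this, mul_zero]

theorem star_dot_bas (v : Cf Λ t → ℂ) (ξ : Cf Λ t) : star v ⬝ᵥ bas ξ = star (v ξ) := by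
  rw [dotProduct_comm]
  simp only [dotProduct, bas]
  rw [Finset.sum_eq_single ξ]
  · simp
  · intro σ _ hσ
    simp [hσ]
  · intro hn; exact absurd (Finset.mem_univ _) hn

end Vectors

/-! ### The block operators -/

section Ops

variable {t N : ℕ}

theorem bond_loc {x y : Site N} {B : Finset (Site N)} (hx : x ∈ B) (hy : y ∈ B) :
    Loc B (bond t x y) := by
  have h1 : ∀ A : Matrix (Fin (t + 1)) (Fin (t + 1)) ℂ, Loc B (onSite x A) := fun A =>
    (onSite_loc x A).mono (Finset.singleton_subset_iff.mpr hx)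
  have h2 : ∀ A : Matrix (Fin (t + 1)) (Fin (t + 1)) ℂ, Loc B (onSite y A) := fun A =>
    (onSite_loc y A).mono (Finset.singleton_subset_iff.mpr hy)
  unfold bond dotS
  refine ((Loc.one B).smul _).sub ?_
  exact (((h1 _).mul (h2 _)).add ((h1 _).mul (h2 _))).add ((h1 _).mul (h2 _))

theorem numSite_isHermitian (x : Site N) : (onSite x (numOp t)).IsHermitian := by
  unfold Matrix.IsHermitian
  rw [onSite_conjTranspose, numOp_isHermitian]

theorem qf_num (x : Site N) (ψ : Cf (Site N) t → ℂ) :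
    qf (onSite x (numOp t)) ψ = nsq (onSite x (bmat t) *ᵥ ψ) := by
  rw [← qf_conj_mul, onSite_conjTranspose, onSite_mul, bmat_conj_mul]

/-- The replacement of the bond `(x, y)` attached to the block `B`. -/
noncomputable def edgeOp (t N : ℕ) (B : Finset (Site N)) (x y : Site N) :
    Matrix (Cf (Site N) t) (Cf (Site N) t) ℂ :=
  if x ∈ B ∧ y ∈ B then bond t x y
  else ((t : ℝ) : ℂ) • ((if x ∈ B then onSite x (numOp t) else 0)
    + (if y ∈ B then onSite y (numOp t) else 0))

theorem edgeOp_loc (B : Finset (Site N)) (x y : Site N) : Loc B (edgeOp t N B x y) := by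
  unfold edgeOp
  split_ifs with h h1 h2 h2
  · exact bond_loc h.1 h.2
  · exact (((onSite_loc x _).mono (Finset.singleton_subset_iff.mpr h1)).add
      ((onSite_loc y _).mono (Finset.singleton_subset_iff.mpr h2))).smul _
  · exact (((onSite_loc x _).mono (Finset.singleton_subset_iff.mpr h1)).add (Loc.zero _)).smul _
  · exact ((Loc.zero _).add ((onSite_loc y _).mono (Finset.singleton_subset_iff.mpr h2))).smul _
  · exact ((Loc.zero _).add (Loc.zero _)).smul _

theorem edgeOp_isHermitian (B : Finset (Site N)) {x y : Site N} (hxy : x ≠ y) :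
    (edgeOp t N B x y).IsHermitian := by
  unfold edgeOp
  split_ifs with h h1 h2 h2
  · exact bond_isHermitian hxy
  · exact isHermitian_smul_real ((numSite_isHermitian x).add (numSite_isHermitian y)) _
  · exact isHermitian_smul_real ((numSite_isHermitian x).add Matrix.isHermitian_zero) _
  · exact isHermitian_smul_real (Matrix.isHermitian_zero.add (numSite_isHermitian y)) _
  · exact isHermitian_smul_real (Matrix.isHermitian_zero.add Matrix.isHermitian_zero) _

theorem qf_bond_nonneg {x y : Site N} (hxy : x ≠ y) (ψ : Cf (Site N) t → ℂ) :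
    0 ≤ qf (bond t x y) ψ := by
  rw [qf_bond hxy]
  have := nsq_nonneg (omegaOp t x y *ᵥ ψ)
  positivity

theorem qf_edgeOp (B : Finset (Site N)) {x y : Site N} (ψ : Cf (Site N) t → ℂ) :
    qf (edgeOp t N B x y) ψ = if x ∈ B ∧ y ∈ B then qf (bond t x y) ψ else
      t * ((if x ∈ B then qf (onSite x (numOp t)) ψ else 0)
        + (if y ∈ B then qf (onSite y (numOp t)) ψ else 0)) := by
  unfold edgeOp
  by_cases h : x ∈ B ∧ y ∈ B
  · rw [if_pos h, if_pos h]
  · rw [if_neg h, if_neg h, qf_smul, qf_add]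
    congr 2 <;> split_ifs <;> simp [qf_zero]

theorem qf_num_nonneg (x : Site N) (ψ : Cf (Site N) t → ℂ) : 0 ≤ qf (onSite x (numOp t)) ψ := by
  rw [qf_num]
  exact nsq_nonneg _

theorem qf_edgeOp_nonneg (B : Finset (Site N)) {x y : Site N} (hxy : x ≠ y)
    (ψ : Cf (Site N) t → ℂ) : 0 ≤ qf (edgeOp t N B x y) ψ := by
  rw [qf_edgeOp]
  by_cases h : x ∈ B ∧ y ∈ B
  · rw [if_pos h]
    exact qf_bond_nonneg hxy ψ
  · rw [if_neg h]
    apply mul_nonneg (Nat.cast_nonneg t)
    apply add_nonneg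
    · split_ifs
      · exact qf_num_nonneg x ψ
      · exact le_rfl
    · split_ifs
      · exact qf_num_nonneg y ψ
      · exact le_rfl

/-- The block operator. -/
noncomputable def AB (t N : ℕ) (B : Finset (Site N)) : Matrix (Cf (Site N) t) (Cf (Site N) t) ℂ :=
  ∑ j : Fin 3, ∑ x ∈ Finset.univ.filter (fun x : Site N => (x j : ℕ) < 2 * N),
    edgeOp t N B x (nxt x j)

theorem AB_loc (B : Finset (Site N)) : Loc B (AB t N B) :=
  Loc.sum _ fun _ _ => Loc.sum _ fun _ _ => edgeOp_loc B _ _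

theorem AB_isHermitian (B : Finset (Site N)) : (AB t N B).IsHermitian :=
  isHermitian_sum' _ fun _ _ => isHermitian_sum' _ fun _ hx =>
    edgeOp_isHermitian B (nxt_ne (Finset.mem_filter.mp hx).2)

/-- The Dirichlet form on the box. -/
noncomputable def Dir (N : ℕ) (c : Site N → ℝ) : ℝ :=
  ∑ j : Fin 3, ∑ x ∈ Finset.univ.filter (fun x : Site N => (x j : ℕ) < 2 * N),
    (c x - c (nxt x j)) ^ 2

/-- The energy of a trial vector. -/
theorem qf_edge_trial {B : Finset (Site N)} {v : Cf (Site N) t → ℂ} {c : Site N → ℝ}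
    {ξ : Cf (Site N) t} (hξ : ∀ z ∈ B, (ξ z : ℕ) = 0) (hc0 : ∀ z, z ∉ B → c z = 0)
    (hv : ∀ x ∈ B, onSite x (bmat t) *ᵥ v = (c x : ℂ) • bas ξ) {x y : Site N} (hxy : x ≠ y) :
    qf (edgeOp t N B x y) v ≤ t * (c x - c y) ^ 2 := by
  rw [qf_edgeOp]
  by_cases hx : x ∈ B <;> by_cases hy : y ∈ B
  · rw [if_pos ⟨hx, hy⟩, qf_bond hxy]
    have e : omegaOp t x y *ᵥ v =
        (((Real.sqrt t * (c y - c x) : ℝ)) : ℂ) • bas ξ := by
      rw [omegaOp, onSite_comm hxy (bmat t) (amat t), Matrix.sub_mulVec, ← Matrix.mulVec_mulVec,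
        ← Matrix.mulVec_mulVec]
      rw [hv y hy, hv x hx, Matrix.mulVec_smul, Matrix.mulVec_smul, amat_bas x ξ (hξ x hx),
        amat_bas y ξ (hξ y hy)]
      funext σ
      simp only [Pi.sub_apply, Pi.smul_apply, smul_eq_mul]
      push_cast
      ring
    rw [e, nsq_smul_real, nsq_bas, mul_one, mul_pow, Real.sq_sqrt (Nat.cast_nonneg t)]
    have h0 : 0 ≤ (t : ℝ) * (c x - c y) ^ 2 := by positivity
    have e2 : (c y - c x) ^ 2 = (c x - c y) ^ 2 := by ring
    rw [e2]
    linarith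
  · rw [if_neg (fun h => hy h.2), if_pos hx, if_neg hy, qf_num, hv x hx, nsq_smul_real, nsq_bas,
      hc0 y hy]
    simp
  · rw [if_neg (fun h => hx h.1), if_neg hx, if_pos hy, qf_num, hv y hy, nsq_smul_real, nsq_bas,
      hc0 x hx]
    simp
  · rw [if_neg (fun h => hx h.1), if_neg hx, if_neg hy]
    simp only [add_zero, mul_zero]
    positivity

theorem qf_AB_trial {B : Finset (Site N)} {v : Cf (Site N) t → ℂ} {c : Site N → ℝ}
    {ξ : Cf (Site N) t} (hξ : ∀ z ∈ B, (ξ z : ℕ) = 0) (hc0 : ∀ z, z ∉ B → c z = 0)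
    (hv : ∀ x ∈ B, onSite x (bmat t) *ᵥ v = (c x : ℂ) • bas ξ) :
    qf (AB t N B) v ≤ t * Dir N c := by
  unfold AB Dir
  rw [qf_sum, Finset.mul_sum]
  refine Finset.sum_le_sum fun j _ => ?_
  rw [qf_sum, Finset.mul_sum]
  refine Finset.sum_le_sum fun x hx => ?_
  exact qf_edge_trial hξ hc0 hv (nxt_ne (Finset.mem_filter.mp hx).2)

/-- The trace of a local operator in terms of the partial trace. -/
theorem trace_eq_ltr {B : Finset (Site N)} {O : Matrix (Cf (Site N) t) (Cf (Site N) t) ℂ}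
    (h : Loc B O) :
    Matrix.trace O = ltr B O * (((fib Bᶜ (0 : Cf (Site N) t)).card : ℕ) : ℂ) := by
  have h1 := ltr_mul_of_disjoint (disjoint_compl_right (a := B)) h (Loc.one Bᶜ)
  rw [mul_one, Finset.union_compl, ltr_univ] at h1
  rw [h1]
  congr 1
  simp [ltr]

theorem fib_compl_mem {B : Finset (Site N)} {ξ : Cf (Site N) t}
    (h : ξ ∈ fib Bᶜ (0 : Cf (Site N) t)) : ∀ z ∈ B, (ξ z : ℕ) = 0 := by
  intro z hz
  have := (mem_fib.mp h) z (by simpa using hz)
  rw [this]
  rfl

/-- A lower bound for a complex number which is real. -/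
def LB (z : ℂ) (a : ℝ) : Prop := z.im = 0 ∧ a ≤ z.re

theorem LB.mul {z w : ℂ} {a b : ℝ} (h : LB z a) (h' : LB w b) (ha : 0 ≤ a) (hb : 0 ≤ b) :
    LB (z * w) (a * b) := by
  obtain ⟨h1, h3⟩ := h
  obtain ⟨h4, h6⟩ := h'
  refine ⟨by simp [Complex.mul_im, h1, h4], ?_⟩
  simp only [Complex.mul_re, h1, h4, zero_mul, sub_zero]
  exact mul_le_mul h3 h6 hb (ha.trans h3)

theorem LB.prod {ι : Type} [DecidableEq ι] (s : Finset ι) (f : ι → ℂ) (a : ι → ℝ)
    (ha : ∀ i ∈ s, 0 ≤ a i) (h : ∀ i ∈ s, LB (f i) (a i)) :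
    LB (∏ i ∈ s, f i) (∏ i ∈ s, a i) := by
  induction s using Finset.induction_on with
  | empty => simp [LB]
  | insert i s hi ih =>
    rw [Finset.prod_insert hi, Finset.prod_insert hi]
    exact (h i (Finset.mem_insert_self _ _)).mul
      (ih (fun j hj => ha j (Finset.mem_insert_of_mem hj))
        (fun j hj => h j (Finset.mem_insert_of_mem hj)))
      (ha i (Finset.mem_insert_self _ _))
      (Finset.prod_nonneg fun j hj => ha j (Finset.mem_insert_of_mem hj))

/-- From a lower bound on the trace to a lower bound on the partial trace. -/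
theorem ltr_lower_of_trace {B : Finset (Site N)} {β : ℝ} {a : ℝ}
    (h : (((fib Bᶜ (0 : Cf (Site N) t)).card : ℕ) : ℝ) * a ≤
      (Matrix.trace (NormedSpace.exp (-((β : ℂ) • AB t N B)))).re) :
    LB (ltr B (NormedSpace.exp (-((β : ℂ) • AB t N B)))) a := by
  have hL : Loc B (NormedSpace.exp (-((β : ℂ) • AB t N B))) := ((AB_loc B).smul _).neg.exp
  have h1 := trace_eq_ltr hL
  have hA : (-((β : ℂ) • AB t N B)).IsHermitian := (isHermitian_smul_real (AB_isHermitian B) β).neg
  have hcard : 0 < (fib Bᶜ (0 : Cf (Site N) t)).card :=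
    Finset.card_pos.mpr ⟨0, mem_fib.mpr fun _ _ => rfl⟩
  have hcard' : (0 : ℝ) < ((fib Bᶜ (0 : Cf (Site N) t)).card : ℕ) := by exact_mod_cast hcard
  have him : (Matrix.trace (NormedSpace.exp (-((β : ℂ) • AB t N B)))).im = 0 := by
    rw [trace_exp_hermitian hA, Complex.im_sum]
    exact Finset.sum_eq_zero fun i _ => Complex.ofReal_im _
  set z := ltr B (NormedSpace.exp (-((β : ℂ) • AB t N B))) with hz
  have e : ((((fib Bᶜ (0 : Cf (Site N) t)).card : ℕ) : ℂ)) =
      ((((fib Bᶜ (0 : Cf (Site N) t)).card : ℕ) : ℝ) : ℂ) := by push_cast; rfl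
  rw [h1, e] at him h
  rw [Complex.mul_im, Complex.ofReal_re, Complex.ofReal_im, mul_zero, zero_add] at him
  rw [Complex.mul_re, Complex.ofReal_re, Complex.ofReal_im, mul_zero, sub_zero] at h
  refine ⟨?_, ?_⟩
  · exact (mul_eq_zero.mp him).resolve_right hcard'.ne'
  · have h2 : ((fib Bᶜ (0 : Cf (Site N) t)).card : ℝ) * a ≤
        ((fib Bᶜ (0 : Cf (Site N) t)).card : ℝ) * z.re := by linarith
    exact le_of_mul_le_mul_left h2 hcard'

theorem qf_neg_smul (β : ℝ) (A : Matrix (Cf (Site N) t) (Cf (Site N) t) ℂ)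
    (ψ : Cf (Site N) t → ℂ) : qf (-((β : ℂ) • A)) ψ = -(β * qf A ψ) := by
  have : -((β : ℂ) • A) = ((-β : ℝ) : ℂ) • A := by
    push_cast
    rw [neg_smul]
  rw [this, qf_smul]
  ring

/-- The vacua alone give the lower bound `1`. -/
theorem ltr_lower_vac (B : Finset (Site N)) {β : ℝ} (hβ : 0 ≤ β) :
    LB (ltr B (NormedSpace.exp (-((β : ℂ) • AB t N B)))) 1 := by
  apply ltr_lower_of_trace
  have hA : (-((β : ℂ) • AB t N B)).IsHermitian := (isHermitian_smul_real (AB_isHermitian B) β).neg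
  have h1 := peierls hA (ι := {ξ // ξ ∈ fib Bᶜ (0 : Cf (Site N) t)}) (fun ξ => bas ξ.1)
    (fun ξ ξ' => by
      rw [star_bas_dot]
      by_cases h : ξ = ξ'
      · subst h
        simp [bas]
      · have h' : ξ.1 ≠ ξ'.1 := fun e => h (Subtype.ext e)
        simp [bas, h, h'])
  calc (((fib Bᶜ (0 : Cf (Site N) t)).card : ℕ) : ℝ) * 1
      = ∑ _ξ : {ξ // ξ ∈ fib Bᶜ (0 : Cf (Site N) t)}, (1 : ℝ) := by simp
    _ ≤ _ := ?_
    _ ≤ _ := h1
  refine Finset.sum_le_sum fun ξ _ => ?_
  rw [Real.one_le_exp_iff, qf_neg_smul]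
  have hle := qf_AB_trial (N := N) (B := B) (c := fun _ => 0) (v := bas ξ.1) (ξ := ξ.1)
    (fib_compl_mem ξ.2) (fun _ _ => rfl) (fun x hx => bmat_bas (fib_compl_mem ξ.2 x hx))
  have : Dir N (fun _ : Site N => (0 : ℝ)) = 0 := by simp [Dir]
  rw [this, mul_zero] at hle
  nlinarith

/-- A normalized magnon gives the lower bound `1 + exp (-β t D)`. -/
theorem ltr_lower_mag (ht : 0 < t) (B : Finset (Site N)) {β : ℝ} (hβ : 0 ≤ β) (c : Site N → ℝ)
    (hc0 : ∀ z, z ∉ B → c z = 0) (hnorm : ∑ z ∈ B, (c z) ^ 2 = 1) {D : ℝ} (hD : Dir N c ≤ D) :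
    LB (ltr B (NormedSpace.exp (-((β : ℂ) • AB t N B)))) (1 + Real.exp (-(β * (t * D)))) := by
  apply ltr_lower_of_trace
  have hA : (-((β : ℂ) • AB t N B)).IsHermitian := (isHermitian_smul_real (AB_isHermitian B) β).neg
  let φ : {ξ // ξ ∈ fib Bᶜ (0 : Cf (Site N) t)} × Bool → Cf (Site N) t → ℂ := fun p =>
    if p.2 then mag ht B c p.1.1 else bas p.1.1
  have h1 := peierls hA φ (by
    rintro ⟨ξ, b⟩ ⟨ξ', b'⟩
    have hξ := fib_compl_mem ξ.2
    have hξ' := fib_compl_mem ξ'.2
    cases b <;> cases b' <;> simp only [φ, if_true, Bool.false_eq_true, if_false]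
    · rw [star_bas_dot]
      by_cases h : ξ = ξ'
      · subst h
        simp [bas]
      · have h' : ξ.1 ≠ ξ'.1 := fun e => h (Subtype.ext e)
        simp [bas, h, h']
    · rw [star_bas_dot, mag_vac ht c hξ]
      simp
    · rw [star_dot_bas, mag_vac ht c hξ']
      simp
    · rw [star_mag_dot ht c hξ hξ', hnorm]
      by_cases h : ξ = ξ'
      · subst h
        simp
      · have h' : ξ.1 ≠ ξ'.1 := fun e => h (Subtype.ext e)
        simp [h, h'])
  refine le_trans ?_ h1
  rw [Fintype.sum_prod_type]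
  have h2 : ∀ ξ : {ξ // ξ ∈ fib Bᶜ (0 : Cf (Site N) t)},
      1 + Real.exp (-(β * (t * D))) ≤ ∑ y : Bool, Real.exp
        (qf (-((β : ℂ) • AB t N B)) (φ (ξ, y))) := by
    intro ξ
    have hξ := fib_compl_mem ξ.2
    rw [Fintype.sum_bool]
    simp only [φ, if_true, Bool.false_eq_true, if_false]
    rw [qf_neg_smul, qf_neg_smul, add_comm]
    apply add_le_add
    · apply Real.exp_le_exp.mpr
      have hle := qf_AB_trial (N := N) (B := B) (c := c) (v := mag ht B c ξ.1) (ξ := ξ.1)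
        hξ hc0 (fun x hx => bmat_mag ht c hξ hx)
      have ht' : (0 : ℝ) ≤ t := Nat.cast_nonneg t
      have h3 : (t : ℝ) * Dir N c ≤ t * D := mul_le_mul_of_nonneg_left hD ht'
      have h4 := mul_le_mul_of_nonneg_left (hle.trans h3) hβ
      linarith
    · rw [Real.one_le_exp_iff]
      have hle := qf_AB_trial (N := N) (B := B) (c := fun _ => 0) (v := bas ξ.1) (ξ := ξ.1)
        hξ (fun _ _ => rfl) (fun x hx => bmat_bas (hξ x hx))
      have : Dir N (fun _ : Site N => (0 : ℝ)) = 0 := by simp [Dir]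
      rw [this, mul_zero] at hle
      nlinarith
  refine le_trans (le_of_eq ?_) (Finset.sum_le_sum fun ξ _ => h2 ξ)
  simp
  ring

/-- The partition inequality for the Hamiltonian. -/
theorem qf_H0_le {I : Type} [Fintype I] [DecidableEq I] (Bk : I → Finset (Site N))
    (hd : ∀ i i', i ≠ i' → Disjoint (Bk i) (Bk i')) (hc : ∀ x, ∃ i, x ∈ Bk i)
    (ψ : Cf (Site N) t → ℂ) :
    qf (H0 t N) ψ ≤ ∑ i, qf (AB t N (Bk i)) ψ := by
  unfold H0 AB
  simp only [qf_sum]
  rw [Finset.sum_comm]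
  refine Finset.sum_le_sum fun j _ => ?_
  rw [Finset.sum_comm]
  refine Finset.sum_le_sum fun x hx => ?_
  have hlt := (Finset.mem_filter.mp hx).2
  have hne := nxt_ne hlt
  have h0 : ∀ i ∈ (Finset.univ : Finset I),
      0 ≤ qf (edgeOp t N (Bk i) x (nxt x j)) ψ := fun i _ => qf_edgeOp_nonneg _ hne ψ
  obtain ⟨i1, hi1⟩ := hc x
  obtain ⟨i2, hi2⟩ := hc (nxt x j)
  by_cases hi : i1 = i2
  · subst hi
    refine le_trans (le_of_eq ?_) (Finset.single_le_sum h0 (Finset.mem_univ i1))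
    rw [qf_edgeOp, if_pos ⟨hi1, hi2⟩]
  · have hnot1 : nxt x j ∉ Bk i1 := fun h => Finset.disjoint_left.mp (hd _ _ hi) h hi2
    have hnot2 : x ∉ Bk i2 := fun h => Finset.disjoint_left.mp (hd _ _ hi) hi1 h
    refine le_trans ?_ (Finset.add_le_sum h0 (Finset.mem_univ i1) (Finset.mem_univ i2) hi)
    have n1 : ¬(x ∈ Bk i1 ∧ nxt x j ∈ Bk i1) := fun h => hnot1 h.2
    have n2 : ¬(x ∈ Bk i2 ∧ nxt x j ∈ Bk i2) := fun h => hnot2 h.1
    rw [qf_edgeOp, qf_edgeOp, if_neg n1, if_neg n2, if_pos hi1, if_neg hnot1, if_neg hnot2,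
      if_pos hi2]
    have := qf_bond_le_num hne ψ
    linarith

/-- The lower bound on the trace from a partition. -/
theorem trace_H0_lower {I : Type} [Fintype I] [DecidableEq I] (Bk : I → Finset (Site N))
    (hd : ∀ i i', i ≠ i' → Disjoint (Bk i) (Bk i')) (hc : ∀ x, ∃ i, x ∈ Bk i)
    {β : ℝ} (hβ : 0 ≤ β) (a : I → ℝ) (ha : ∀ i, 0 ≤ a i)
    (hL : ∀ i, LB (ltr (Bk i) (NormedSpace.exp (-((β : ℂ) • AB t N (Bk i))))) (a i)) :
    ∏ i, a i ≤ (Matrix.trace (NormedSpace.exp (-((β : ℂ) • H0 t N)))).re := by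
  have hA : (∑ i, (β : ℂ) • AB t N (Bk i)).IsHermitian :=
    isHermitian_sum' _ fun i _ => isHermitian_smul_real (AB_isHermitian _) _
  have hX : ((β : ℂ) • H0 t N).IsHermitian := isHermitian_smul_real H0_isHermitian _
  have h1 := trace_exp_anti hA hX (fun ψ => by
    rw [qf_smul, qf_sum]
    simp only [qf_smul]
    rw [← Finset.mul_sum]
    exact mul_le_mul_of_nonneg_left (qf_H0_le Bk hd hc ψ) hβ)
  refine le_trans ?_ h1
  have hcover : Finset.univ.biUnion Bk = Finset.univ := by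
    ext x
    simp only [Finset.mem_biUnion, Finset.mem_univ, true_and, iff_true]
    exact hc x
  have h2 : Matrix.trace (NormedSpace.exp (-∑ i, (β : ℂ) • AB t N (Bk i))) =
      ∏ i, ltr (Bk i) (NormedSpace.exp (-((β : ℂ) • AB t N (Bk i)))) := by
    rw [← ltr_univ, ← Finset.sum_neg_distrib]
    conv_lhs => rw [← hcover]
    refine ltr_exp_sum _ _ _ (fun i _ i' _ hne => hd i i' hne) fun i _ => ?_
    exact ((AB_loc _).smul _).neg
  rw [h2]
  exact (LB.prod Finset.univ _ a (fun i _ => ha i) (fun i _ => hL i)).2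

end Ops

end Vale.Agent.Lib.P361
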