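import Vale.Agent.Lib.P361.LowerBlock

open scoped Matrix
open Function

set_option linter.unusedSectionVars false

namespace Vale.Agent.Lib.P361

variable {t N : ℕ}

/-- The one dimensional tent on the interval `[2 m a, 2 m (a + 1)]`. -/
def tent (m a s : ℕ) : ℕ := min (s - 2 * m * a) (2 * m * (a + 1) - s)

/-- The open cell with index `a`. -/
def cellB (N m : ℕ) (a : Fin 3 → ℕ) : Finset (Site N) :=
  Finset.univ.filter fun x => ∀ i, 2 * m * a i < (x i : ℕ) ∧ (x i : ℕ) < 2 * m * (a i + 1)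

/-- The walls between the cells. -/
def wallB (N m : ℕ) : Finset (Site N) :=
  Finset.univ.filter fun x => ∃ i, (x i : ℕ) % (2 * m) = 0

theorem mem_cellB {m : ℕ} {a : Fin 3 → ℕ} {x : Site N} :
    x ∈ cellB N m a ↔ ∀ i, 2 * m * a i < (x i : ℕ) ∧ (x i : ℕ) < 2 * m * (a i + 1) := by
  simp [cellB]

theorem mem_wallB {m : ℕ} {x : Site N} : x ∈ wallB N m ↔ ∃ i, (x i : ℕ) % (2 * m) = 0 := by
  simp [wallB]

/-- The blocks of the partition of the box into cells and walls. -/
def cellIdx (N m q : ℕ) : Option (Fin 3 → Fin q) → Finset (Site N)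
  | none => wallB N m
  | some a => cellB N m fun i => (a i : ℕ)

theorem cell_cover {m q : ℕ} (hm : 0 < m) (hN : N = m * q) (x : Site N) :
    ∃ i, x ∈ cellIdx N m q i := by
  by_cases h : ∃ i, (x i : ℕ) % (2 * m) = 0
  · exact ⟨none, mem_wallB.mpr h⟩
  · push Not at h
    have hM : 0 < 2 * m := by omega
    have key : ∀ i, (x i : ℕ) / (2 * m) < q ∧ 2 * m * ((x i : ℕ) / (2 * m)) < (x i : ℕ) ∧
        (x i : ℕ) < 2 * m * ((x i : ℕ) / (2 * m) + 1) := by
      intro i
      have h1 := Nat.div_add_mod (x i : ℕ) (2 * m)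
      have h2 := Nat.mod_lt (x i : ℕ) hM
      have h3 := h i
      have h4 : (x i : ℕ) < 2 * m * q + 1 := by
        have := (x i).2
        have e : 2 * N + 1 = 2 * m * q + 1 := by rw [hN]; ring
        omega
      have e5 : 2 * m * ((x i : ℕ) / (2 * m) + 1) = 2 * m * ((x i : ℕ) / (2 * m)) + 2 * m := by ring
      refine ⟨?_, by omega, by omega⟩
      by_contra hcon
      push Not at hcon
      have h6 : 2 * m * q ≤ 2 * m * ((x i : ℕ) / (2 * m)) := Nat.mul_le_mul_left _ hcon
      have h7 : (x i : ℕ) = 2 * m * q := by omega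
      have h8 := h i
      rw [h7] at h8
      simp at h8
    refine ⟨some fun i => ⟨(x i : ℕ) / (2 * m), (key i).1⟩, ?_⟩
    simp only [cellIdx, mem_cellB]
    exact fun i => (key i).2

theorem cell_disjoint {m q : ℕ} (hm : 0 < m) (i i' : Option (Fin 3 → Fin q)) (hne : i ≠ i') :
    Disjoint (cellIdx N m q i) (cellIdx N m q i') := by
  have hM : 0 < 2 * m := by omega
  have hw : ∀ (a : Fin 3 → Fin q) (x : Site N), x ∈ cellB N m (fun i => (a i : ℕ)) →
      x ∉ wallB N m := by
    intro a x hx hx'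
    obtain ⟨i, hi⟩ := mem_wallB.mp hx'
    have h1 := (mem_cellB.mp hx) i
    have h2 := Nat.div_add_mod (x i : ℕ) (2 * m)
    rw [hi, add_zero] at h2
    rw [← h2] at h1
    have h3 := Nat.lt_of_mul_lt_mul_left h1.1
    have h4 := Nat.lt_of_mul_lt_mul_left h1.2
    omega
  rcases i with _ | a <;> rcases i' with _ | a'
  · exact absurd rfl hne
  · rw [Finset.disjoint_right]
    exact fun x hx => hw a' x hx
  · rw [Finset.disjoint_left]
    exact fun x hx => hw a x hx
  · rw [Finset.disjoint_left]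
    intro x hx hx'
    apply hne
    congr 1
    funext i
    apply Fin.ext
    have h1 := (mem_cellB.mp hx) i
    have h2 := (mem_cellB.mp hx') i
    have h3 := Nat.lt_of_mul_lt_mul_left (h1.1.trans h2.2)
    have h4 := Nat.lt_of_mul_lt_mul_left (h2.1.trans h1.2)
    omega

/-! ### The test function -/

theorem tent_zero_left {m a s : ℕ} (h : s ≤ 2 * m * a) : tent m a s = 0 := by
  unfold tent
  omega

theorem tent_zero_right {m a s : ℕ} (h : 2 * m * (a + 1) ≤ s) : tent m a s = 0 := by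
  unfold tent
  omega

theorem tent_lip (m a s : ℕ) : ((tent m a s : ℝ) - (tent m a (s + 1) : ℝ)) ^ 2 ≤ 1 := by
  have h1 : tent m a s ≤ tent m a (s + 1) + 1 := by
    unfold tent
    omega
  have h2 : tent m a (s + 1) ≤ tent m a s + 1 := by
    unfold tent
    omega
  have h3 : ((tent m a s : ℕ) : ℝ) ≤ (tent m a (s + 1) : ℝ) + 1 := by exact_mod_cast h1
  have h4 : ((tent m a (s + 1) : ℕ) : ℝ) ≤ (tent m a s : ℝ) + 1 := by exact_mod_cast h2
  rw [sq_le_one_iff_abs_le_one, abs_le]
  constructor <;> linarith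

theorem tent_diff_zero {m a s : ℕ} (h : s ∉ Finset.Ico (2 * m * a) (2 * m * (a + 1))) :
    ((tent m a s : ℝ) - (tent m a (s + 1) : ℝ)) ^ 2 = 0 := by
  rw [Finset.mem_Ico] at h
  by_cases h1 : s < 2 * m * a
  · rw [tent_zero_left (by omega : s ≤ 2 * m * a),
      tent_zero_left (by omega : s + 1 ≤ 2 * m * a)]
    simp
  · have h2 : 2 * m * (a + 1) ≤ s := by
      by_contra hcon
      exact h ⟨by omega, by omega⟩
    rw [tent_zero_right h2, tent_zero_right (by omega : 2 * m * (a + 1) ≤ s + 1)]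
    simp

/-- The Dirichlet sum of the tent. -/
theorem tent_dir_le (m a n : ℕ) :
    ∑ s ∈ Finset.range n, ((tent m a s : ℝ) - (tent m a (s + 1) : ℝ)) ^ 2 ≤ 2 * m := by
  have h1 : ∀ s ∈ Finset.range n, ((tent m a s : ℝ) - (tent m a (s + 1) : ℝ)) ^ 2 ≤
      if s ∈ Finset.Ico (2 * m * a) (2 * m * (a + 1)) then 1 else 0 := by
    intro s _
    split_ifs with h
    · exact tent_lip m a s
    · rw [tent_diff_zero h]
  refine (Finset.sum_le_sum h1).trans ?_
  rw [Finset.sum_ite_mem, Finset.sum_const, nsmul_eq_mul, mul_one]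
  have h2 : (Finset.range n ∩ Finset.Ico (2 * m * a) (2 * m * (a + 1))).card ≤ 2 * m := by
    refine (Finset.card_le_card Finset.inter_subset_right).trans ?_
    rw [Nat.card_Ico]
    have : 2 * m * (a + 1) = 2 * m * a + 2 * m := by ring
    omega
  exact_mod_cast h2

theorem sum_squares (m : ℕ) :
    6 * ∑ u ∈ Finset.range m, ((u : ℝ)) ^ 2 = ((m : ℝ) - 1) * m * (2 * m - 1) := by
  induction m with
  | zero => simp
  | succ m ih =>
    rw [Finset.sum_range_succ, mul_add, ih]
    push_cast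
    ring

/-- The `L²` norm of the tent. -/
theorem tent_norm_ge {m a q : ℕ} (ha : a < q) (n : ℕ) (hn : 2 * m * q ≤ n) :
    ((m : ℝ) - 1) * m * (2 * m - 1) / 6 ≤ ∑ s ∈ Finset.range n, (tent m a s : ℝ) ^ 2 := by
  set A := 2 * m * a with hA
  have hB : 2 * m * (a + 1) = A + 2 * m := by rw [hA]; ring
  have h1 : A + 2 * m ≤ n := by
    rw [← hB]
    exact le_trans (Nat.mul_le_mul_left _ ha) hn
  have h2 : Finset.Ico A (A + m) ⊆ Finset.range n := by
    intro s hs
    rw [Finset.mem_Ico] at hs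
    rw [Finset.mem_range]
    omega
  have h3 : ∑ s ∈ Finset.Ico A (A + m), (tent m a s : ℝ) ^ 2 ≤
      ∑ s ∈ Finset.range n, (tent m a s : ℝ) ^ 2 :=
    Finset.sum_le_sum_of_subset_of_nonneg h2 fun _ _ _ => by positivity
  refine le_trans (le_of_eq ?_) h3
  rw [Finset.sum_Ico_eq_sum_range]
  have h4 : A + m - A = m := by omega
  rw [h4]
  have h5 : ∀ u ∈ Finset.range m, (tent m a (A + u) : ℝ) ^ 2 = ((u : ℝ)) ^ 2 := by
    intro u hu
    have hu' := Finset.mem_range.mp hu
    have : tent m a (A + u) = u := by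
      unfold tent
      rw [← hA, hB]
      omega
    rw [this]
  rw [Finset.sum_congr rfl h5]
  have := sum_squares m
  linarith

/-- The test function of a cell. -/
noncomputable def psi (m : ℕ) (a : Fin 3 → ℕ) (x : Site N) : ℝ :=
  ∏ i, (tent m (a i) (x i : ℕ) : ℝ)

theorem psi_zero {m : ℕ} {a : Fin 3 → ℕ} {x : Site N} (hx : x ∉ cellB N m a) : psi m a x = 0 := by
  rw [mem_cellB] at hx
  push Not at hx
  obtain ⟨i, hi⟩ := hx
  apply Finset.prod_eq_zero (Finset.mem_univ i)
  by_cases h : 2 * m * a i < (x i : ℕ)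
  · rw [tent_zero_right (hi h)]
    simp
  · rw [tent_zero_left (by omega)]
    simp

theorem sum_site_prod (f : Fin 3 → Fin (2 * N + 1) → ℝ) :
    ∑ x : Site N, ∏ i, f i (x i) = ∏ i, ∑ s, f i s := by
  have := Finset.prod_univ_sum (fun _ : Fin 3 => (Finset.univ : Finset (Fin (2 * N + 1)))) f
  rw [Fintype.piFinset_univ] at this
  exact this.symm

/-- The squared norm of the test function. -/
noncomputable def nrm (N m : ℕ) (a : Fin 3 → ℕ) : ℝ := ∏ i, ∑ s : Fin (2 * N + 1), (tent m (a i) s : ℝ) ^ 2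

theorem sum_psi_sq (m : ℕ) (a : Fin 3 → ℕ) :
    ∑ x : Site N, (psi m a x) ^ 2 = nrm N m a := by
  unfold nrm psi
  rw [← sum_site_prod]
  refine Finset.sum_congr rfl fun x _ => ?_
  rw [Finset.prod_pow]

/-- The factor of the Dirichlet sum in one direction. -/
noncomputable def hdir (N m a : ℕ) (s : Fin (2 * N + 1)) : ℝ :=
  if (s : ℕ) < 2 * N then ((tent m a s : ℝ) - (tent m a (s + 1 : Fin (2 * N + 1)) : ℝ)) ^ 2 else 0

theorem hdir_sum_le (N m a : ℕ) : ∑ s, hdir N m a s ≤ 2 * m := by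
  have h1 : ∀ s : Fin (2 * N + 1), hdir N m a s ≤
      ((tent m a s : ℝ) - (tent m a ((s : ℕ) + 1) : ℝ)) ^ 2 := by
    intro s
    unfold hdir
    split_ifs with h
    · have : ((s + 1 : Fin (2 * N + 1)) : ℕ) = (s : ℕ) + 1 := by
        rw [Fin.val_add_one_of_lt]
        rw [Fin.lt_def]
        simpa using h
      rw [this]
    · positivity
  refine (Finset.sum_le_sum fun s _ => h1 s).trans ?_
  rw [Fin.sum_univ_eq_sum_range
    (fun s => ((tent m a s : ℝ) - (tent m a (s + 1) : ℝ)) ^ 2) (2 * N + 1)]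
  exact tent_dir_le m a _

/-- The Dirichlet sum in direction `j` factorizes. -/
theorem dir_factor (m : ℕ) (a : Fin 3 → ℕ) (j : Fin 3) :
    ∑ x ∈ Finset.univ.filter (fun x : Site N => (x j : ℕ) < 2 * N),
        (psi m a x - psi m a (nxt x j)) ^ 2 =
      (∑ s, hdir N m (a j) s) *
        ∏ i ∈ Finset.univ.erase j, ∑ s : Fin (2 * N + 1), (tent m (a i) s : ℝ) ^ 2 := by
  rw [Finset.sum_filter]
  let f : Fin 3 → Fin (2 * N + 1) → ℝ := fun i s =>
    if i = j then hdir N m (a j) s else (tent m (a i) s : ℝ) ^ 2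
  have h1 : ∀ x : Site N, (if (x j : ℕ) < 2 * N then (psi m a x - psi m a (nxt x j)) ^ 2 else 0) =
      ∏ i, f i (x i) := by
    intro x
    rw [← Finset.mul_prod_erase Finset.univ _ (Finset.mem_univ j)]
    have e1 : f j (x j) = hdir N m (a j) (x j) := by simp [f]
    have e2 : ∏ i ∈ Finset.univ.erase j, f i (x i) =
        (∏ i ∈ Finset.univ.erase j, (tent m (a i) (x i : ℕ) : ℝ)) ^ 2 := by
      rw [← Finset.prod_pow]
      refine Finset.prod_congr rfl fun i hi => ?_
      simp [f, Finset.ne_of_mem_erase hi]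
    rw [e1, e2]
    unfold hdir
    by_cases h : (x j : ℕ) < 2 * N
    · rw [if_pos h, if_pos h]
      have e3 : psi m a x = (tent m (a j) (x j : ℕ) : ℝ) *
          ∏ i ∈ Finset.univ.erase j, (tent m (a i) (x i : ℕ) : ℝ) := by
        unfold psi
        exact (Finset.mul_prod_erase Finset.univ
          (fun i => (tent m (a i) (x i : ℕ) : ℝ)) (Finset.mem_univ j)).symm
      have e4 : psi m a (nxt x j) = (tent m (a j) (x j + 1 : Fin (2 * N + 1)) : ℝ) *
          ∏ i ∈ Finset.univ.erase j, (tent m (a i) (x i : ℕ) : ℝ) := by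
        unfold psi
        rw [← Finset.mul_prod_erase Finset.univ
          (fun i => (tent m (a i) (nxt x j i : ℕ) : ℝ)) (Finset.mem_univ j)]
        congr 1
        · simp [nxt]
        · refine Finset.prod_congr rfl fun i hi => ?_
          rw [nxt_other (Finset.ne_of_mem_erase hi)]
      rw [e3, e4]
      ring
    · rw [if_neg h, if_neg h, zero_mul]
  rw [Finset.sum_congr rfl fun x _ => h1 x, sum_site_prod,
    ← Finset.mul_prod_erase Finset.univ _ (Finset.mem_univ j)]
  congr 1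
  · simp [f]
  · refine Finset.prod_congr rfl fun i hi => ?_
    simp [f, Finset.ne_of_mem_erase hi]

/-- The normalized test function of a cell. -/
theorem cell_test {m q : ℕ} (hm : 2 ≤ m) (hN : N = m * q) (a : Fin 3 → Fin q) :
    ∃ c : Site N → ℝ, (∀ z, z ∉ cellB N m (fun i => (a i : ℕ)) → c z = 0) ∧
      ∑ z ∈ cellB N m (fun i => (a i : ℕ)), (c z) ^ 2 = 1 ∧
      Dir N c ≤ 36 / (((m : ℝ) - 1) * (2 * m - 1)) := by
  set a' : Fin 3 → ℕ := fun i => (a i : ℕ) with ha'
  have hm' : (2 : ℝ) ≤ m := by exact_mod_cast hm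
  have hFm : 0 < ((m : ℝ) - 1) * m * (2 * m - 1) / 6 := by
    apply div_pos _ (by norm_num)
    apply mul_pos (mul_pos _ _) <;> linarith
  set Fm : ℝ := ((m : ℝ) - 1) * m * (2 * m - 1) / 6 with hFmdef
  have hF : ∀ i : Fin 3, Fm ≤ ∑ s : Fin (2 * N + 1), (tent m (a' i) s : ℝ) ^ 2 := by
    intro i
    rw [Fin.sum_univ_eq_sum_range (fun s => (tent m (a' i) s : ℝ) ^ 2) (2 * N + 1)]
    apply tent_norm_ge (a i).2
    have : 2 * N = 2 * m * q := by rw [hN]; ring
    omega
  have hFpos : ∀ i : Fin 3, 0 < ∑ s : Fin (2 * N + 1), (tent m (a' i) s : ℝ) ^ 2 :=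
    fun i => lt_of_lt_of_le hFm (hF i)
  have hnrm : 0 < nrm N m a' := Finset.prod_pos fun i _ => hFpos i
  set r := Real.sqrt (nrm N m a') with hr
  have hr0 : 0 < r := Real.sqrt_pos.mpr hnrm
  have hr2 : r ^ 2 = nrm N m a' := Real.sq_sqrt hnrm.le
  refine ⟨fun x => psi m a' x / r, ?_, ?_, ?_⟩
  · intro z hz
    show psi m a' z / r = 0
    rw [psi_zero hz, zero_div]
  · have h1 : ∑ z ∈ cellB N m a', (psi m a' z / r) ^ 2 =
        ∑ z : Site N, (psi m a' z / r) ^ 2 := by
      apply Finset.sum_subset (Finset.subset_univ _)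
      intro z _ hz
      rw [psi_zero hz, zero_div]
      norm_num
    rw [h1]
    simp only [div_pow]
    rw [← Finset.sum_div, sum_psi_sq, hr2]
    exact div_self hnrm.ne'
  · have hj : ∀ j : Fin 3, ∑ x ∈ Finset.univ.filter (fun x : Site N => (x j : ℕ) < 2 * N),
        (psi m a' x / r - psi m a' (nxt x j) / r) ^ 2 ≤ 2 * m / Fm := by
      intro j
      have e1 : ∀ x : Site N, (psi m a' x / r - psi m a' (nxt x j) / r) ^ 2 =
          (psi m a' x - psi m a' (nxt x j)) ^ 2 / nrm N m a' := by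
        intro x
        rw [← hr2, ← sub_div, div_pow]
      simp only [e1]
      rw [← Finset.sum_div, dir_factor]
      set G := ∏ i ∈ Finset.univ.erase j, ∑ s : Fin (2 * N + 1), (tent m (a' i) s : ℝ) ^ 2 with hG
      have hGpos : 0 < G := Finset.prod_pos fun i _ => hFpos i
      set Fj := ∑ s : Fin (2 * N + 1), (tent m (a' j) s : ℝ) ^ 2 with hFj
      have e2 : nrm N m a' = Fj * G := by
        unfold nrm
        rw [hFj, hG]
        exact (Finset.mul_prod_erase Finset.univ
          (fun i => ∑ s : Fin (2 * N + 1), (tent m (a' i) s : ℝ) ^ 2) (Finset.mem_univ j)).symm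
      rw [e2]
      have hFj0 : 0 < Fj := hFpos j
      have h3 : (∑ s, hdir N m (a' j) s) * G / (Fj * G) = (∑ s, hdir N m (a' j) s) / Fj := by
        field_simp
      rw [h3]
      have h4 := hdir_sum_le N m (a' j)
      have h5 := hF j
      calc (∑ s, hdir N m (a' j) s) / Fj ≤ (2 * m) / Fj :=
            div_le_div_of_nonneg_right h4 hFj0.le
        _ ≤ 2 * m / Fm := div_le_div_of_nonneg_left (by positivity) hFm h5
    unfold Dir
    calc ∑ j : Fin 3, ∑ x ∈ Finset.univ.filter (fun x : Site N => (x j : ℕ) < 2 * N),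
          (psi m a' x / r - psi m a' (nxt x j) / r) ^ 2 ≤ ∑ _j : Fin 3, 2 * (m : ℝ) / Fm :=
          Finset.sum_le_sum fun j _ => hj j
      _ = 36 / (((m : ℝ) - 1) * (2 * m - 1)) := by
          simp only [Finset.sum_const, Finset.card_univ, Fintype.card_fin, nsmul_eq_mul]
          rw [hFmdef]
          have h1 : (m : ℝ) - 1 ≠ 0 := by linarith
          have h2 : 2 * (m : ℝ) - 1 ≠ 0 := by linarith
          have h3 : (m : ℝ) ≠ 0 := by linarith
          push_cast
          field_simp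
          ring

/-- The logarithmic form of the lower bound at zero field. -/
theorem log_lower (ht : 0 < t) {m q : ℕ} (hm : 2 ≤ m) (hN : N = m * q) {β : ℝ} (hβ : 0 < β) :
    ((q : ℝ) ^ 3) * Real.log (1 + Real.exp (-(β * (t * (36 / (((m : ℝ) - 1) * (2 * m - 1))))))) ≤
      Real.log (Matrix.trace (NormedSpace.exp (-((β : ℂ) • H0 t N)))).re := by
  set D : ℝ := 36 / (((m : ℝ) - 1) * (2 * m - 1)) with hD
  set e := Real.exp (-(β * (t * D))) with he
  have he0 : 0 < e := Real.exp_pos _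
  have hm0 : 0 < m := by omega
  let A : Option (Fin 3 → Fin q) → ℝ := fun i => match i with
    | none => 1
    | some _ => 1 + e
  have h1 := trace_H0_lower (t := t) (cellIdx N m q) (cell_disjoint hm0) (cell_cover hm0 hN) hβ.le A
    (by
      rintro (_ | a)
      · exact zero_le_one
      · show 0 ≤ 1 + e
        positivity)
    (by
      rintro (_ | a)
      · exact ltr_lower_vac _ hβ.le
      · obtain ⟨c, h1, h2, h3⟩ := cell_test hm hN a
        exact ltr_lower_mag ht _ hβ.le c h1 h2 h3)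
  have h2 : ∏ i, A i = (1 + e) ^ (q ^ 3) := by
    rw [Fintype.prod_option]
    simp [A, Finset.card_univ]
  rw [h2] at h1
  have hpos : (0 : ℝ) < (1 + e) ^ (q ^ 3) := by positivity
  have h3 := Real.log_le_log hpos h1
  rw [Real.log_pow] at h3
  push_cast at h3
  exact h3

end Vale.Agent.Lib.P361
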