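import Vale.Agent.Lib.P361.Final

open scoped Topology
open Filter

set_option linter.unusedSectionVars false

namespace Vale.Agent.Lib.P361

theorem exp_neg_three_le : Real.exp (-3) ≤ 1 / 20 := by
  have h1 : Real.exp 3 = (Real.exp 1) ^ 3 := by
    rw [← Real.exp_nat_mul]
    norm_num
  have h2 := Real.exp_one_gt_d9
  have h3 : (20 : ℝ) ≤ Real.exp 3 := by
    rw [h1]
    calc (20 : ℝ) ≤ (2.7182818283 : ℝ) ^ 3 := by norm_num
      _ ≤ (Real.exp 1) ^ 3 := pow_le_pow_left₀ (by norm_num) h2.le 3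
  rw [Real.exp_neg, one_div]
  exact inv_anti₀ (by norm_num) h3

theorem exp_neg_twenty_le : Real.exp (-20) ≤ 1 / 100000000 := by
  have h1 : Real.exp 20 = (Real.exp 1) ^ 20 := by
    rw [← Real.exp_nat_mul]
    norm_num
  have h2 := Real.exp_one_gt_d9
  have h3 : (100000000 : ℝ) ≤ Real.exp 20 := by
    rw [h1]
    calc (100000000 : ℝ) ≤ (2.7 : ℝ) ^ 20 := by norm_num
      _ ≤ (Real.exp 1) ^ 20 := pow_le_pow_left₀ (by norm_num) (by linarith) 20
  rw [Real.exp_neg, one_div]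
  exact inv_anti₀ (by norm_num) h3

theorem exp_neg_one_ge : (36 / 100 : ℝ) ≤ Real.exp (-1) := by
  rw [Real.exp_neg]
  have h2 := Real.exp_one_lt_d9
  have h3 : (36 / 100 : ℝ) = (100 / 36 : ℝ)⁻¹ := by norm_num
  rw [h3]
  exact inv_anti₀ (Real.exp_pos _) (by linarith)

theorem log_ge_of_one_plus {x : ℝ} (hx : (36 / 100 : ℝ) ≤ x) :
    (26 / 100 : ℝ) ≤ Real.log (1 + x) := by
  have h1 : (0 : ℝ) < 136 / 100 := by norm_num
  have h2 : Real.log (136 / 100) ≤ Real.log (1 + x) := Real.log_le_log h1 (by linarith)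
  have h3 := Real.one_sub_inv_le_log_of_pos h1
  have h4 : (26 / 100 : ℝ) ≤ 1 - (136 / 100 : ℝ)⁻¹ := by norm_num
  linarith

/-- The lower bound on the magnetization deficit. -/
theorem bloch_deficit (t : ℕ) (ht : 0 < t) (β : ℝ) (hT : 36 ≤ β * ((t : ℝ) / 2)) (p : ℝ → ℝ)
    (hp : ∀ h, Tendsto (fun N => finitePressure t N β h) atTop (𝓝 (p h))) (m : ℝ)
    (hm : HasDerivWithinAt p m (Set.Ioi 0) 0) :
    (1 / 200000) * (β * ((t : ℝ) / 2)) ^ (-(3 / 2 : ℝ)) ≤ (t : ℝ) / 2 - m := by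
  have ht' : (0 : ℝ) < t := by exact_mod_cast ht
  set T := β * ((t : ℝ) / 2) with hTdef
  have hT0 : 0 < T := by linarith
  have hβ : 0 < β := by
    by_contra hcon
    push Not at hcon
    have : β * ((t : ℝ) / 2) ≤ 0 := mul_nonpos_of_nonpos_of_nonneg hcon (by positivity)
    linarith
  have hβt : β * (t : ℝ) = 2 * T := by rw [hTdef]; ring
  set R := Real.sqrt T with hR
  have hR2 : R ^ 2 = T := Real.sq_sqrt hT0.le
  have hR6 : 6 ≤ R := by
    apply Real.le_sqrt_of_sq_le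
    linarith
  have hR0 : 0 < R := by linarith
  -- the size of the blocks
  obtain ⟨K, hK1, hK2⟩ := exists_nat_pow_near (x := T / 6) (y := (4 : ℝ)) (by linarith) (by norm_num)
  have h4K : (0 : ℝ) < 4 ^ K := by positivity
  have hτ : Real.exp (-(β * t / (4 * 4 ^ K))) ≤ 1 / 20 := by
    refine le_trans (Real.exp_le_exp.mpr ?_) exp_neg_three_le
    rw [hβt, neg_le_neg_iff, le_div_iff₀ (by positivity)]
    linarith
  have hy : Real.exp (-20) ≤ 1 / 100 := by
    have := exp_neg_twenty_le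
    linarith
  -- the size of the cells
  set M : ℕ := ⌈6 * R⌉₊ + 2 with hM
  have hM2 : 2 ≤ M := by omega
  have hMR1 : 6 * R + 2 ≤ (M : ℝ) := by
    rw [hM]
    push_cast
    have := Nat.le_ceil (6 * R)
    linarith
  have hMR2 : (M : ℝ) ≤ 6 * R + 3 := by
    rw [hM]
    push_cast
    have := Nat.ceil_lt_add_one (a := 6 * R) (by positivity)
    linarith
  have hest := limit_estimate ht hβ (c := 20) (by norm_num) hτ hy hM2 hp
  have hconv := fun (l : ℝ) (h0 : 0 ≤ l) (h1 : l ≤ 1) =>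
    pressure_convex hβ hp (20 / β) l h0 h1
  have hh0 : 0 < 20 / β := by positivity
  have hslope := deriv_le_slope hm hconv hh0
  -- the logarithmic factor
  set ℓ := Real.log (1 + Real.exp (-(β * (t * (36 / (((M : ℝ) - 1) * (2 * M - 1))))))) with hℓ
  have hMM : 72 * T ≤ ((M : ℝ) - 1) * (2 * M - 1) := by
    have h1 : 6 * R ≤ (M : ℝ) - 1 := by linarith
    have h2 : 12 * R ≤ 2 * (M : ℝ) - 1 := by linarith
    have h3 := mul_le_mul h1 h2 (by positivity) (by linarith)
    nlinarith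
  have hℓ0 : (26 / 100 : ℝ) ≤ ℓ := by
    apply log_ge_of_one_plus
    refine le_trans exp_neg_one_ge (Real.exp_le_exp.mpr ?_)
    rw [neg_le_neg_iff]
    have hpos : 0 < ((M : ℝ) - 1) * (2 * M - 1) := by nlinarith
    have e : β * (t * (36 / (((M : ℝ) - 1) * (2 * M - 1)))) =
        (2 * T * 36) / (((M : ℝ) - 1) * (2 * M - 1)) := by
      rw [← hβt]
      ring
    rw [e, div_le_one hpos]
    linarith
  -- the estimates of the sizes
  have hM3 : (2 * (M : ℝ)) ^ 3 ≤ 2197 * R ^ 3 := by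
    have h1 : 2 * (M : ℝ) ≤ 13 * R := by linarith
    have h2 := pow_le_pow_left₀ (by positivity) h1 3
    calc (2 * (M : ℝ)) ^ 3 ≤ (13 * R) ^ 3 := h2
      _ = 2197 * R ^ 3 := by ring
  have hK3 : R ^ 3 / 125 ≤ ((2 : ℝ) ^ K) ^ 3 := by
    have h1 : ((2 : ℝ) ^ K) ^ 2 = 4 ^ K := by
      rw [← pow_mul, mul_comm, pow_mul]
      norm_num
    have h2 : R ^ 2 ≤ (5 * (2 : ℝ) ^ K) ^ 2 := by
      rw [mul_pow, h1, hR2]
      rw [pow_succ] at hK2
      nlinarith
    have h3 : R ≤ 5 * (2 : ℝ) ^ K := by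
      exact (pow_le_pow_iff_left₀ hR0.le (by positivity) two_ne_zero).mp h2
    have h4 : R / 5 ≤ (2 : ℝ) ^ K := by linarith
    have h5 := pow_le_pow_left₀ (by positivity) h4 3
    calc R ^ 3 / 125 = (R / 5) ^ 3 := by ring
      _ ≤ _ := h5
  have hrpow : T ^ (-(3 / 2 : ℝ)) = 1 / R ^ 3 := by
    rw [Real.rpow_neg hT0.le, one_div]
    congr 1
    rw [hR, Real.sqrt_eq_rpow, ← Real.rpow_natCast, ← Real.rpow_mul hT0.le]
    norm_num
  rw [hrpow]
  set a : ℝ := 1 / R ^ 3 with ha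
  have ha0 : 0 < a := by positivity
  have hRa : R ^ 3 * a = 1 := by
    rw [ha]
    field_simp
  -- the two terms
  have hterm1 : (26 / 100 : ℝ) / 2197 * a ≤ ℓ / (2 * (M : ℝ)) ^ 3 := by
    have hpos : 0 < (2 * (M : ℝ)) ^ 3 := by
      have : (0 : ℝ) < M := by linarith
      positivity
    rw [le_div_iff₀ hpos]
    have h1 : (26 / 100 : ℝ) / 2197 * a * (2 * (M : ℝ)) ^ 3 ≤
        (26 / 100 : ℝ) / 2197 * a * (2197 * R ^ 3) :=
      mul_le_mul_of_nonneg_left hM3 (by positivity)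
    have h2 : (26 / 100 : ℝ) / 2197 * a * (2197 * R ^ 3) = 26 / 100 * (R ^ 3 * a) := by ring
    rw [h2, hRa] at h1
    linarith
  have hterm2 : 3 * Real.exp (-20) / ((2 : ℝ) ^ K) ^ 3 ≤ 375 / 100000000 * a := by
    have hpos : 0 < ((2 : ℝ) ^ K) ^ 3 := by positivity
    rw [div_le_iff₀ hpos]
    have h1 := exp_neg_twenty_le
    have h2 : (375 / 100000000 : ℝ) * a * (R ^ 3 / 125) ≤ 375 / 100000000 * a * ((2 : ℝ) ^ K) ^ 3 :=
      mul_le_mul_of_nonneg_left hK3 (by positivity)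
    have h3 : (375 / 100000000 : ℝ) * a * (R ^ 3 / 125) = 3 / 100000000 * (R ^ 3 * a) := by ring
    rw [h3, hRa] at h2
    linarith
  -- conclusion
  have hp0 : (p (20 / β) - p 0 - 20 / β * ((t : ℝ) / 2)) * β ≤
      -((26 / 100 : ℝ) / 2197 * a - 375 / 100000000 * a) := by
    linarith
  have hslope2 : (p (20 / β) - p 0) / (20 / β) =
      (t : ℝ) / 2 + (p (20 / β) - p 0 - 20 / β * ((t : ℝ) / 2)) * β / 20 := by
    field_simp
    ring
  rw [hslope2] at hslope
  have h20 : (p (20 / β) - p 0 - 20 / β * ((t : ℝ) / 2)) * β / 20 ≤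
      -((26 / 100 : ℝ) / 2197 * a - 375 / 100000000 * a) / 20 :=
    div_le_div_of_nonneg_right hp0 (by norm_num)
  have hnum : (1 / 200000 : ℝ) * a ≤ ((26 / 100 : ℝ) / 2197 * a - 375 / 100000000 * a) / 20 := by
    have : (1 / 200000 : ℝ) ≤ ((26 / 100 : ℝ) / 2197 - 375 / 100000000) / 20 := by norm_num
    nlinarith
  linarith

/-- Convexity of the pressure between arbitrary fields. -/
theorem pressure_convex_gen {t : ℕ} {β : ℝ} (hβ : 0 < β) {p : ℝ → ℝ}
    (hp : ∀ h, Tendsto (fun N => finitePressure t N β h) atTop (𝓝 (p h))) (h0 h1 l : ℝ)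
    (hl0 : 0 ≤ l) (hl1 : l ≤ 1) : p ((1 - l) * h0 + l * h1) ≤ (1 - l) * p h0 + l * p h1 := by
  refine le_of_tendsto_of_tendsto' (hp _) (((hp h0).const_mul _).add ((hp h1).const_mul _))
    fun N => ?_
  rw [finitePressure_eq hβ.ne', finitePressure_eq hβ.ne', finitePressure_eq hβ.ne']
  set L : ℝ := (Fintype.card (Site N) : ℝ) with hL
  have hLpos : 0 < L := card_site_pos N
  have h2 := log_ZZ_convex (t := t) (N := N) β (β * h0) (β * h1) l hl0 hl1
  have e : (1 - l) * (β * h0) + l * (β * h1) = β * ((1 - l) * h0 + l * h1) := by ring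
  rw [e] at h2
  have hd : 0 < β * L := by positivity
  have h3 := div_le_div_of_nonneg_right h2 hd.le
  have e2 : ((1 - l) * Real.log (ZZ t N β (β * h0)) + l * Real.log (ZZ t N β (β * h1))) / (β * L) =
      (1 - l) * (Real.log (ZZ t N β (β * h0)) / (β * L)) +
        l * (Real.log (ZZ t N β (β * h1)) / (β * L)) := by
    ring
  rw [e2] at h3
  nlinarith

/-- The right derivative of the pressure at zero exists. -/
theorem pressure_right_deriv {t : ℕ} {β : ℝ} (hβ : 0 < β) {p : ℝ → ℝ}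
    (hp : ∀ h, Tendsto (fun N => finitePressure t N β h) atTop (𝓝 (p h))) :
    ∃ m, HasDerivWithinAt p m (Set.Ioi 0) 0 := by
  have hmono : MonotoneOn (slope p 0) (Set.Ioi 0) := by
    intro a ha b hb hab
    have ha' : (0 : ℝ) < a := ha
    have hb' : (0 : ℝ) < b := hb
    have h1 := pressure_convex_gen hβ hp 0 b (a / b) (by positivity) ((div_le_one hb').mpr hab)
    have e : (1 - a / b) * 0 + a / b * b = a := by field_simp; ring
    rw [e] at h1
    rw [slope_def_field, slope_def_field, sub_zero, sub_zero, div_le_div_iff₀ ha' hb']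
    have e4 : ((1 - a / b) * p 0 + a / b * p b - p 0) * b = (p b - p 0) * a := by
      field_simp
      ring
    rw [← e4]
    exact mul_le_mul_of_nonneg_right (by linarith) hb'.le
  have hbdd : BddBelow (slope p 0 '' Set.Ioi 0) := by
    refine ⟨p 0 - p (-1), ?_⟩
    rintro _ ⟨a, ha, rfl⟩
    have ha' : (0 : ℝ) < a := ha
    have h1 := pressure_convex_gen hβ hp (-1) a (1 / (1 + a)) (by positivity)
      ((div_le_one (by positivity)).mpr (by linarith))
    have e : (1 - 1 / (1 + a)) * (-1) + 1 / (1 + a) * a = 0 := by field_simp; ring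
    rw [e] at h1
    rw [slope_def_field, sub_zero, le_div_iff₀ ha']
    have e4 : ((1 - 1 / (1 + a)) * p (-1) + 1 / (1 + a) * p a) * (1 + a) =
        a * p (-1) + p a := by
      field_simp
      ring
    have h2 := mul_le_mul_of_nonneg_right h1 (by positivity : (0 : ℝ) ≤ 1 + a)
    rw [e4] at h2
    nlinarith
  have hT := hmono.tendsto_nhdsGT hbdd
  exact ⟨_, (hasDerivWithinAt_iff_tendsto_slope' (by simp)).mpr hT⟩

/-- The statement with the existence of the right derivative. -/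
theorem bloch_deficit_exists (t : ℕ) (ht : 0 < t) (β : ℝ) (hT : 36 ≤ β * ((t : ℝ) / 2)) (p : ℝ → ℝ)
    (hp : ∀ h, Tendsto (fun N => finitePressure t N β h) atTop (𝓝 (p h))) :
    ∃ m, HasDerivWithinAt p m (Set.Ioi 0) 0 ∧
      (1 / 200000) * (β * ((t : ℝ) / 2)) ^ (-(3 / 2 : ℝ)) ≤ (t : ℝ) / 2 - m := by
  have ht' : (0 : ℝ) < t := by exact_mod_cast ht
  have hβ : 0 < β := by
    by_contra hcon
    push Not at hcon
    have : β * ((t : ℝ) / 2) ≤ 0 := mul_nonpos_of_nonpos_of_nonneg hcon (by positivity)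
    linarith
  obtain ⟨m, hm⟩ := pressure_right_deriv (t := t) hβ hp
  exact ⟨m, hm, bloch_deficit t ht β hT p hp m hm⟩

end Vale.Agent.Lib.P361
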