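import Mathlib

open scoped Matrix ComplexOrder
open WithLp

namespace Vale.Agent.Lib.P361

variable {n : Type} [Fintype n] [DecidableEq n]

/-- Trace of the exponential of a Hermitian matrix. -/
theorem trace_exp_hermitian {A : Matrix n n ℂ} (hA : A.IsHermitian) :
    Matrix.trace (NormedSpace.exp A) = ∑ i, ((Real.exp (hA.eigenvalues i) : ℝ) : ℂ) := by
  set U : Matrix n n ℂ := (hA.eigenvectorUnitary : Matrix n n ℂ) with hU
  have hUstar : star U * U = 1 := Unitary.coe_star_mul_self hA.eigenvectorUnitary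
  have hUstar' : U * star U = 1 := Unitary.coe_mul_star_self hA.eigenvectorUnitary
  have hinv : U⁻¹ = star U := Matrix.inv_eq_left_inv hUstar
  have hUunit : IsUnit U := by
    refine ⟨⟨U, star U, hUstar', hUstar⟩, rfl⟩
  have hspec : A = U * Matrix.diagonal (fun i => ((hA.eigenvalues i : ℝ) : ℂ)) * U⁻¹ := by
    have := hA.spectral_theorem
    rw [hinv]
    simpa [Unitary.conjStarAlgAut_apply, Function.comp_def] using this
  have hexp : NormedSpace.exp A =
      U * NormedSpace.exp (Matrix.diagonal (fun i => ((hA.eigenvalues i : ℝ) : ℂ))) * U⁻¹ := by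
    conv_lhs => rw [hspec]
    exact Matrix.exp_conj _ _ hUunit
  rw [hexp, Matrix.exp_diagonal, hinv, Matrix.trace_mul_cycle, hUstar, Matrix.one_mul,
    Matrix.trace_diagonal]
  refine Finset.sum_congr rfl fun i _ => ?_
  simp only [Pi.exp_def]
  rw [← Complex.exp_eq_exp_ℂ, Complex.ofReal_exp]

/-- Quadratic form of a matrix, as a real number. -/
noncomputable def qf (A : Matrix n n ℂ) (ψ : n → ℂ) : ℝ :=
  (star ψ ⬝ᵥ (A *ᵥ ψ)).re

/-- Peierls inequality for an orthonormal family. -/
theorem peierls {A : Matrix n n ℂ} (hA : A.IsHermitian) {ι : Type} [Fintype ι] [DecidableEq ι]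
    (φ : ι → n → ℂ) (hφ : ∀ i j, star (φ i) ⬝ᵥ φ j = if i = j then 1 else 0) :
    ∑ i, Real.exp (qf A (φ i)) ≤ (Matrix.trace (NormedSpace.exp A)).re := by
  classical
  set b := hA.eigenvectorBasis with hb
  set lam := hA.eigenvalues with hlam
  -- the family in Euclidean space
  let Φ : ι → EuclideanSpace ℂ n := fun i => toLp 2 (φ i)
  have hΦ : Orthonormal ℂ Φ := by
    rw [orthonormal_iff_ite]
    intro i j
    have : inner ℂ (Φ i) (Φ j) = star (φ i) ⬝ᵥ φ j := by
      simp [Φ, EuclideanSpace.inner_toLp_toLp, dotProduct_comm]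
    rw [this, hφ]
  let p : ι → n → ℝ := fun i j => ‖inner ℂ (b j) (Φ i)‖ ^ 2
  have hp0 : ∀ i j, 0 ≤ p i j := fun i j => by positivity
  have hp1 : ∀ i, ∑ j, p i j = 1 := by
    intro i
    have := b.sum_sq_norm_inner_right (Φ i)
    simp only [p]
    rw [this]
    have h1 : ‖Φ i‖ = 1 := hΦ.1 i
    simp [h1]
  -- quadratic form as an average of eigenvalues
  have hq : ∀ i, qf A (φ i) = ∑ j, p i j * lam j := by
    intro i
    have h := b.sum_inner_mul_inner (Φ i) (toLp 2 (A *ᵥ φ i))
    have h2 : inner ℂ (Φ i) (toLp 2 (A *ᵥ φ i)) = star (φ i) ⬝ᵥ (A *ᵥ φ i) := by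
      simp [Φ, EuclideanSpace.inner_toLp_toLp, dotProduct_comm]
    have h3 : ∀ j, inner ℂ (b j) (toLp 2 (A *ᵥ φ i)) = (lam j : ℂ) * inner ℂ (b j) (Φ i) := by
      intro j
      have e1 : star (ofLp (b j)) ⬝ᵥ (A *ᵥ φ i) = star (A *ᵥ ofLp (b j)) ⬝ᵥ φ i := by
        rw [Matrix.star_mulVec, hA.eq, Matrix.dotProduct_mulVec]
      have e2 : A *ᵥ ofLp (b j) = (lam j) • ofLp (b j) := hA.mulVec_eigenvectorBasis j
      have e3 : inner ℂ (b j) (toLp 2 (A *ᵥ φ i)) = star (ofLp (b j)) ⬝ᵥ (A *ᵥ φ i) := by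
        rw [EuclideanSpace.inner_eq_star_dotProduct, dotProduct_comm]
      have e4 : inner ℂ (b j) (Φ i) = star (ofLp (b j)) ⬝ᵥ φ i := by
        rw [EuclideanSpace.inner_eq_star_dotProduct, dotProduct_comm]
      rw [e3, e1, e2, e4]
      simp [star_smul, smul_dotProduct]
    simp only [qf]
    rw [← h2, ← h, Complex.re_sum]
    refine Finset.sum_congr rfl fun j _ => ?_
    rw [h3 j]
    have h4 : inner ℂ (Φ i) (b j) = star (inner ℂ (b j) (Φ i)) :=
      (inner_conj_symm (Φ i) (b j)).symm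
    rw [h4]
    have h5 : ∀ z : ℂ, star z * ((lam j : ℂ) * z) = ((‖z‖ ^ 2 * lam j : ℝ) : ℂ) := by
      intro z
      have : star z * z = ((‖z‖ ^ 2 : ℝ) : ℂ) := by
        rw [Complex.star_def, ← Complex.normSq_eq_conj_mul_self, Complex.normSq_eq_norm_sq]
      calc star z * ((lam j : ℂ) * z) = (star z * z) * (lam j : ℂ) := by ring
        _ = _ := by rw [this]; push_cast; ring
    rw [h5, Complex.ofReal_re]
  -- Jensen
  have hJ : ∀ i, Real.exp (qf A (φ i)) ≤ ∑ j, p i j * Real.exp (lam j) := by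
    intro i
    rw [hq]
    have := convexOn_exp.map_sum_le (t := Finset.univ) (w := p i) (p := lam)
      (fun j _ => hp0 i j) (hp1 i) (fun _ _ => Set.mem_univ _)
    simpa [smul_eq_mul] using this
  -- Bessel
  have hB : ∀ j, ∑ i, p i j ≤ 1 := by
    intro j
    have := hΦ.sum_inner_products_le (x := b j) (s := Finset.univ)
    have h1 : ‖b j‖ = 1 := b.orthonormal.1 j
    simp only [h1, one_pow] at this
    refine le_trans (le_of_eq ?_) this
    refine Finset.sum_congr rfl fun i _ => ?_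
    simp only [p]
    rw [← inner_conj_symm, RCLike.norm_conj]
  have htr : (Matrix.trace (NormedSpace.exp A)).re = ∑ j, Real.exp (lam j) := by
    rw [trace_exp_hermitian hA, Complex.re_sum]
    refine Finset.sum_congr rfl fun j _ => ?_
    exact Complex.ofReal_re _
  rw [htr]
  calc ∑ i, Real.exp (qf A (φ i)) ≤ ∑ i, ∑ j, p i j * Real.exp (lam j) :=
        Finset.sum_le_sum fun i _ => hJ i
    _ = ∑ j, (∑ i, p i j) * Real.exp (lam j) := by
        rw [Finset.sum_comm]
        refine Finset.sum_congr rfl fun j _ => ?_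
        rw [Finset.sum_mul]
    _ ≤ ∑ j, 1 * Real.exp (lam j) := by
        refine Finset.sum_le_sum fun j _ => ?_
        exact mul_le_mul_of_nonneg_right (hB j) (Real.exp_pos _).le
    _ = ∑ j, Real.exp (lam j) := by simp

/-- Monotonicity of `Tr exp`: if `X ≤ A` as quadratic forms then `Tr exp A ≤ Tr exp X` fails;
the right statement for `exp (-A)`. -/
theorem trace_exp_anti {A X : Matrix n n ℂ} (hA : A.IsHermitian) (hX : X.IsHermitian)
    (hle : ∀ ψ, qf X ψ ≤ qf A ψ) :
    (Matrix.trace (NormedSpace.exp (-A))).re ≤ (Matrix.trace (NormedSpace.exp (-X))).re := by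
  have hA' : (-A).IsHermitian := hA.neg
  have hX' : (-X).IsHermitian := hX.neg
  -- eigenvectors of `-A`
  set b := hA'.eigenvectorBasis with hb
  have horth : ∀ i j, star (ofLp (b i)) ⬝ᵥ ofLp (b j) = if i = j then 1 else 0 := by
    intro i j
    have := orthonormal_iff_ite.mp b.orthonormal i j
    rw [EuclideanSpace.inner_eq_star_dotProduct, dotProduct_comm] at this
    exact this
  have h1 := peierls hX' (fun i => ofLp (b i)) horth
  have e0 : (Matrix.trace (NormedSpace.exp (-A))).re = ∑ i, Real.exp (hA'.eigenvalues i) := by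
    rw [trace_exp_hermitian hA', Complex.re_sum]
    refine Finset.sum_congr rfl fun j _ => ?_
    exact Complex.ofReal_re _
  rw [e0]
  refine le_trans (Finset.sum_le_sum fun i _ => ?_) h1
  apply Real.exp_le_exp.mpr
  have e1 : hA'.eigenvalues i = qf (-A) (ofLp (b i)) := by
    have := hA'.eigenvalues_eq i
    simpa [qf] using this
  rw [e1]
  have := hle (ofLp (b i))
  simp only [qf, Matrix.neg_mulVec, dotProduct_neg, Complex.neg_re] at this ⊢
  linarith

end Vale.Agent.Lib.P361
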