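import Vale.Agent.Lib.P361.Hierarchy

open scoped Matrix
open Function

set_option linter.unusedSectionVars false

namespace Vale.Agent.Lib.P361

variable {t N : ℕ}

/-- The index of a child of a dyadic block. -/
def kid (b : Fin 3 → ℕ) (ε : Fin 3 → Fin 2) : Fin 3 → ℕ := fun i => 2 * b i + (ε i : ℕ)

theorem blk_succ (k : ℕ) (b : Fin 3 → ℕ) :
    blk N (k + 1) b = Finset.univ.biUnion fun ε => blk N k (kid b ε) := by
  ext x
  simp only [mem_blk, Finset.mem_biUnion, Finset.mem_univ, true_and, kid]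
  constructor
  · intro h
    refine ⟨fun i => ⟨((x i : ℕ) / 2 ^ k) % 2, Nat.mod_lt _ (by norm_num)⟩, fun i => ?_⟩
    have h1 := h i
    rw [pow_succ, ← Nat.div_div_eq_div_mul] at h1
    simp only
    omega
  · rintro ⟨ε, h⟩ i
    have h1 := h i
    rw [pow_succ, ← Nat.div_div_eq_div_mul, h1]
    have := (ε i).2
    omega

theorem kid_disjoint (k : ℕ) (b : Fin 3 → ℕ) :
    ((Finset.univ : Finset (Fin 3 → Fin 2)) : Set (Fin 3 → Fin 2)).PairwiseDisjoint
      fun ε => blk N k (kid b ε) := by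
  intro ε _ ε' _ hne
  rw [Function.onFun, Finset.disjoint_left]
  intro x hx hx'
  apply hne
  funext i
  have h1 := (mem_blk.mp hx) i
  have h2 := (mem_blk.mp hx') i
  simp only [kid] at h1 h2
  apply Fin.ext
  omega

theorem good_kid {k : ℕ} {b : Fin 3 → ℕ} (hG : Good N (k + 1) b) (ε : Fin 3 → Fin 2) :
    Good N k (kid b ε) := by
  intro i
  refine le_trans ?_ (hG i)
  rw [pow_succ]
  simp only [kid]
  have := (ε i).2
  have h : 2 * b i + (ε i : ℕ) + 1 ≤ 2 * (b i + 1) := by omega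
  calc (2 * b i + (ε i : ℕ) + 1) * 2 ^ k ≤ 2 * (b i + 1) * 2 ^ k := Nat.mul_le_mul_right _ h
    _ = (b i + 1) * (2 ^ k * 2) := by ring

theorem kid_sub (k : ℕ) (b : Fin 3 → ℕ) (ε : Fin 3 → Fin 2) :
    blk N k (kid b ε) ⊆ blk N (k + 1) b := by
  rw [blk_succ]
  exact Finset.subset_biUnion_of_mem (fun ε => blk N k (kid b ε)) (Finset.mem_univ ε)

/-- The hierarchical gap operator. -/
noncomputable def RR (t N : ℕ) : ℕ → (Fin 3 → ℕ) → Matrix (Cf (Site N) t) (Cf (Site N) t) ℂ
  | 0, _ => 0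
  | k + 1, b => (1 - topP t (blk N (k + 1) b)) + ∑ ε : Fin 3 → Fin 2, RR t N k (kid b ε)

theorem RR_loc (k : ℕ) (b : Fin 3 → ℕ) : Loc (blk N k b) (RR t N k b) := by
  induction k generalizing b with
  | zero => exact Loc.zero _
  | succ k ih =>
    refine ((Loc.one _).sub (topP_loc _)).add (Loc.sum _ fun ε _ => ?_)
    exact (ih (kid b ε)).mono (kid_sub k b ε)

theorem RR_isHermitian (k : ℕ) (b : Fin 3 → ℕ) : (RR t N k b).IsHermitian := by
  induction k generalizing b with
  | zero => exact Matrix.isHermitian_zero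
  | succ k ih =>
    unfold RR Matrix.IsHermitian
    rw [Matrix.conjTranspose_add, Matrix.conjTranspose_sub, Matrix.conjTranspose_one,
      (topP_isHermitian _), Matrix.conjTranspose_sum]
    congr 1
    exact Finset.sum_congr rfl fun ε _ => ih (kid b ε)

theorem RR_qf_le (ht : 0 < t) (k : ℕ) (b : Fin 3 → ℕ) (hG : Good N k b)
    (ψ : Cf (Site N) t → ℂ) :
    qf (RR t N k b) ψ ≤ (4 * 4 ^ k / (t : ℝ)) * Eblk t N ψ (blk N k b) := by
  have ht' : (0 : ℝ) < t := by exact_mod_cast ht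
  induction k generalizing b with
  | zero =>
    simp only [RR]
    rw [qf_zero]
    have := Eblk_nonneg ψ (blk N 0 b)
    positivity
  | succ k ih =>
    simp only [RR]
    rw [qf_add, qf_sum]
    have h1 := block_gap ht hG ψ
    have h2 : ∑ ε : Fin 3 → Fin 2, qf (RR t N k (kid b ε)) ψ ≤
        (4 * 4 ^ k / (t : ℝ)) * Eblk t N ψ (blk N (k + 1) b) := by
      calc ∑ ε : Fin 3 → Fin 2, qf (RR t N k (kid b ε)) ψ
          ≤ ∑ ε : Fin 3 → Fin 2, (4 * 4 ^ k / (t : ℝ)) * Eblk t N ψ (blk N k (kid b ε)) :=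
            Finset.sum_le_sum fun ε _ => ih (kid b ε) (good_kid hG ε)
        _ = (4 * 4 ^ k / (t : ℝ)) * ∑ ε : Fin 3 → Fin 2, Eblk t N ψ (blk N k (kid b ε)) := by
            rw [Finset.mul_sum]
        _ ≤ _ := by
            apply mul_le_mul_of_nonneg_left _ (by positivity)
            exact Eblk_sum_le _ _ _ (kid_disjoint k b) (fun ε _ => kid_sub k b ε) ψ
    have h3 : qf (1 - topP t (blk N (k + 1) b)) ψ ≤
        (3 * 4 ^ (k + 1) / (t : ℝ)) * Eblk t N ψ (blk N (k + 1) b) := by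
      rw [div_mul_eq_mul_div, le_div_iff₀ ht']
      linarith
    calc _ ≤ (3 * 4 ^ (k + 1) / (t : ℝ)) * Eblk t N ψ (blk N (k + 1) b)
          + (4 * 4 ^ k / (t : ℝ)) * Eblk t N ψ (blk N (k + 1) b) := add_le_add h3 h2
      _ = _ := by
          rw [pow_succ]
          ring

theorem RR_nest (ht : 0 < t) (k : ℕ) (b : Fin 3 → ℕ) (hG : Good N k b) (B : Finset (Site N))
    (hB : blk N k b ⊆ B) :
    topP t B * RR t N k b = 0 ∧ RR t N k b * topP t B = 0 := by
  induction k generalizing b with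
  | zero => simp [RR]
  | succ k ih =>
    have hne := blk_nonempty hG
    constructor
    · simp only [RR]
      rw [mul_add, mul_sub, mul_one, topP_nest_right ht hne hB, sub_self, zero_add, Finset.mul_sum]
      exact Finset.sum_eq_zero fun ε _ =>
        (ih (kid b ε) (good_kid hG ε) ((kid_sub k b ε).trans hB)).1
    · simp only [RR]
      rw [add_mul, sub_mul, one_mul, topP_nest_left ht hne hB, sub_self, zero_add, Finset.sum_mul]
      exact Finset.sum_eq_zero fun ε _ =>
        (ih (kid b ε) (good_kid hG ε) ((kid_sub k b ε).trans hB)).2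

/-- The comparison operator of a dyadic block. -/
noncomputable def XX (t N : ℕ) (τ c : ℝ) (k : ℕ) (b : Fin 3 → ℕ) :
    Matrix (Cf (Site N) t) (Cf (Site N) t) ℂ :=
  (τ : ℂ) • RR t N k b + (c : ℂ) • NB t (blk N k b)

theorem XX_loc (τ c : ℝ) (k : ℕ) (b : Fin 3 → ℕ) : Loc (blk N k b) (XX t N τ c k b) :=
  (RR_loc k b).smul _ |>.add ((NB_loc _).smul _)

theorem NB_succ (k : ℕ) (b : Fin 3 → ℕ) :
    NB t (blk N (k + 1) b) = ∑ ε : Fin 3 → Fin 2, NB t (blk N k (kid b ε)) := by
  rw [blk_succ, NB_biUnion _ _ (kid_disjoint k b)]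

theorem XX_succ (τ c : ℝ) (k : ℕ) (b : Fin 3 → ℕ) :
    XX t N τ c (k + 1) b = (τ : ℂ) • (1 - topP t (blk N (k + 1) b)) +
      ∑ ε : Fin 3 → Fin 2, XX t N τ c k (kid b ε) := by
  simp only [XX, RR]
  rw [NB_succ, smul_add, add_assoc, Finset.sum_add_distrib, Finset.smul_sum, Finset.smul_sum]

theorem ltr_add (B : Finset (Site N)) (O O' : Matrix (Cf (Site N) t) (Cf (Site N) t) ℂ) :
    ltr B (O + O') = ltr B O + ltr B O' := by
  simp [ltr, Finset.sum_add_distrib]

theorem ltr_smul (B : Finset (Site N)) (c : ℂ) (O : Matrix (Cf (Site N) t) (Cf (Site N) t) ℂ) :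
    ltr B (c • O) = c * ltr B O := by
  simp [ltr, Finset.mul_sum]

/-- One step of the recursion for the partial traces. -/
theorem ltr_step (ht : 0 < t) (τ c : ℝ) (k : ℕ) (b : Fin 3 → ℕ) (hG : Good N (k + 1) b) :
    ltr (blk N (k + 1) b) (NormedSpace.exp (-XX t N τ c (k + 1) b)) =
      ((Real.exp (-τ) : ℝ) : ℂ) *
          ∏ ε : Fin 3 → Fin 2, ltr (blk N k (kid b ε)) (NormedSpace.exp (-XX t N τ c k (kid b ε)))
        + ((1 - Real.exp (-τ) : ℝ) : ℂ) *
          ltr (blk N (k + 1) b) ((Matrix.diagonal fun σ : Cf (Site N) t =>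
            (((Real.exp (-c)) ^ (nB (blk N (k + 1) b) σ) : ℝ) : ℂ)) * topP t (blk N (k + 1) b)) := by
  set B := blk N (k + 1) b with hB
  set P := topP t B with hP
  set Y : Matrix (Cf (Site N) t) (Cf (Site N) t) ℂ :=
    ∑ ε : Fin 3 → Fin 2, XX t N τ c k (kid b ε) with hY
  set W : Matrix (Cf (Site N) t) (Cf (Site N) t) ℂ := (c : ℂ) • NB t B with hW
  have hPP : P * P = P := topP_idem B
  -- `P` commutes with the total number
  have hcomm : P * NB t B = NB t B * P := by
    have := topP_commute_diag (t := t) B (fun n => (n : ℂ))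
    exact this
  have hPY : P * Y = P * W := by
    rw [hY, Finset.mul_sum, hW, NB_succ, Finset.smul_sum, Finset.mul_sum]
    refine Finset.sum_congr rfl fun ε _ => ?_
    have hn := (RR_nest ht k (kid b ε) (good_kid hG ε) B (kid_sub k b ε)).1
    simp only [XX]
    rw [mul_add, Matrix.mul_smul, hn, smul_zero, zero_add]
  have hYP : Y * P = W * P := by
    rw [hY, Finset.sum_mul, hW, NB_succ, Finset.smul_sum, Finset.sum_mul]
    refine Finset.sum_congr rfl fun ε _ => ?_
    have hn := (RR_nest ht k (kid b ε) (good_kid hG ε) B (kid_sub k b ε)).2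
    simp only [XX]
    rw [add_mul, Matrix.smul_mul, hn, smul_zero, zero_add]
  have hPWc : P * W = W * P := by
    rw [hW, Matrix.mul_smul, Matrix.smul_mul, hcomm]
  have hPYc : Commute P Y := by
    show P * Y = Y * P
    rw [hPY, hYP, hPWc]
  have hc1 : Commute (((-τ : ℝ) : ℂ) • (1 - P)) (-Y) := by
    apply Commute.smul_left
    apply Commute.neg_right
    exact (Commute.one_left Y).sub_left hPYc
  have hsplit : -XX t N τ c (k + 1) b = ((-τ : ℝ) : ℂ) • (1 - P) + (-Y) := by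
    rw [XX_succ, neg_add, Complex.ofReal_neg, neg_smul]
  rw [hsplit, Matrix.exp_add_of_commute _ _ hc1, exp_smul_one_sub hPP]
  have hint : P * NormedSpace.exp (-Y) = NormedSpace.exp (-W) * P := by
    apply mul_exp_intertwine
    rw [mul_neg, hPY, hPWc, neg_mul]
  have hE : ((Real.exp (-τ) : ℝ) : ℂ) • (1 - P) + P =
      ((Real.exp (-τ) : ℝ) : ℂ) • (1 : Matrix (Cf (Site N) t) (Cf (Site N) t) ℂ)
        + ((1 - Real.exp (-τ) : ℝ) : ℂ) • P := by
    push_cast
    rw [smul_sub, sub_smul, one_smul]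
    abel
  rw [hE, add_mul, Matrix.smul_mul, Matrix.smul_mul, one_mul, hint, hW, exp_NB, ltr_add, ltr_smul,
    ltr_smul]
  congr 2
  -- factorization of the children
  have hne : -Y = ∑ ε : Fin 3 → Fin 2, -XX t N τ c k (kid b ε) := by
    rw [hY, Finset.sum_neg_distrib]
  rw [hne, hB, blk_succ]
  refine ltr_exp_sum Finset.univ (fun ε => blk N k (kid b ε)) _ (kid_disjoint k b) fun ε _ => ?_
  exact (XX_loc τ c k (kid b ε)).neg

/-- The numerical inequality of the recursion. -/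
theorem num_step {y e : ℝ} (hy0 : 0 ≤ y) (hy1 : y ≤ 1 / 100) (he0 : 0 ≤ e) (he1 : e ≤ 1 / 20) :
    e * ((1 + y) / (1 - y)) ^ 8 + (1 - e) * (1 / (1 - y)) ≤ (1 + y) / (1 - y) := by
  have h1 : 0 < 1 - y := by linarith
  have hpoly : (1 + y) ^ 8 ≤ (1 + 17 * y) * (1 - y) ^ 7 := by
    have h2 : y ^ 2 ≤ 1 / 10000 := by nlinarith
    have h3 : y ^ 3 ≤ 1 / 1000000 := by nlinarith [pow_nonneg hy0 2]
    have h4 : 0 ≤ y ^ 4 := by positivity
    have h5 : y ^ 5 ≤ 1 / 10000000000 := by nlinarith [pow_nonneg hy0 3, pow_nonneg hy0 2]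
    have h6 : 0 ≤ y ^ 6 := by positivity
    have h7 : y ^ 7 ≤ 1 / 100000000000000 := by
      nlinarith [pow_nonneg hy0 5, pow_nonneg hy0 2, pow_nonneg hy0 3]
    have hP : 0 ≤ 2 - 126 * y + 266 * y ^ 2 - 630 * y ^ 3 + 518 * y ^ 4 - 378 * y ^ 5 + 110 * y ^ 6
        - 18 * y ^ 7 := by
      have : 0 ≤ y ^ 2 := by positivity
      nlinarith
    have := mul_nonneg hy0 hP
    nlinarith
  have hratio : (1 + y) ^ 8 / (1 - y) ^ 7 ≤ 1 + 17 * y := by
    rw [div_le_iff₀ (by positivity)]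
    exact hpoly
  have e1 : e * ((1 + y) / (1 - y)) ^ 8 + (1 - e) * (1 / (1 - y)) =
      (e * ((1 + y) ^ 8 / (1 - y) ^ 7) + (1 - e)) / (1 - y) := by
    field_simp
  rw [e1]
  apply div_le_div_of_nonneg_right _ h1.le
  have : e * ((1 + y) ^ 8 / (1 - y) ^ 7) ≤ e * (1 + 17 * y) := mul_le_mul_of_nonneg_left hratio he0
  nlinarith

/-- The bound on the partial trace of a dyadic block. -/
theorem XX_ltr_bound (ht : 0 < t) {τ c : ℝ} (hc : 0 ≤ c) (hy : Real.exp (-c) ≤ 1 / 100)
    (hτ : Real.exp (-τ) ≤ 1 / 20) (k : ℕ) (b : Fin 3 → ℕ) (hG : Good N k b) :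
    RB (ltr (blk N k b) (NormedSpace.exp (-XX t N τ c k b)))
      ((1 + Real.exp (-c)) / (1 - Real.exp (-c))) := by
  set y := Real.exp (-c) with hydef
  have hy0 : 0 ≤ y := (Real.exp_pos _).le
  have hy1 : y < 1 := by linarith
  have h1y : 0 < 1 - y := by linarith
  induction k generalizing b with
  | zero =>
    have hcard : (blk N 0 b).card = 1 := by
      rw [card_blk hG]
      norm_num
    obtain ⟨x, hx⟩ := Finset.card_eq_one.mp hcard
    have e : -XX t N τ c 0 b = -((c : ℂ) • NB t {x}) := by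
      simp only [XX, RR, hx]
      simp
    rw [e, exp_NB, hx]
    refine (ltr_single_bound x hy0 hy1).mono ?_
    apply div_le_div_of_nonneg_right _ h1y.le
    linarith
  | succ k ih =>
    rw [ltr_step ht τ c k b hG]
    have h1 : RB (∏ ε : Fin 3 → Fin 2, ltr (blk N k (kid b ε))
        (NormedSpace.exp (-XX t N τ c k (kid b ε)))) (((1 + y) / (1 - y)) ^ 8) := by
      have := RB.prod (Finset.univ : Finset (Fin 3 → Fin 2))
        (fun ε => ltr (blk N k (kid b ε)) (NormedSpace.exp (-XX t N τ c k (kid b ε))))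
        (a := (1 + y) / (1 - y)) (fun ε _ => ih (kid b ε) (good_kid hG ε))
      have hcard : (Finset.univ : Finset (Fin 3 → Fin 2)).card = 8 := by
        simp [Finset.card_univ]
      rwa [hcard] at this
    have h2 := ltr_top_bound (t := t) (blk N (k + 1) b) hy0 hy1
    have h3 := RB.combo h1 h2 (Real.exp_pos (-τ)).le (by linarith)
    exact h3.mono (num_step hy0 (by linarith) (Real.exp_pos _).le hτ)

end Vale.Agent.Lib.P361
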