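import Vale.Agent.Lib.P361.Density
import Vale.Agent.Lib.P361.Main

open scoped Matrix Topology
open Function Filter

set_option linter.unusedSectionVars false

namespace Vale.Agent.Lib.P361

variable {t N : ℕ}

/-- The supporting line for the logarithm of a sum of exponentials, with its slope. -/
theorem log_support_explicit {ι : Type} [Fintype ι] (w n : ι → ℝ) (hw : ∀ i, 0 ≤ w i) (c : ℝ)
    (hZ : 0 < ∑ i, w i * Real.exp (-(c * n i))) (c' : ℝ) :
    Real.log (∑ i, w i * Real.exp (-(c * n i))) +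
        (-((∑ i, w i * Real.exp (-(c * n i)) * n i) / ∑ i, w i * Real.exp (-(c * n i)))) * (c' - c) ≤
      Real.log (∑ i, w i * Real.exp (-(c' * n i))) := by
  set Z := ∑ i, w i * Real.exp (-(c * n i)) with hZdef
  set nb : ℝ := (∑ i, w i * Real.exp (-(c * n i)) * n i) / Z with hnb
  have key : Z * Real.exp (-(c' - c) * nb) ≤ ∑ i, w i * Real.exp (-(c' * n i)) := by
    have h1 : ∀ i, w i * Real.exp (-(c * n i)) * (Real.exp (-(c' - c) * nb) *
        (1 + (-(c' - c) * (n i - nb)))) ≤ w i * Real.exp (-(c' * n i)) := by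
      intro i
      have h2 : 1 + (-(c' - c) * (n i - nb)) ≤ Real.exp (-(c' - c) * (n i - nb)) := by
        have := Real.add_one_le_exp (-(c' - c) * (n i - nb))
        linarith
      have h3 : Real.exp (-(c * n i)) * (Real.exp (-(c' - c) * nb) *
          Real.exp (-(c' - c) * (n i - nb))) = Real.exp (-(c' * n i)) := by
        rw [← Real.exp_add, ← Real.exp_add]
        congr 1
        ring
      have h4 : 0 ≤ w i * Real.exp (-(c * n i)) * Real.exp (-(c' - c) * nb) :=
        mul_nonneg (mul_nonneg (hw i) (Real.exp_pos _).le) (Real.exp_pos _).le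
      calc w i * Real.exp (-(c * n i)) * (Real.exp (-(c' - c) * nb) *
            (1 + (-(c' - c) * (n i - nb))))
          = w i * Real.exp (-(c * n i)) * Real.exp (-(c' - c) * nb) *
            (1 + (-(c' - c) * (n i - nb))) := by ring
        _ ≤ w i * Real.exp (-(c * n i)) * Real.exp (-(c' - c) * nb) *
            Real.exp (-(c' - c) * (n i - nb)) := mul_le_mul_of_nonneg_left h2 h4
        _ = w i * (Real.exp (-(c * n i)) * (Real.exp (-(c' - c) * nb) *
            Real.exp (-(c' - c) * (n i - nb)))) := by ring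
        _ = _ := by rw [h3]
    refine le_trans (le_of_eq ?_) (Finset.sum_le_sum fun i _ => h1 i)
    have h5 : ∑ i, w i * Real.exp (-(c * n i)) * (n i - nb) = 0 := by
      have e3 : ∑ i, w i * Real.exp (-(c * n i)) * (n i - nb) =
          (∑ i, w i * Real.exp (-(c * n i)) * n i) - Z * nb := by
        rw [hZdef, Finset.sum_mul, ← Finset.sum_sub_distrib]
        refine Finset.sum_congr rfl fun i _ => by ring
      rw [e3, hnb]
      field_simp
      ring
    have e4 : ∀ i, w i * Real.exp (-(c * n i)) * (Real.exp (-(c' - c) * nb) *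
        (1 + (-(c' - c) * (n i - nb)))) =
        Real.exp (-(c' - c) * nb) * (w i * Real.exp (-(c * n i))) +
          Real.exp (-(c' - c) * nb) * (-(c' - c)) * (w i * Real.exp (-(c * n i)) * (n i - nb)) := by
      intro i
      ring
    simp only [e4]
    rw [Finset.sum_add_distrib, ← Finset.mul_sum, ← Finset.mul_sum, h5, mul_zero, add_zero, ← hZdef,
      mul_comm]
  have h6 := Real.log_le_log (by positivity) key
  rw [Real.log_mul hZ.ne' (Real.exp_pos _).ne', Real.log_exp] at h6
  linarith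

/-- The expectation of the number of magnons as a sum over configurations. -/
theorem Nn_eq_sum (β c : ℝ) :
    gE (YY t N β c) (NB t Finset.univ) =
      ∑ σ : Cf (Site N) t, gw t N β σ * Real.exp (-(c * (nB Finset.univ σ : ℕ))) *
        (nB Finset.univ σ : ℕ) := by
  have hc : Commute (-((β : ℂ) • H0 t N)) (-((c : ℂ) • NB t Finset.univ)) := by
    apply Commute.neg_left
    apply Commute.neg_right
    exact (H0_commute.smul_left _).smul_right _
  unfold gE YY
  rw [neg_add, Matrix.exp_add_of_commute _ _ hc, exp_NB, NB, Matrix.trace, Complex.re_sum]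
  refine Finset.sum_congr rfl fun σ _ => ?_
  rw [Matrix.diag_apply, Matrix.mul_diagonal, Matrix.mul_diagonal]
  have e : Real.exp (-c) ^ nB Finset.univ σ = Real.exp (-(c * (nB Finset.univ σ : ℕ))) := by
    rw [← Real.exp_nat_mul]
    congr 1
    ring
  rw [e]
  have e2 : NormedSpace.exp (-((β : ℂ) • H0 t N)) σ σ *
      ((Real.exp (-(c * (nB Finset.univ σ : ℕ))) : ℝ) : ℂ) * ((nB Finset.univ σ : ℕ) : ℂ) =
      NormedSpace.exp (-((β : ℂ) • H0 t N)) σ σ *
        ((Real.exp (-(c * (nB Finset.univ σ : ℕ))) * (nB Finset.univ σ : ℕ) : ℝ) : ℂ) := by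
    push_cast
    ring
  rw [e2, Complex.re_mul_ofReal]
  unfold gw
  ring

/-- The supporting line at `c` for the partition function. -/
theorem log_ZZ_support (β c : ℝ) :
    Real.log (ZZ t N β c) + (gE (YY t N β c) (NB t Finset.univ) / gE (YY t N β c) 1) * c ≤
      Real.log (ZZ t N β 0) := by
  have hZ : 0 < ∑ σ : Cf (Site N) t, gw t N β σ * Real.exp (-(c * (nB Finset.univ σ : ℕ))) := by
    rw [← ZZ_eq_sum]
    exact ZZ_pos _ _
  have h := log_support_explicit (fun σ : Cf (Site N) t => gw t N β σ)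
    (fun σ => ((nB Finset.univ σ : ℕ) : ℝ)) (fun σ => gw_nonneg β σ) c hZ 0
  rw [← ZZ_eq_sum, ← ZZ_eq_sum, ← Nn_eq_sum, ZZ_eq_gE β c] at h
  rw [ZZ_eq_gE β c]
  linarith

/-- The slope of the finite volume pressure. -/
theorem finite_slope {β : ℝ} (hβ : 0 < β) (h : ℝ) :
    finitePressure t N β h - finitePressure t N β 0 ≤
      h * ((t : ℝ) / 2 - gE (YY t N β (β * h)) (NB t Finset.univ) /
        (gE (YY t N β (β * h)) 1 * (Fintype.card (Site N) : ℝ))) := by
  have h1 := pressure_diff (t := t) (N := N) hβ h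
  have h2 := log_ZZ_support (t := t) (N := N) β (β * h)
  have hL := card_site_pos N
  set L : ℝ := (Fintype.card (Site N) : ℝ) with hLdef
  set Z := gE (YY t N β (β * h)) 1 with hZ
  have hZ0 : 0 < Z := gE_one_pos (YY_isHermitian β (β * h))
  set Nn := gE (YY t N β (β * h)) (NB t Finset.univ) with hNn
  have h3 : (Real.log (ZZ t N β (β * h)) - Real.log (ZZ t N β 0)) / L ≤
      (-(Nn / Z * (β * h))) / L :=
    div_le_div_of_nonneg_right (by linarith) hL.le
  rw [← h1] at h3
  have e : (-(Nn / Z * (β * h))) / L = (-(h * (Nn / (Z * L)))) * β := by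
    field_simp
  rw [e] at h3
  have h4 := le_of_mul_le_mul_right h3 hβ
  have e2 : h * ((t : ℝ) / 2 - Nn / (Z * L)) = h * ((t : ℝ) / 2) + -(h * (Nn / (Z * L))) := by ring
  rw [e2]
  linarith

/-- The explicit function which bounds the one dimensional sum. -/
noncomputable def wwB (y : ℝ) : ℝ := (1 / √(2 * Real.pi * y)) * (1 - 1 / √y)

theorem wwB_nonneg {y : ℝ} (hy : 1 ≤ y) : 0 ≤ wwB y := by
  unfold wwB
  apply mul_nonneg (by positivity)
  have h1 : 1 ≤ √y := Real.one_le_sqrt.mpr hy
  have h2 : 1 / √y ≤ 1 := by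
    rw [div_le_one (by linarith)]
    exact h1
  linarith

/-- The slope bound uniform in the volume. -/
theorem finite_slope_bound (ht : 0 < t) {β h η : ℝ} (hβ : 0 < β) (hh : 0 < h) (hη2 : 16 * η < t)
    (hη0 : 0 < η) (n0 : ℕ) (hx : 1 ≤ β * (t : ℝ) ^ 2 / ((t : ℝ) - 16 * η)) :
    finitePressure t N β h - finitePressure t N β 0 ≤
      h * ((t : ℝ) / 2 - min η ((((t : ℝ) - 16 * η) / t) *
        ∑ n ∈ Finset.range n0, Real.exp (-(((n : ℝ) + 1) * (β * h))) *
          wwB (((n : ℝ) + 1) * (β * (t : ℝ) ^ 2 / ((t : ℝ) - 16 * η))) ^ 3)) := by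
  have ht' : (0 : ℝ) < t := by exact_mod_cast ht
  have hd0 : 0 < (t : ℝ) - 16 * η := by linarith
  refine (finite_slope hβ h).trans (mul_le_mul_of_nonneg_left ?_ hh.le)
  apply sub_le_sub_left
  set Z := gE (YY t N β (β * h)) 1 with hZ
  have hZ0 : 0 < Z := gE_one_pos (YY_isHermitian β (β * h))
  have hL := card_site_pos N
  set L : ℝ := (Fintype.card (Site N) : ℝ) with hLdef
  set Nn := gE (YY t N β (β * h)) (NB t Finset.univ) with hNn
  by_cases hcase : Nn < η * Z * L
  · apply (min_le_right _ _).trans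
    refine le_trans ?_ (density_lower ht hβ hη2 n0 hcase)
    apply mul_le_mul_of_nonneg_left _ (by positivity)
    refine Finset.sum_le_sum fun n _ => ?_
    apply mul_le_mul_of_nonneg_left _ (Real.exp_pos _).le
    have hn1 : (1 : ℝ) ≤ (n : ℝ) + 1 := by
      have : (0 : ℝ) ≤ n := by positivity
      linarith
    set x := β * (t : ℝ) ^ 2 / ((t : ℝ) - 16 * η) with hxdef
    have hy : 1 ≤ ((n : ℝ) + 1) * x := by nlinarith
    apply pow_le_pow_left₀ (wwB_nonneg hy)
    exact RRN_lower N (by linarith)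
  · apply (min_le_left _ _).trans
    push Not at hcase
    rw [le_div_iff₀ (mul_pos hZ0 hL)]
    linarith

/-- The deficit in terms of the explicit function, for every field. -/
theorem deficit_bound (ht : 0 < t) {β h η : ℝ} (hβ : 0 < β) (hh : 0 < h) (hη2 : 16 * η < t)
    (hη0 : 0 < η) (n0 : ℕ) (hx : 1 ≤ β * (t : ℝ) ^ 2 / ((t : ℝ) - 16 * η)) {p : ℝ → ℝ}
    (hp : ∀ h, Tendsto (fun N => finitePressure t N β h) atTop (𝓝 (p h))) {m : ℝ}
    (hm : HasDerivWithinAt p m (Set.Ioi 0) 0) :
    min η ((((t : ℝ) - 16 * η) / t) *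
        ∑ n ∈ Finset.range n0, Real.exp (-(((n : ℝ) + 1) * (β * h))) *
          wwB (((n : ℝ) + 1) * (β * (t : ℝ) ^ 2 / ((t : ℝ) - 16 * η))) ^ 3) ≤ (t : ℝ) / 2 - m := by
  set L := min η ((((t : ℝ) - 16 * η) / t) *
        ∑ n ∈ Finset.range n0, Real.exp (-(((n : ℝ) + 1) * (β * h))) *
          wwB (((n : ℝ) + 1) * (β * (t : ℝ) ^ 2 / ((t : ℝ) - 16 * η))) ^ 3) with hL
  have h1 : p h - p 0 ≤ h * ((t : ℝ) / 2 - L) :=
    le_of_tendsto_of_tendsto' ((hp h).sub (hp 0)) tendsto_const_nhds
      fun N => finite_slope_bound ht hβ hh hη2 hη0 n0 hx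
  have hconv := fun (l : ℝ) (h0 : 0 ≤ l) (h1 : l ≤ 1) => pressure_convex hβ hp h l h0 h1
  have h2 := deriv_le_slope hm hconv hh
  have h3 : (p h - p 0) / h ≤ (t : ℝ) / 2 - L := by
    rw [div_le_iff₀ hh]
    linarith
  linarith

end Vale.Agent.Lib.P361
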