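import Vale.Agent.Lib.P361.Sharp

open scoped Topology
open Filter

set_option linter.unusedSectionVars false

namespace Vale.Agent.Lib.P361

theorem rpow_three_halves {y : ℝ} (hy : 0 < y) : y ^ (3 / 2 : ℝ) = (√y) ^ 3 := by
  rw [Real.sqrt_eq_rpow, ← Real.rpow_natCast, ← Real.rpow_mul hy.le]
  norm_num

theorem rpow_neg_three_halves {y : ℝ} (hy : 0 < y) : y ^ (-(3 / 2 : ℝ)) = 1 / (√y) ^ 3 := by
  rw [Real.rpow_neg hy.le, rpow_three_halves hy, one_div]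

/-- The series for `ζ (3 / 2)`. -/
theorem summable_zeta32 : Summable (fun n : ℕ => 1 / ((n : ℝ) + 1) ^ (3 / 2 : ℝ)) := by
  have h := (Real.summable_one_div_nat_rpow (p := 3 / 2)).mpr (by norm_num)
  have h2 := (summable_nat_add_iff 1).mpr h
  simpa using h2

/-- The value `ζ (3 / 2)`. -/
noncomputable def zeta32 : ℝ := ∑' n : ℕ, 1 / ((n : ℝ) + 1) ^ (3 / 2 : ℝ)

theorem zeta32_pos : 0 < zeta32 := by
  have h := summable_zeta32.sum_le_tsum (Finset.range 1) (fun n _ => by positivity)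
  simp only [Finset.sum_range_one, Nat.cast_zero, zero_add, Real.one_rpow, div_one] at h
  unfold zeta32
  linarith

theorem exists_partial {q : ℝ} (hq : q < 1) : ∃ n0 : ℕ, 1 ≤ n0 ∧
    q * zeta32 ≤ ∑ n ∈ Finset.range n0, 1 / ((n : ℝ) + 1) ^ (3 / 2 : ℝ) := by
  have hT : Tendsto (fun n0 => ∑ n ∈ Finset.range n0, 1 / ((n : ℝ) + 1) ^ (3 / 2 : ℝ)) atTop
      (𝓝 zeta32) := summable_zeta32.hasSum.tendsto_sum_nat
  have hlt : q * zeta32 < zeta32 := by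
    have := zeta32_pos
    nlinarith
  obtain ⟨n0, hn1, hn2⟩ := ((hT.eventually (lt_mem_nhds hlt)).and (eventually_ge_atTop 1)).exists
  exact ⟨n0, hn2, hn1.le⟩

theorem alt_hC {ε β x q δ : ℝ} (hε0 : 0 < ε) (hε1 : ε < 1) (hq : q = 1 - ε / 4)
    (hβ : 0 < β) (hβa : 144 / ε ^ 2 ≤ β) (hxβ : β ≤ x) (hδ : δ = 1 - 1 / √x) :
    0 ≤ δ ∧ q ≤ δ ^ 3 := by
  have hx0 : 0 < x := by linarith
  have hsx0 : 0 < √x := Real.sqrt_pos.mpr hx0
  have hsx : 12 / ε ≤ √x := by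
    apply Real.le_sqrt_of_sq_le
    rw [div_pow]
    norm_num
    linarith
  have hinv : 1 / √x ≤ ε / 12 := by
    rw [div_le_iff₀ hsx0]
    rw [div_le_iff₀ hε0] at hsx
    linarith
  have hδ1 : 1 - ε / 12 ≤ δ := by
    rw [hδ]
    linarith
  have hδ0 : 0 ≤ δ := by linarith
  refine ⟨hδ0, ?_⟩
  have h1 : (1 - ε / 12) ^ 3 ≤ δ ^ 3 := pow_le_pow_left₀ (by linarith) hδ1 3
  have h2 : q ≤ (1 - ε / 12) ^ 3 := by
    rw [hq]
    have hy0 : 0 ≤ ε / 12 := by positivity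
    have hy1 : ε / 12 ≤ 1 := by linarith
    nlinarith [mul_nonneg hy0 hy0, mul_nonneg (mul_nonneg hy0 hy0) (sub_nonneg.mpr hy1)]
  linarith

theorem alt_hD {ε β x u q S R w : ℝ} (hε0 : 0 < ε) (hε1 : ε < 1)
    (hu : u = 1 - ε / 16) (hq : q = 1 - ε / 4) (hβ : 0 < β) (hS : 0 < S)
    (hx : 2 * Real.pi * x = (4 * Real.pi * β * S) / u) (hR : R = √(4 * Real.pi * β * S))
    (hw : w = 1 / √(2 * Real.pi * x)) : q / R ^ 3 ≤ u * w ^ 3 := by
  have hpi := Real.pi_pos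
  have hu0 : 0 < u := by rw [hu]; linarith
  have hu1 : u ≤ 1 := by rw [hu]; linarith
  have hR0 : 0 < R := by
    rw [hR]
    apply Real.sqrt_pos.mpr
    positivity
  have hsu : u ≤ √u := by
    apply Real.le_sqrt_of_sq_le
    nlinarith
  have hsu0 : 0 < √u := Real.sqrt_pos.mpr hu0
  have hwR : w = √u / R := by
    rw [hw, hx, Real.sqrt_div (by positivity), one_div_div, hR]
  rw [hwR, div_pow, ← mul_div_assoc]
  apply div_le_div_of_nonneg_right _ (by positivity)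
  have h1 : u ^ 3 ≤ √u ^ 3 := pow_le_pow_left₀ hu0.le hsu 3
  have h2 : u * u ^ 3 ≤ u * √u ^ 3 := mul_le_mul_of_nonneg_left h1 hu0.le
  have h3 : q ≤ u * u ^ 3 := by
    rw [hq, hu]
    have hy0 : 0 ≤ ε / 16 := by positivity
    have hy1 : ε / 16 ≤ 1 := by linarith
    nlinarith [mul_nonneg hy0 hy0, mul_nonneg (mul_nonneg hy0 hy0) (sub_nonneg.mpr hy1),
      mul_nonneg (mul_nonneg hy0 hy0) hy0]
  linarith

theorem alt_term {ε x c q w δ : ℝ} {n0 n : ℕ} (hε0 : 0 < ε) (hq : q = 1 - ε / 4)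
    (hc : c = ε / (4 * n0)) (hn01 : 1 ≤ n0) (hx0 : 0 < x) (hw0 : 0 ≤ w) (hδ0 : 0 ≤ δ)
    (hw : w = 1 / √(2 * Real.pi * x)) (hδ : δ = 1 - 1 / √x) (hn : n + 1 ≤ n0) :
    q * (w ^ 3 * δ ^ 3 * (1 / ((n : ℝ) + 1) ^ (3 / 2 : ℝ))) ≤
      Real.exp (-(((n : ℝ) + 1) * c)) * wwB (((n : ℝ) + 1) * x) ^ 3 := by
  have hn0' : (0 : ℝ) < n0 := by exact_mod_cast hn01
  have hc0 : 0 < c := by
    rw [hc]
    positivity
  have hsx0 : 0 < √x := Real.sqrt_pos.mpr hx0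
  have hn1 : ((n : ℝ) + 1) ≤ n0 := by exact_mod_cast hn
  have hnpos : (0 : ℝ) < (n : ℝ) + 1 := by positivity
  have hexp : q ≤ Real.exp (-(((n : ℝ) + 1) * c)) := by
    have h1 : ((n : ℝ) + 1) * c ≤ ε / 4 := by
      have : (n0 : ℝ) * c = ε / 4 := by
        rw [hc]
        field_simp
      calc ((n : ℝ) + 1) * c ≤ (n0 : ℝ) * c := mul_le_mul_of_nonneg_right hn1 hc0.le
        _ = ε / 4 := this
    have h2 := Real.add_one_le_exp (-(((n : ℝ) + 1) * c))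
    rw [hq]
    linarith
  have hsn0 : 0 < √((n : ℝ) + 1) := Real.sqrt_pos.mpr hnpos
  have hsn1 : 1 ≤ √((n : ℝ) + 1) := by
    apply Real.one_le_sqrt.mpr
    have : (0 : ℝ) ≤ n := by positivity
    linarith
  have hww : (1 / √((n : ℝ) + 1)) * w * δ ≤ wwB (((n : ℝ) + 1) * x) := by
    unfold wwB
    have e3 : 2 * Real.pi * (((n : ℝ) + 1) * x) = ((n : ℝ) + 1) * (2 * Real.pi * x) := by ring
    rw [e3, Real.sqrt_mul hnpos.le, Real.sqrt_mul hnpos.le]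
    have e4 : 1 / (√((n : ℝ) + 1) * √(2 * Real.pi * x)) = (1 / √((n : ℝ) + 1)) * w := by
      rw [hw]
      field_simp
    rw [e4]
    apply mul_le_mul_of_nonneg_left _ (mul_nonneg (by positivity) hw0)
    rw [hδ]
    have h5 : 1 / (√((n : ℝ) + 1) * √x) ≤ 1 / √x := by
      apply one_div_le_one_div_of_le hsx0
      nlinarith
    linarith
  have hww0 : 0 ≤ (1 / √((n : ℝ) + 1)) * w * δ :=
    mul_nonneg (mul_nonneg (by positivity) hw0) hδ0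
  have hcube := pow_le_pow_left₀ hww0 hww 3
  have e5 : ((1 / √((n : ℝ) + 1)) * w * δ) ^ 3 =
      w ^ 3 * δ ^ 3 * (1 / ((n : ℝ) + 1) ^ (3 / 2 : ℝ)) := by
    rw [rpow_three_halves hnpos]
    rw [mul_pow, mul_pow, div_pow, one_pow]
    ring
  rw [e5] at hcube
  exact mul_le_mul hexp hcube
    (mul_nonneg (mul_nonneg (pow_nonneg hw0 3) (pow_nonneg hδ0 3)) (by positivity))
    (Real.exp_pos _).le

/-- The real estimate for the second alternative. -/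
theorem second_alt {ε β x u c q S R w δ : ℝ} {n0 : ℕ} (hε0 : 0 < ε) (hε1 : ε < 1)
    (hu : u = 1 - ε / 16) (hq : q = 1 - ε / 4) (hc : c = ε / (4 * n0)) (hn01 : 1 ≤ n0)
    (hn0 : q * zeta32 ≤ ∑ n ∈ Finset.range n0, 1 / ((n : ℝ) + 1) ^ (3 / 2 : ℝ))
    (hβ : 0 < β) (hβa : 144 / ε ^ 2 ≤ β) (hxβ : β ≤ x) (hS : 0 < S)
    (hx : 2 * Real.pi * x = (4 * Real.pi * β * S) / u) (hR : R = √(4 * Real.pi * β * S))
    (hw : w = 1 / √(2 * Real.pi * x)) (hδ : δ = 1 - 1 / √x) :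
    (1 - ε) * zeta32 / R ^ 3 ≤ u * ∑ n ∈ Finset.range n0,
        Real.exp (-(((n : ℝ) + 1) * c)) * wwB (((n : ℝ) + 1) * x) ^ 3 := by
  have hpi := Real.pi_pos
  have hZ := zeta32_pos
  have hx0 : 0 < x := by linarith
  have hu0 : 0 < u := by rw [hu]; linarith
  have hR0 : 0 < R := by
    rw [hR]
    apply Real.sqrt_pos.mpr
    positivity
  have hq0 : 0 < q := by rw [hq]; linarith
  obtain ⟨hδ0, hC⟩ := alt_hC hε0 hε1 hq hβ hβa hxβ hδ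
  have hw0 : 0 ≤ w := by
    rw [hw]
    positivity
  have hD := alt_hD hε0 hε1 hu hq hβ hS hx hR hw
  have hA : q * (w ^ 3 * δ ^ 3 * ∑ n ∈ Finset.range n0, 1 / ((n : ℝ) + 1) ^ (3 / 2 : ℝ)) ≤
      ∑ n ∈ Finset.range n0,
      Real.exp (-(((n : ℝ) + 1) * c)) * wwB (((n : ℝ) + 1) * x) ^ 3 := by
    rw [Finset.mul_sum, Finset.mul_sum]
    refine Finset.sum_le_sum fun n hn => ?_
    exact alt_term hε0 hq hc hn01 hx0 hw0 hδ0 hw hδ (Finset.mem_range.mp hn)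
  obtain ⟨P, hP⟩ : ∃ P : ℝ, P = ∑ n ∈ Finset.range n0, 1 / ((n : ℝ) + 1) ^ (3 / 2 : ℝ) := ⟨_, rfl⟩
  rw [← hP] at hA hn0
  obtain ⟨T, hT⟩ : ∃ T : ℝ, T = ∑ n ∈ Finset.range n0,
      Real.exp (-(((n : ℝ) + 1) * c)) * wwB (((n : ℝ) + 1) * x) ^ 3 := ⟨_, rfl⟩
  rw [← hT] at hA ⊢
  -- assembling
  have h6 : u * (q * (w ^ 3 * δ ^ 3 * P)) ≤ u * T := mul_le_mul_of_nonneg_left hA hu0.le
  refine le_trans ?_ h6
  have e7 : u * (q * (w ^ 3 * δ ^ 3 * P)) = q * ((u * w ^ 3) * (δ ^ 3 * P)) := by ring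
  rw [e7]
  have h7 : (q / R ^ 3) * (q * (q * zeta32)) ≤ (u * w ^ 3) * (δ ^ 3 * P) := by
    have hqz : 0 ≤ q * zeta32 := mul_nonneg hq0.le hZ.le
    apply mul_le_mul hD
    · exact mul_le_mul hC hn0 hqz (pow_nonneg hδ0 3)
    · exact mul_nonneg hq0.le hqz
    · exact mul_nonneg hu0.le (pow_nonneg hw0 3)
  have h8 : q * ((q / R ^ 3) * (q * (q * zeta32))) ≤ q * ((u * w ^ 3) * (δ ^ 3 * P)) :=
    mul_le_mul_of_nonneg_left h7 hq0.le
  refine le_trans ?_ h8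
  have e9 : q * ((q / R ^ 3) * (q * (q * zeta32))) = q ^ 4 * zeta32 / R ^ 3 := by ring
  rw [e9]
  apply div_le_div_of_nonneg_right _ (pow_pos hR0 3).le
  apply mul_le_mul_of_nonneg_right _ hZ.le
  rw [hq]
  have hy0 : 0 ≤ ε / 4 := by linarith
  have hy1 : ε / 4 ≤ 1 := by linarith
  nlinarith [mul_nonneg hy0 hy0, mul_nonneg (mul_nonneg hy0 hy0) (sub_nonneg.mpr hy1),
    mul_nonneg (mul_nonneg hy0 hy0) hy0, mul_nonneg (mul_nonneg hy0 hy0) (mul_nonneg hy0 hy0)]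

/-- The real estimate for the first alternative. -/
theorem first_alt {ε β η R : ℝ} (hε0 : 0 < ε) (hε1 : ε < 1) (hη0 : 0 < η) (hβ1 : 1 ≤ β)
    (hβb : (zeta32 / η) ^ 2 ≤ β) (hRβ : √β ≤ R) : (1 - ε) * zeta32 / R ^ 3 ≤ η := by
  have hZ := zeta32_pos
  have hsβ1 : 1 ≤ √β := Real.one_le_sqrt.mpr hβ1
  have hR1 : 1 ≤ R := by linarith
  have hR0 : 0 < R := by linarith
  have hR3 : R ≤ R ^ 3 := by
    have : R ^ 3 = R * R ^ 2 := by ring
    rw [this]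
    have h2 : 1 ≤ R ^ 2 := by nlinarith
    nlinarith
  have h1 : zeta32 / η ≤ √β := by
    apply Real.le_sqrt_of_sq_le hβb
  have h2 : zeta32 / η ≤ R ^ 3 := by linarith
  rw [div_le_iff₀ (by positivity)]
  rw [div_le_iff₀ hη0] at h2
  have h3 : (1 - ε) * zeta32 ≤ zeta32 := by nlinarith
  nlinarith

/-- The core of the asymptotic estimate. -/
theorem sharp_core {t : ℕ} (ht : 0 < t) {ε : ℝ} (hε0 : 0 < ε) (hε1 : ε < 1) :
    ∃ β0 : ℝ, ∀ β : ℝ, β0 ≤ β → ∀ p : ℝ → ℝ,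
      (∀ h, Tendsto (fun N => finitePressure t N β h) atTop (𝓝 (p h))) →
      ∀ m : ℝ, HasDerivWithinAt p m (Set.Ioi 0) 0 →
      (1 - ε) * zeta32 / (√(4 * Real.pi * β * ((t : ℝ) / 2))) ^ 3 ≤ (t : ℝ) / 2 - m := by
  have ht1 : (1 : ℝ) ≤ t := by exact_mod_cast ht
  have ht' : (0 : ℝ) < t := by linarith
  have hpi := Real.pi_pos
  have hpi3 := Real.pi_gt_three
  have hZ := zeta32_pos
  obtain ⟨η, hη⟩ : ∃ η : ℝ, η = (t : ℝ) * ε / 256 := ⟨_, rfl⟩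
  have hη0 : 0 < η := by
    rw [hη]
    positivity
  obtain ⟨u, hu⟩ : ∃ u : ℝ, u = 1 - ε / 16 := ⟨_, rfl⟩
  have hu0 : 0 < u := by rw [hu]; linarith
  have hu1 : u ≤ 1 := by rw [hu]; linarith
  have hd0 : (t : ℝ) - 16 * η = (t : ℝ) * u := by
    rw [hη, hu]
    ring
  have hη2 : 16 * η < t := by
    have : 0 < (t : ℝ) * u := mul_pos ht' hu0
    linarith
  obtain ⟨n0, hn01, hn0⟩ := exists_partial (q := 1 - ε / 4) (by linarith)
  have hn0' : (0 : ℝ) < n0 := by exact_mod_cast hn01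
  refine ⟨144 / ε ^ 2 + (zeta32 / η) ^ 2 + 1, ?_⟩
  intro β hβ0 p hp m hm
  have hβa : 144 / ε ^ 2 ≤ β := by
    have h1 : 0 ≤ (zeta32 / η) ^ 2 := sq_nonneg _
    linarith
  have hβb : (zeta32 / η) ^ 2 ≤ β := by
    have h1 : 0 ≤ 144 / ε ^ 2 := by positivity
    linarith
  have hβ1 : 1 ≤ β := by
    have h1 : 0 ≤ 144 / ε ^ 2 := by positivity
    have h2 : 0 ≤ (zeta32 / η) ^ 2 := sq_nonneg _
    linarith
  have hβ : 0 < β := by linarith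
  obtain ⟨x, hx⟩ : ∃ x : ℝ, x = β * (t : ℝ) / u := ⟨_, rfl⟩
  have hxeq : β * (t : ℝ) ^ 2 / ((t : ℝ) - 16 * η) = x := by
    rw [hd0, hx]
    field_simp
  have hxβ : β ≤ x := by
    rw [hx, le_div_iff₀ hu0]
    have : u ≤ t := by linarith
    nlinarith
  have hx1 : 1 ≤ x := by linarith
  obtain ⟨c, hc⟩ : ∃ c : ℝ, c = ε / (4 * n0) := ⟨_, rfl⟩
  have hc0 : 0 < c := by
    rw [hc]
    positivity
  obtain ⟨h, hh⟩ : ∃ h : ℝ, h = c / β := ⟨_, rfl⟩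
  have hh0 : 0 < h := by
    rw [hh]
    positivity
  have hβh : β * h = c := by
    rw [hh]
    field_simp
  have hdef := deficit_bound ht hβ hh0 hη2 hη0 n0 (by rw [hxeq]; exact hx1) hp hm
  rw [hxeq, hβh, hd0] at hdef
  have e1 : (t : ℝ) * u / t = u := by field_simp
  rw [e1] at hdef
  refine le_trans (le_min ?_ ?_) hdef
  · apply first_alt hε0 hε1 hη0 hβ1 hβb
    apply Real.sqrt_le_sqrt
    have h1 : 1 ≤ 4 * Real.pi * ((t : ℝ) / 2) := by nlinarith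
    nlinarith
  · apply second_alt hε0 hε1 hu rfl hc hn01 hn0 hβ hβa hxβ (by positivity) ?_ rfl rfl rfl
    rw [hx]
    field_simp
    ring

/-- The denominator in Bloch's constant. -/
theorem cube_eq {β S : ℝ} (hβ : 0 < β) (hS : 0 < S) :
    (√(4 * Real.pi * β * S)) ^ 3 =
      (8 * Real.pi ^ (3 / 2 : ℝ) * S ^ (3 / 2 : ℝ)) * β ^ (3 / 2 : ℝ) := by
  have hpi := Real.pi_pos
  rw [rpow_three_halves hpi, rpow_three_halves hS, rpow_three_halves hβ]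
  have e : (4 : ℝ) = 2 ^ 2 := by norm_num
  rw [Real.sqrt_mul (by positivity), Real.sqrt_mul (by positivity),
    Real.sqrt_mul (by positivity), e, Real.sqrt_sq (by norm_num)]
  ring

/-- The sharp lower bound on the magnetization deficit. -/
theorem bloch_sharp (t : ℕ) (ht : 0 < t) (ε : ℝ) (hε : 0 < ε) :
    ∃ β0 : ℝ, ∀ β : ℝ, β0 ≤ β → ∀ p : ℝ → ℝ,
      (∀ h, Tendsto (fun N => finitePressure t N β h) atTop (𝓝 (p h))) →
      ∃ m : ℝ, HasDerivWithinAt p m (Set.Ioi 0) 0 ∧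
        (1 - ε) * ((∑' n : ℕ, 1 / ((n : ℝ) + 1) ^ (3 / 2 : ℝ)) /
          (8 * Real.pi ^ (3 / 2 : ℝ) * ((t : ℝ) / 2) ^ (3 / 2 : ℝ))) * β ^ (-(3 / 2 : ℝ)) ≤
          (t : ℝ) / 2 - m := by
  have ht' : (0 : ℝ) < t := by exact_mod_cast ht
  have hS : (0 : ℝ) < (t : ℝ) / 2 := by positivity
  have hpi := Real.pi_pos
  obtain ⟨ε', hε'⟩ : ∃ ε' : ℝ, ε' = min ε (1 / 2) := ⟨_, rfl⟩
  have hε0 : 0 < ε' := by
    rw [hε']
    exact lt_min hε (by norm_num)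
  have hε1 : ε' < 1 := by
    rw [hε']
    exact lt_of_le_of_lt (min_le_right _ _) (by norm_num)
  have hεle : ε' ≤ ε := by
    rw [hε']
    exact min_le_left _ _
  obtain ⟨β0, hβ0⟩ := sharp_core ht hε0 hε1
  refine ⟨max β0 1, ?_⟩
  intro β hβ p hp
  have hβ1 : 1 ≤ β := (le_max_right _ _).trans hβ
  have hβpos : 0 < β := by linarith
  obtain ⟨m, hm⟩ := pressure_right_deriv (t := t) hβpos hp
  refine ⟨m, hm, ?_⟩
  have h := hβ0 β ((le_max_left _ _).trans hβ) p hp m hm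
  rw [cube_eq hβpos hS] at h
  have hZ := zeta32_pos
  have e : (∑' n : ℕ, 1 / ((n : ℝ) + 1) ^ (3 / 2 : ℝ)) = zeta32 := rfl
  rw [e]
  obtain ⟨D, hD⟩ : ∃ D : ℝ, D = 8 * Real.pi ^ (3 / 2 : ℝ) * ((t : ℝ) / 2) ^ (3 / 2 : ℝ) := ⟨_, rfl⟩
  have hD0 : 0 < D := by
    rw [hD]
    positivity
  obtain ⟨B, hB⟩ : ∃ B : ℝ, B = β ^ (3 / 2 : ℝ) := ⟨_, rfl⟩
  have hB0 : 0 < B := by
    rw [hB]
    positivity
  rw [← hD, ← hB] at h
  rw [← hD, Real.rpow_neg hβpos.le, ← hB]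
  calc (1 - ε) * (zeta32 / D) * B⁻¹ = (1 - ε) * zeta32 / (D * B) := by
        field_simp
    _ ≤ (1 - ε') * zeta32 / (D * B) := by
        apply div_le_div_of_nonneg_right _ (mul_pos hD0 hB0).le
        apply mul_le_mul_of_nonneg_right _ hZ.le
        linarith
    _ ≤ _ := h

end Vale.Agent.Lib.P361
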