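import Vale.Agent.Lib.P361.LowerCell

open scoped Matrix
open Function

set_option linter.unusedSectionVars false

namespace Vale.Agent.Lib.P361

section Cons

variable {Λ : Type} [Fintype Λ] [DecidableEq Λ] {t : ℕ}

theorem onSite_plus_entry {B : Finset Λ} {x : Λ} (hx : x ∈ B) {σ τ : Cf Λ t}
    (h : onSite x (spinPlus t) σ τ ≠ 0) : nB B τ = nB B σ + 1 := by
  rw [onSite_apply] at h
  by_cases hag : ∀ z, z ≠ x → σ z = τ z
  · rw [if_pos hag, spinPlus_apply] at h
    by_cases hk : ((σ x : Fin (t + 1)) : ℕ) + 1 = (τ x : ℕ)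
    · unfold nB
      rw [← Finset.add_sum_erase B _ hx, ← Finset.add_sum_erase B (fun z => (σ z : ℕ)) hx]
      have : ∑ z ∈ B.erase x, (τ z : ℕ) = ∑ z ∈ B.erase x, (σ z : ℕ) := by
        refine Finset.sum_congr rfl fun z hz => ?_
        rw [hag z (Finset.ne_of_mem_erase hz)]
      rw [this, ← hk]
      omega
    · rw [if_neg hk] at h
      exact absurd rfl h
  · rw [if_neg hag] at h
    exact absurd rfl h

theorem onSite_minus_entry {B : Finset Λ} {x : Λ} (hx : x ∈ B) {σ τ : Cf Λ t}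
    (h : onSite x (spinPlus t)ᴴ σ τ ≠ 0) : nB B σ = nB B τ + 1 := by
  rw [← onSite_conjTranspose, Matrix.conjTranspose_apply] at h
  apply onSite_plus_entry hx
  intro h0
  rw [h0] at h
  simp at h

theorem bond_cons {B : Finset Λ} {x y : Λ} (hxy : x ≠ y) (hx : x ∈ B) (hy : y ∈ B) {σ τ : Cf Λ t}
    (h : bond t x y σ τ ≠ 0) : nB B σ = nB B τ := by
  by_cases hst : σ = τ
  · rw [hst]
  rw [bond_eq_sum hxy, Matrix.sub_apply, Matrix.diagonal_apply_ne _ hst, zero_sub,
    neg_ne_zero, Matrix.smul_apply, smul_ne_zero_iff] at h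
  have h2 := h.2
  rw [Matrix.add_apply] at h2
  by_cases h3 : (onSite y (spinPlus t)ᴴ * onSite x (spinPlus t)) σ τ = 0
  · rw [h3, zero_add, Matrix.mul_apply] at h2
    obtain ⟨ρ, _, hρ⟩ := Finset.exists_ne_zero_of_sum_ne_zero h2
    have h4 := onSite_minus_entry hx (left_ne_zero_of_mul hρ)
    have h5 := onSite_plus_entry hy (right_ne_zero_of_mul hρ)
    omega
  · rw [Matrix.mul_apply] at h3
    obtain ⟨ρ, _, hρ⟩ := Finset.exists_ne_zero_of_sum_ne_zero h3
    have h4 := onSite_minus_entry hy (left_ne_zero_of_mul hρ)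
    have h5 := onSite_plus_entry hx (right_ne_zero_of_mul hρ)
    omega

theorem commute_NB_of_cons {B : Finset Λ} {O : Matrix (Cf Λ t) (Cf Λ t) ℂ}
    (h : ∀ σ τ, O σ τ ≠ 0 → nB B σ = nB B τ) : Commute O (NB t B) := by
  ext σ τ
  simp only [NB]
  rw [Matrix.mul_diagonal, Matrix.diagonal_mul]
  by_cases h0 : O σ τ = 0
  · simp [h0]
  · rw [h σ τ h0, mul_comm]

end Cons

variable {t N : ℕ}

theorem H0_commute : Commute (H0 t N) (NB t Finset.univ) := by
  unfold H0
  refine Commute.sum_left _ _ _ fun j _ => Commute.sum_left _ _ _ fun x hx => ?_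
  exact commute_NB_of_cons fun σ τ h =>
    bond_cons (nxt_ne (Finset.mem_filter.mp hx).2) (Finset.mem_univ _) (Finset.mem_univ _) h

/-! ### Shift of the ground state energy -/

/-- The number of edges of the box. -/
def edgeCount (N : ℕ) : ℕ :=
  ∑ j : Fin 3, (Finset.univ.filter (fun x : Site N => (x j : ℕ) < 2 * N)).card

theorem heisenberg_eq :
    heisenberg t N = H0 t N - (((edgeCount N : ℝ) * ((t : ℝ) / 2) ^ 2 : ℝ) : ℂ) • 1 := by
  unfold heisenberg H0 edgeCount
  rw [← Finset.sum_neg_distrib]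
  push_cast
  rw [Finset.sum_mul, Finset.sum_smul, ← Finset.sum_sub_distrib]
  refine Finset.sum_congr rfl fun j _ => ?_
  rw [← Finset.sum_neg_distrib]
  have e : ((Finset.univ.filter (fun x : Site N => (x j : ℕ) < 2 * N)).card : ℂ) * ((t : ℂ) / 2) ^ 2
      = ∑ _x ∈ Finset.univ.filter (fun x : Site N => (x j : ℕ) < 2 * N), ((t : ℂ) / 2) ^ 2 := by
    simp
  rw [e, Finset.sum_smul, ← Finset.sum_sub_distrib]
  refine Finset.sum_congr rfl fun x _ => ?_
  show -dotS t x (nxt x j) = _
  rw [bond]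
  abel

theorem magnetization_eq :
    magnetization t N =
      (((Fintype.card (Site N) : ℝ) * ((t : ℝ) / 2) : ℝ) : ℂ) • 1 - NB t Finset.univ := by
  unfold magnetization
  rw [NB_eq_sum]
  have e : ∀ x : Site N, onSite x (spin3 t) =
      (((t : ℝ) / 2 : ℝ) : ℂ) • (1 : Matrix (Cf (Site N) t) (Cf (Site N) t) ℂ) - onSite x (numOp t) := by
    intro x
    rw [spin3_eq, onSite_sub, onSite_smul, onSite_one]
    push_cast
    rfl
  simp only [e]
  rw [Finset.sum_sub_distrib]
  congr 1
  rw [Finset.sum_const, Finset.card_univ, ← Nat.cast_smul_eq_nsmul ℂ, smul_smul]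
  congr 1
  push_cast
  rfl

theorem exp_scalar_add (a : ℝ) (A : Matrix (Cf (Site N) t) (Cf (Site N) t) ℂ) :
    NormedSpace.exp ((a : ℂ) • (1 : Matrix (Cf (Site N) t) (Cf (Site N) t) ℂ) + A) =
      ((Real.exp a : ℝ) : ℂ) • NormedSpace.exp A := by
  have hc : Commute ((a : ℂ) • (1 : Matrix (Cf (Site N) t) (Cf (Site N) t) ℂ)) A :=
    (Commute.one_left A).smul_left _
  rw [Matrix.exp_add_of_commute _ _ hc, exp_smul_idempotent (by simp) a, add_mul, one_mul,
    Matrix.smul_mul, one_mul, add_comm]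
  have e : ((Real.exp a : ℝ) : ℂ) = ((Real.exp a - 1 : ℝ) : ℂ) + 1 := by
    push_cast
    ring
  rw [e, add_smul, one_smul]

/-- The partition function with the field term, in terms of the shifted Hamiltonian. -/
noncomputable def ZZ (t N : ℕ) (β c : ℝ) : ℝ :=
  (Matrix.trace (NormedSpace.exp (-((β : ℂ) • H0 t N + (c : ℂ) • NB t Finset.univ)))).re

theorem ZZ_pos (β c : ℝ) : 0 < ZZ t N β c := by
  apply trace_exp_re_pos
  exact (Matrix.IsHermitian.add (isHermitian_smul_real H0_isHermitian _)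
      (isHermitian_smul_real (NB_isHermitian _) _)).neg

/-- The finite volume pressure in terms of `ZZ`. -/
theorem finitePressure_eq {β : ℝ} (hβ : β ≠ 0) (h : ℝ) :
    finitePressure t N β h =
      (edgeCount N : ℝ) * ((t : ℝ) / 2) ^ 2 / (Fintype.card (Site N) : ℝ) + h * ((t : ℝ) / 2)
        + Real.log (ZZ t N β (β * h)) / (β * (Fintype.card (Site N) : ℝ)) := by
  have hcard : (0 : ℝ) < (Fintype.card (Site N) : ℝ) := by
    exact_mod_cast Fintype.card_pos
  set L : ℝ := (Fintype.card (Site N) : ℝ) with hL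
  set a : ℝ := β * ((edgeCount N : ℝ) * ((t : ℝ) / 2) ^ 2 + h * (L * ((t : ℝ) / 2))) with ha
  have e : (((-β : ℝ) : ℂ)) • (heisenberg t N - (h : ℂ) • magnetization t N) =
      (a : ℂ) • (1 : Matrix (Cf (Site N) t) (Cf (Site N) t) ℂ) +
        (-((β : ℂ) • H0 t N + (((β * h : ℝ)) : ℂ) • NB t Finset.univ)) := by
    rw [heisenberg_eq, magnetization_eq, ha, ← hL]
    push_cast
    module
  unfold finitePressure
  rw [e, exp_scalar_add, Matrix.trace_smul, ← hL]
  have e2 : (((Real.exp a : ℝ) : ℂ) • Matrix.trace (NormedSpace.exp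
      (-((β : ℂ) • H0 t N + (((β * h : ℝ)) : ℂ) • NB t Finset.univ)))).re =
      Real.exp a * ZZ t N β (β * h) := by
    rw [smul_eq_mul, Complex.re_ofReal_mul]
    rfl
  rw [e2, Real.log_mul (Real.exp_pos _).ne' (ZZ_pos _ _).ne', Real.log_exp, ha]
  field_simp

/-! ### Convexity -/

/-- The supporting line for the logarithm of a sum of exponentials. -/
theorem log_sum_support {ι : Type} [Fintype ι] (w n : ι → ℝ) (hw : ∀ i, 0 ≤ w i) (c : ℝ)
    (hZ : 0 < ∑ i, w i * Real.exp (-(c * n i))) :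
    ∃ s : ℝ, ∀ c' : ℝ, 0 < ∑ i, w i * Real.exp (-(c' * n i)) →
      Real.log (∑ i, w i * Real.exp (-(c * n i))) + s * (c' - c) ≤
        Real.log (∑ i, w i * Real.exp (-(c' * n i))) := by
  set Z := ∑ i, w i * Real.exp (-(c * n i)) with hZdef
  set nb : ℝ := (∑ i, w i * Real.exp (-(c * n i)) * n i) / Z with hnb
  refine ⟨-nb, fun c' hZ' => ?_⟩
  have key : Z * Real.exp (-(c' - c) * nb) ≤ ∑ i, w i * Real.exp (-(c' * n i)) := by
    have h1 : ∀ i, w i * Real.exp (-(c * n i)) * (Real.exp (-(c' - c) * nb) *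
        (1 + (-(c' - c) * (n i - nb)))) ≤ w i * Real.exp (-(c' * n i)) := by
      intro i
      have h2 : 1 + (-(c' - c) * (n i - nb)) ≤ Real.exp (-(c' - c) * (n i - nb)) := by
        have := Real.add_one_le_exp (-(c' - c) * (n i - nb))
        linarith
      have h3 : Real.exp (-(c * n i)) * (Real.exp (-(c' - c) * nb) *
          Real.exp (-(c' - c) * (n i - nb))) = Real.exp (-(c' * n i)) := by
        rw [← Real.exp_add, ← Real.exp_add]
        congr 1
        ring
      have h4 : 0 ≤ w i * Real.exp (-(c * n i)) * Real.exp (-(c' - c) * nb) :=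
        mul_nonneg (mul_nonneg (hw i) (Real.exp_pos _).le) (Real.exp_pos _).le
      calc w i * Real.exp (-(c * n i)) * (Real.exp (-(c' - c) * nb) *
            (1 + (-(c' - c) * (n i - nb))))
          = w i * Real.exp (-(c * n i)) * Real.exp (-(c' - c) * nb) *
            (1 + (-(c' - c) * (n i - nb))) := by ring
        _ ≤ w i * Real.exp (-(c * n i)) * Real.exp (-(c' - c) * nb) *
            Real.exp (-(c' - c) * (n i - nb)) := mul_le_mul_of_nonneg_left h2 h4
        _ = w i * (Real.exp (-(c * n i)) * (Real.exp (-(c' - c) * nb) *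
            Real.exp (-(c' - c) * (n i - nb)))) := by ring
        _ = _ := by rw [h3]
    refine le_trans (le_of_eq ?_) (Finset.sum_le_sum fun i _ => h1 i)
    have h5 : ∑ i, w i * Real.exp (-(c * n i)) * (n i - nb) = 0 := by
      have e3 : ∑ i, w i * Real.exp (-(c * n i)) * (n i - nb) =
          (∑ i, w i * Real.exp (-(c * n i)) * n i) - Z * nb := by
        rw [hZdef, Finset.sum_mul, ← Finset.sum_sub_distrib]
        refine Finset.sum_congr rfl fun i _ => by ring
      rw [e3, hnb]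
      field_simp
      ring
    have e4 : ∀ i, w i * Real.exp (-(c * n i)) * (Real.exp (-(c' - c) * nb) *
        (1 + (-(c' - c) * (n i - nb)))) =
        Real.exp (-(c' - c) * nb) * (w i * Real.exp (-(c * n i))) +
          Real.exp (-(c' - c) * nb) * (-(c' - c)) * (w i * Real.exp (-(c * n i)) * (n i - nb)) := by
      intro i
      ring
    simp only [e4]
    rw [Finset.sum_add_distrib, ← Finset.mul_sum, ← Finset.mul_sum, h5, mul_zero, add_zero, ← hZdef,
      mul_comm]
  have h6 := Real.log_le_log (by positivity) key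
  rw [Real.log_mul hZ.ne' (Real.exp_pos _).ne', Real.log_exp] at h6
  linarith

/-- The diagonal weights of the Gibbs operator of `H0`. -/
noncomputable def gw (t N : ℕ) (β : ℝ) (σ : Cf (Site N) t) : ℝ :=
  (NormedSpace.exp (-((β : ℂ) • H0 t N)) σ σ).re

theorem gw_nonneg (β : ℝ) (σ : Cf (Site N) t) : 0 ≤ gw t N β σ := by
  set X : Matrix (Cf (Site N) t) (Cf (Site N) t) ℂ := -(((β / 2 : ℝ) : ℂ) • H0 t N) with hX
  have hXh : X.IsHermitian := (isHermitian_smul_real H0_isHermitian _).neg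
  have e : -((β : ℂ) • H0 t N) = X + X := by
    rw [hX, ← neg_add, ← add_smul]
    congr 2
    push_cast
    ring
  have hexpH : (NormedSpace.exp X)ᴴ = NormedSpace.exp X := by
    rw [← Matrix.exp_conjTranspose, hXh.eq]
  unfold gw
  rw [e, Matrix.exp_add_of_commute _ _ (Commute.refl X)]
  rw [Matrix.mul_apply, Complex.re_sum]
  refine Finset.sum_nonneg fun τ _ => ?_
  have h : NormedSpace.exp X τ σ = star (NormedSpace.exp X σ τ) := by
    conv_lhs => rw [← hexpH]
    rfl
  rw [h, Complex.star_def, Complex.mul_conj, Complex.ofReal_re]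
  exact Complex.normSq_nonneg _

theorem ZZ_eq_sum (β c : ℝ) :
    ZZ t N β c = ∑ σ : Cf (Site N) t, gw t N β σ * Real.exp (-(c * (nB Finset.univ σ : ℕ))) := by
  have hc : Commute (-((β : ℂ) • H0 t N)) (-((c : ℂ) • NB t Finset.univ)) := by
    apply Commute.neg_left
    apply Commute.neg_right
    exact (H0_commute.smul_left _).smul_right _
  unfold ZZ
  rw [neg_add, Matrix.exp_add_of_commute _ _ hc, exp_NB, Matrix.trace, Complex.re_sum]
  refine Finset.sum_congr rfl fun σ _ => ?_
  rw [Matrix.diag_apply, Matrix.mul_diagonal, Complex.re_mul_ofReal]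
  congr 1
  rw [← Real.exp_nat_mul]
  congr 1
  ring

/-- Convexity of the logarithm of the partition function. -/
theorem log_ZZ_convex (β c0 c1 l : ℝ) (hl0 : 0 ≤ l) (hl1 : l ≤ 1) :
    Real.log (ZZ t N β ((1 - l) * c0 + l * c1)) ≤
      (1 - l) * Real.log (ZZ t N β c0) + l * Real.log (ZZ t N β c1) := by
  set c := (1 - l) * c0 + l * c1 with hc
  have hZ : 0 < ∑ σ : Cf (Site N) t, gw t N β σ * Real.exp (-(c * (nB Finset.univ σ : ℕ))) := by
    rw [← ZZ_eq_sum]
    exact ZZ_pos _ _
  obtain ⟨s, hs⟩ := log_sum_support (fun σ : Cf (Site N) t => gw t N β σ)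
    (fun σ => ((nB Finset.univ σ : ℕ) : ℝ)) (fun σ => gw_nonneg β σ) c hZ
  have h0 := hs c0 (by rw [← ZZ_eq_sum]; exact ZZ_pos _ _)
  have h1 := hs c1 (by rw [← ZZ_eq_sum]; exact ZZ_pos _ _)
  simp only [← ZZ_eq_sum] at h0 h1
  have h2 := mul_le_mul_of_nonneg_left h0 (by linarith : (0 : ℝ) ≤ 1 - l)
  have h3 := mul_le_mul_of_nonneg_left h1 hl0
  have h4 : (1 - l) * (s * (c0 - c)) + l * (s * (c1 - c)) = 0 := by
    rw [hc]
    ring
  nlinarith

end Vale.Agent.Lib.P361
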