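import Vale.Agent.Lib.P361.Local
import Vale.Agent.Lib.P361.Peierls

open scoped Matrix
open Function

set_option linter.unusedSectionVars false

namespace Vale.Agent.Lib.P361

/-! ### One site matrices -/

/-- Schwinger annihilator `a` between levels: the diagonal matrix with entries `sqrt (t - k)`. -/
noncomputable def amat (t : ℕ) : Matrix (Fin (t + 1)) (Fin (t + 1)) ℂ :=
  Matrix.diagonal fun k => ((Real.sqrt ((t : ℝ) - (k : ℕ)) : ℝ) : ℂ)

/-- Schwinger annihilator `b`: entries `b (k, k + 1) = sqrt (k + 1)`. -/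
noncomputable def bmat (t : ℕ) : Matrix (Fin (t + 1)) (Fin (t + 1)) ℂ :=
  Matrix.of fun k l => if (k : ℕ) + 1 = (l : ℕ) then ((Real.sqrt ((k : ℕ) + 1) : ℝ) : ℂ) else 0

/-- The number matrix, diagonal with entries `k`. -/
noncomputable def numOp (t : ℕ) : Matrix (Fin (t + 1)) (Fin (t + 1)) ℂ :=
  Matrix.diagonal fun k => ((k : ℕ) : ℂ)

variable {t : ℕ}

theorem spin3_eq : spin3 t = ((t : ℂ) / 2) • (1 : Matrix _ _ ℂ) - numOp t := by
  ext i j
  by_cases h : i = j
  · subst h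
    simp [spin3, numOp]
  · simp [spin3, numOp, h]

theorem t_sub_nonneg (k : Fin (t + 1)) : (0 : ℝ) ≤ (t : ℝ) - (k : ℕ) := by
  have : ((k : ℕ) : ℝ) ≤ t := by exact_mod_cast Nat.lt_succ_iff.mp k.2
  linarith

theorem amat_conj_mul : (amat t)ᴴ * amat t = (t : ℂ) • (1 : Matrix _ _ ℂ) - numOp t := by
  ext i j
  by_cases h : i = j
  · subst h
    simp only [amat, Matrix.diagonal_conjTranspose, Matrix.diagonal_mul_diagonal,
      Matrix.diagonal_apply_eq, Matrix.sub_apply, Matrix.smul_apply, Matrix.one_apply_eq, numOp,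
      smul_eq_mul, mul_one, Pi.star_apply]
    rw [Complex.star_def, Complex.conj_ofReal, ← Complex.ofReal_mul,
      Real.mul_self_sqrt (t_sub_nonneg i)]
    push_cast
    ring
  · simp [amat, numOp, h]

theorem bmat_conj_mul : (bmat t)ᴴ * bmat t = numOp t := by
  ext i j
  rw [Matrix.mul_apply]
  simp only [Matrix.conjTranspose_apply, bmat, Matrix.of_apply, numOp]
  by_cases hi : (i : ℕ) = 0
  · have hzero : ∀ m : Fin (t + 1), star (if (m : ℕ) + 1 = (i : ℕ)
        then ((Real.sqrt ((m : ℕ) + 1) : ℝ) : ℂ) else 0) = 0 := by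
      intro m
      rw [if_neg (by omega), star_zero]
    simp only [hzero, zero_mul, Finset.sum_const_zero]
    by_cases h : i = j
    · subst h
      simp [hi]
    · rw [Matrix.diagonal_apply_ne _ h]
  · have hpos : 0 < (i : ℕ) := Nat.pos_of_ne_zero hi
    let m0 : Fin (t + 1) := ⟨(i : ℕ) - 1, by have := i.2; omega⟩
    rw [Finset.sum_eq_single m0]
    · have hm0 : (m0 : ℕ) + 1 = (i : ℕ) := by simp [m0]; omega
      rw [if_pos hm0]
      by_cases h : i = j
      · subst h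
        rw [if_pos hm0, Matrix.diagonal_apply_eq, Complex.star_def, Complex.conj_ofReal,
          ← Complex.ofReal_mul, Real.mul_self_sqrt (by positivity)]
        have : ((m0 : ℕ) : ℝ) + 1 = (i : ℕ) := by exact_mod_cast hm0
        rw [this]
        simp
      · have hne : (m0 : ℕ) + 1 ≠ (j : ℕ) := by
          intro he
          apply h
          apply Fin.ext
          omega
        rw [if_neg hne, Matrix.diagonal_apply_ne _ h, mul_zero]
    · intro m _ hm
      have hne : (m : ℕ) + 1 ≠ (i : ℕ) := by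
        intro he
        apply hm
        apply Fin.ext
        simp [m0]
        omega
      rw [if_neg hne, star_zero, zero_mul]
    · intro hn
      exact absurd (Finset.mem_univ _) hn

theorem amat_conj_mul_bmat : (amat t)ᴴ * bmat t = spinPlus t := by
  ext i j
  simp only [amat, Matrix.diagonal_conjTranspose, Matrix.diagonal_mul, bmat, Matrix.of_apply,
    spinPlus, Pi.star_apply]
  by_cases h : (i : ℕ) + 1 = (j : ℕ)
  · rw [if_pos h, if_pos h, Complex.star_def, Complex.conj_ofReal, ← Complex.ofReal_mul,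
      ← Real.sqrt_mul (t_sub_nonneg i)]
    congr 2
    ring
  · rw [if_neg h, if_neg h, mul_zero]

theorem bmat_conj_mul_amat : (bmat t)ᴴ * amat t = (spinPlus t)ᴴ := by
  rw [← amat_conj_mul_bmat, Matrix.conjTranspose_mul, Matrix.conjTranspose_conjTranspose]

theorem numOp_isHermitian : (numOp t).IsHermitian := by
  rw [numOp]
  apply Matrix.isHermitian_diagonal_of_self_adjoint
  funext k
  simp

/-! ### Quadratic forms -/

variable {Λ : Type} [Fintype Λ] [DecidableEq Λ]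

section nsq
variable {n : Type} [Fintype n] [DecidableEq n]

/-- Squared norm of a vector. -/
noncomputable def nsq (ψ : n → ℂ) : ℝ := (star ψ ⬝ᵥ ψ).re

theorem nsq_eq_sum (ψ : n → ℂ) : nsq ψ = ∑ σ, ‖ψ σ‖ ^ 2 := by
  simp only [nsq, dotProduct, Pi.star_apply, Complex.re_sum]
  refine Finset.sum_congr rfl fun σ _ => ?_
  rw [Complex.star_def, ← Complex.normSq_eq_conj_mul_self, Complex.normSq_eq_norm_sq]
  exact_mod_cast Complex.ofReal_re _

theorem nsq_nonneg (ψ : n → ℂ) : 0 ≤ nsq ψ := by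
  rw [nsq_eq_sum]
  positivity

theorem qf_conj_mul (B : Matrix n n ℂ) (ψ : n → ℂ) : qf (Bᴴ * B) ψ = nsq (B *ᵥ ψ) := by
  simp only [qf, nsq]
  rw [← Matrix.mulVec_mulVec, Matrix.star_mulVec, Matrix.dotProduct_mulVec]

theorem qf_add (A B : Matrix n n ℂ) (ψ : n → ℂ) : qf (A + B) ψ = qf A ψ + qf B ψ := by
  simp [qf, Matrix.add_mulVec, dotProduct_add]

theorem qf_sub (A B : Matrix n n ℂ) (ψ : n → ℂ) : qf (A - B) ψ = qf A ψ - qf B ψ := by
  simp [qf, Matrix.sub_mulVec, dotProduct_sub]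

theorem qf_smul (c : ℝ) (A : Matrix n n ℂ) (ψ : n → ℂ) : qf ((c : ℂ) • A) ψ = c * qf A ψ := by
  simp [qf, Matrix.smul_mulVec, dotProduct_smul]

theorem qf_sum {ι : Type} (s : Finset ι) (A : ι → Matrix n n ℂ) (ψ : n → ℂ) :
    qf (∑ i ∈ s, A i) ψ = ∑ i ∈ s, qf (A i) ψ := by
  classical
  induction s using Finset.induction_on with
  | empty => simp [qf]
  | insert a s ha ih => rw [Finset.sum_insert ha, Finset.sum_insert ha, qf_add, ih]

theorem qf_one (ψ : n → ℂ) : qf (1 : Matrix n n ℂ) ψ = nsq ψ := by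
  simp [qf, nsq]

theorem qf_zero (ψ : n → ℂ) : qf (0 : Matrix n n ℂ) ψ = 0 := by
  simp [qf]

theorem nsq_add_le (u v : n → ℂ) {s : ℝ} (hs : 0 < s) :
    nsq (u + v) ≤ (1 + s) * nsq u + (1 + 1 / s) * nsq v := by
  simp only [nsq_eq_sum, Finset.mul_sum, ← Finset.sum_add_distrib]
  refine Finset.sum_le_sum fun σ _ => ?_
  have h1 : ‖(u + v) σ‖ ≤ ‖u σ‖ + ‖v σ‖ := norm_add_le _ _
  have h2 : ‖(u + v) σ‖ ^ 2 ≤ (‖u σ‖ + ‖v σ‖) ^ 2 := by
    gcongr
  have h3 : 0 ≤ (s * ‖u σ‖ - ‖v σ‖) ^ 2 / s := by positivity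
  have h4 : (s * ‖u σ‖ - ‖v σ‖) ^ 2 / s = s * ‖u σ‖ ^ 2 - 2 * ‖u σ‖ * ‖v σ‖ + ‖v σ‖ ^ 2 / s := by
    field_simp
    ring
  have h5 : (1 + 1 / s) * ‖v σ‖ ^ 2 = ‖v σ‖ ^ 2 + ‖v σ‖ ^ 2 / s := by
    field_simp
  nlinarith

theorem nsq_sub_le_two (u v : n → ℂ) : nsq (u - v) ≤ 2 * nsq u + 2 * nsq v := by
  simp only [nsq_eq_sum, Finset.mul_sum, ← Finset.sum_add_distrib]
  refine Finset.sum_le_sum fun σ _ => ?_
  have h1 : ‖(u - v) σ‖ ≤ ‖u σ‖ + ‖v σ‖ := norm_sub_le _ _
  have h2 : ‖(u - v) σ‖ ^ 2 ≤ (‖u σ‖ + ‖v σ‖) ^ 2 := by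
    gcongr
  nlinarith [sq_nonneg (‖u σ‖ - ‖v σ‖)]

end nsq

/-! ### The bond operator -/

/-- The operator `Ω_xy = a_x b_y - b_x a_y`. -/
noncomputable def omegaOp (t : ℕ) (x y : Λ) : Matrix (Cf Λ t) (Cf Λ t) ℂ :=
  onSite x (amat t) * onSite y (bmat t) - onSite x (bmat t) * onSite y (amat t)

/-- The bond operator `S ^ 2 - S_x · S_y`, nonnegative with zero ground state energy. -/
noncomputable def bond (t : ℕ) (x y : Λ) : Matrix (Cf Λ t) (Cf Λ t) ℂ :=
  (((t : ℂ) / 2) ^ 2) • (1 : Matrix (Cf Λ t) (Cf Λ t) ℂ) - dotS t x y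

theorem dotS_eq {x y : Λ} :
    dotS t x y = onSite x (spin3 t) * onSite y (spin3 t)
      + (1 / 2 : ℂ) • (onSite x (spinPlus t) * onSite y (spinPlus t)ᴴ
        + onSite x (spinPlus t)ᴴ * onSite y (spinPlus t)) := by
  simp only [dotS, spin1, spin2, onSite_smul, onSite_add, onSite_sub, Matrix.smul_mul,
    Matrix.mul_smul, smul_smul, mul_add, add_mul, mul_sub, sub_mul, smul_add, smul_sub]
  have hI : (-Complex.I / 2) * (-Complex.I / 2) = -(1 / 4 : ℂ) := by
    have : Complex.I * Complex.I = -1 := Complex.I_mul_I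
    linear_combination (1 / 4 : ℂ) * this
  rw [hI]
  have h12 : (1 / 2 : ℂ) * (1 / 2) = 1 / 4 := by norm_num
  rw [h12]
  set u := onSite x (spinPlus t) * onSite y (spinPlus t)
  set v := onSite x (spinPlus t) * onSite y (spinPlus t)ᴴ
  set w := onSite x (spinPlus t)ᴴ * onSite y (spinPlus t)
  set r := onSite x (spinPlus t)ᴴ * onSite y (spinPlus t)ᴴ
  have e : (1 / 2 : ℂ) = 1 / 4 + 1 / 4 := by norm_num
  rw [e]
  simp only [add_smul, neg_smul, smul_add]
  abel

theorem conj_mul_helper {x y : Λ} (hxy : x ≠ y) (A B C D : Matrix (Fin (t + 1)) (Fin (t + 1)) ℂ) :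
    (onSite y A * onSite x B) * (onSite x C * onSite y D) =
      onSite x (B * C) * onSite y (A * D) := by
  rw [← onSite_mul x B C, ← onSite_mul y A D]
  calc onSite y A * onSite x B * (onSite x C * onSite y D)
      = onSite y A * (onSite x B * onSite x C) * onSite y D := by
        simp only [mul_assoc]
    _ = onSite y A * (onSite x (B * C)) * onSite y D := by rw [onSite_mul]
    _ = onSite x (B * C) * onSite y A * onSite y D := by
        rw [onSite_comm hxy.symm]
    _ = onSite x B * onSite x C * (onSite y A * onSite y D) := by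
        rw [onSite_mul, mul_assoc]

theorem omega_conjTranspose (x y : Λ) :
    (omegaOp t x y)ᴴ = onSite y (bmat t)ᴴ * onSite x (amat t)ᴴ
      - onSite y (amat t)ᴴ * onSite x (bmat t)ᴴ := by
  simp [omegaOp, Matrix.conjTranspose_sub, Matrix.conjTranspose_mul, onSite_conjTranspose]

/-- `2 (S ^ 2 - S_x · S_y) = Ω† Ω`. -/
theorem two_bond_eq {x y : Λ} (hxy : x ≠ y) :
    (2 : ℂ) • bond t x y = (omegaOp t x y)ᴴ * omegaOp t x y := by
  rw [omega_conjTranspose, omegaOp, bond, dotS_eq]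
  simp only [sub_mul, mul_sub]
  rw [conj_mul_helper hxy, conj_mul_helper hxy, conj_mul_helper hxy, conj_mul_helper hxy,
    amat_conj_mul, bmat_conj_mul, amat_conj_mul_bmat, bmat_conj_mul_amat, spin3_eq]
  simp only [onSite_sub, onSite_smul, onSite_one, sub_mul, mul_sub, Matrix.smul_mul, Matrix.mul_smul,
    Matrix.one_mul, Matrix.mul_one, smul_sub, smul_add, smul_smul]
  module

theorem omega_antisymm {x y : Λ} (hxy : x ≠ y) : omegaOp t y x = - omegaOp t x y := by
  simp only [omegaOp]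
  rw [onSite_comm hxy.symm (amat t) (bmat t), onSite_comm hxy.symm (bmat t) (amat t)]
  abel

/-- On a distinct pair the bond is half of `Ω† Ω`. -/
theorem qf_bond {x y : Λ} (hxy : x ≠ y) (ψ : Cf Λ t → ℂ) :
    qf (bond t x y) ψ = (1 / 2) * nsq (omegaOp t x y *ᵥ ψ) := by
  have h : bond t x y = ((1 / 2 : ℝ) : ℂ) • ((omegaOp t x y)ᴴ * omegaOp t x y) := by
    rw [← two_bond_eq hxy, smul_smul]
    norm_num
  rw [h, qf_smul, qf_conj_mul]

theorem bond_isHermitian {x y : Λ} (hxy : x ≠ y) : (bond t x y).IsHermitian := by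
  have h : bond t x y = ((1 / 2 : ℝ) : ℂ) • ((omegaOp t x y)ᴴ * omegaOp t x y) := by
    rw [← two_bond_eq hxy, smul_smul]
    norm_num
  rw [h]
  unfold Matrix.IsHermitian
  rw [Matrix.conjTranspose_smul, Matrix.conjTranspose_mul, Matrix.conjTranspose_conjTranspose]
  simp

/-- Local decomposition of the constant `t = a† a + b† b`. -/
theorem sum_nsq_local (y : Λ) (φ : Cf Λ t → ℂ) :
    nsq (onSite y (amat t) *ᵥ φ) + nsq (onSite y (bmat t) *ᵥ φ) = t * nsq φ := by
  rw [← qf_conj_mul, ← qf_conj_mul, ← qf_add, onSite_conjTranspose, onSite_conjTranspose,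
    onSite_mul, onSite_mul, amat_conj_mul, bmat_conj_mul, ← onSite_add, sub_add_cancel,
    onSite_smul, onSite_one]
  have : qf ((t : ℂ) • (1 : Matrix (Cf Λ t) (Cf Λ t) ℂ)) φ = t * qf 1 φ := by
    exact_mod_cast qf_smul (t : ℝ) (1 : Matrix (Cf Λ t) (Cf Λ t) ℂ) φ
  rw [this, qf_one]

theorem plucker_a {x y z : Λ} (hxy : x ≠ y) (hyz : y ≠ z) (hxz : x ≠ z) :
    onSite y (amat t) * omegaOp t x z =
      onSite z (amat t) * omegaOp t x y + onSite x (amat t) * omegaOp t y z := by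
  simp only [omegaOp, mul_sub]
  have e1 : onSite y (amat t) * (onSite x (amat t) * onSite z (bmat t)) =
      onSite x (amat t) * (onSite y (amat t) * onSite z (bmat t)) := by
    rw [← mul_assoc, ← mul_assoc, onSite_comm hxy.symm]
  have e2 : onSite y (amat t) * (onSite x (bmat t) * onSite z (amat t)) =
      onSite z (amat t) * (onSite x (bmat t) * onSite y (amat t)) := by
    rw [← mul_assoc, onSite_comm hxy.symm, mul_assoc, onSite_comm hyz, ← mul_assoc,
      onSite_comm hxz, mul_assoc]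
  have e3 : onSite z (amat t) * (onSite x (amat t) * onSite y (bmat t)) =
      onSite x (amat t) * (onSite y (bmat t) * onSite z (amat t)) := by
    rw [← mul_assoc, onSite_comm hxz.symm, mul_assoc, onSite_comm hyz.symm]
  rw [e1, e2, e3]
  abel

theorem plucker_b {x y z : Λ} (hxy : x ≠ y) (hyz : y ≠ z) (hxz : x ≠ z) :
    onSite y (bmat t) * omegaOp t x z =
      onSite z (bmat t) * omegaOp t x y + onSite x (bmat t) * omegaOp t y z := by
  simp only [omegaOp, mul_sub]
  have e1 : onSite y (bmat t) * (onSite x (amat t) * onSite z (bmat t)) =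
      onSite z (bmat t) * (onSite x (amat t) * onSite y (bmat t)) := by
    rw [← mul_assoc, onSite_comm hxy.symm, mul_assoc, onSite_comm hyz, ← mul_assoc,
      onSite_comm hxz, mul_assoc]
  have e2 : onSite y (bmat t) * (onSite x (bmat t) * onSite z (amat t)) =
      onSite x (bmat t) * (onSite y (bmat t) * onSite z (amat t)) := by
    rw [← mul_assoc, onSite_comm hxy.symm, mul_assoc]
  have e3 : onSite z (bmat t) * (onSite x (bmat t) * onSite y (amat t)) =
      onSite x (bmat t) * (onSite y (amat t) * onSite z (bmat t)) := by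
    rw [← mul_assoc, onSite_comm hxz.symm, mul_assoc, onSite_comm hyz.symm]
  rw [e1, e2, e3]
  abel

/-- The squared norm `‖Ω_xy ψ‖²`, set to zero when `x = y`. -/
noncomputable def qE (t : ℕ) (ψ : Cf Λ t → ℂ) (x y : Λ) : ℝ :=
  if x = y then 0 else nsq (omegaOp t x y *ᵥ ψ)

theorem qE_nonneg (ψ : Cf Λ t → ℂ) (x y : Λ) : 0 ≤ qE t ψ x y := by
  unfold qE
  split_ifs
  · exact le_rfl
  · exact nsq_nonneg _

theorem qE_self (ψ : Cf Λ t → ℂ) (x : Λ) : qE t ψ x x = 0 := by
  simp [qE]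

theorem qE_symm (ψ : Cf Λ t → ℂ) (x y : Λ) : qE t ψ x y = qE t ψ y x := by
  unfold qE
  by_cases h : x = y
  · simp [h]
  · rw [if_neg h, if_neg (Ne.symm h), omega_antisymm h, Matrix.neg_mulVec]
    simp only [nsq_eq_sum, Pi.neg_apply, norm_neg]

/-- The weighted triangle inequality for `‖Ω_xy ψ‖²`, from the Plücker relation. -/
theorem qE_triangle (ht : 0 < t) (ψ : Cf Λ t → ℂ) (x y z : Λ) {s : ℝ} (hs : 0 < s) :
    qE t ψ x z ≤ (1 + s) * qE t ψ x y + (1 + 1 / s) * qE t ψ y z := by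
  have hs' : 0 < 1 / s := by positivity
  by_cases hxz : x = z
  · subst hxz
    rw [qE_self]
    have h1 := qE_nonneg ψ x y
    have h2 := qE_nonneg ψ y x
    positivity
  by_cases hxy : x = y
  · subst hxy
    rw [qE_self]
    have h1 := qE_nonneg ψ x z
    nlinarith
  by_cases hyz : y = z
  · subst hyz
    rw [qE_self]
    have h1 := qE_nonneg ψ x y
    nlinarith
  simp only [qE, if_neg hxz, if_neg hxy, if_neg hyz]
  set P := omegaOp t x z *ᵥ ψ with hP
  set Q := omegaOp t x y *ᵥ ψ with hQ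
  set R := omegaOp t y z *ᵥ ψ with hR
  have h1 : onSite y (amat t) *ᵥ P = onSite z (amat t) *ᵥ Q + onSite x (amat t) *ᵥ R := by
    rw [hP, hQ, hR, Matrix.mulVec_mulVec, Matrix.mulVec_mulVec, Matrix.mulVec_mulVec,
      ← Matrix.add_mulVec, plucker_a hxy hyz hxz]
  have h2 : onSite y (bmat t) *ᵥ P = onSite z (bmat t) *ᵥ Q + onSite x (bmat t) *ᵥ R := by
    rw [hP, hQ, hR, Matrix.mulVec_mulVec, Matrix.mulVec_mulVec, Matrix.mulVec_mulVec,
      ← Matrix.add_mulVec, plucker_b hxy hyz hxz]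
  have h3 := sum_nsq_local y P
  have h4 := sum_nsq_local z Q
  have h5 := sum_nsq_local x R
  have h6 := nsq_add_le (onSite z (amat t) *ᵥ Q) (onSite x (amat t) *ᵥ R) hs
  have h7 := nsq_add_le (onSite z (bmat t) *ᵥ Q) (onSite x (bmat t) *ᵥ R) hs
  rw [← h1] at h6
  rw [← h2] at h7
  have ht' : (0 : ℝ) < t := by exact_mod_cast ht
  have key : (t : ℝ) * nsq P ≤ t * ((1 + s) * nsq Q + (1 + 1 / s) * nsq R) := by
    calc (t : ℝ) * nsq P = nsq (onSite y (amat t) *ᵥ P) + nsq (onSite y (bmat t) *ᵥ P) := h3.symm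
      _ ≤ ((1 + s) * nsq (onSite z (amat t) *ᵥ Q) + (1 + 1 / s) * nsq (onSite x (amat t) *ᵥ R))
          + ((1 + s) * nsq (onSite z (bmat t) *ᵥ Q) + (1 + 1 / s) * nsq (onSite x (bmat t) *ᵥ R)) :=
          add_le_add h6 h7
      _ = (1 + s) * (nsq (onSite z (amat t) *ᵥ Q) + nsq (onSite z (bmat t) *ᵥ Q))
          + (1 + 1 / s) * (nsq (onSite x (amat t) *ᵥ R) + nsq (onSite x (bmat t) *ᵥ R)) := by ring
      _ = t * ((1 + s) * nsq Q + (1 + 1 / s) * nsq R) := by rw [h4, h5]; ring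
  exact le_of_mul_le_mul_left key ht'

/-- The bond is dominated by the number operators of its two ends. -/
theorem qf_bond_le_num {x y : Λ} (hxy : x ≠ y) (ψ : Cf Λ t → ℂ) :
    qf (bond t x y) ψ ≤ t * (qf (onSite x (numOp t)) ψ + qf (onSite y (numOp t)) ψ) := by
  rw [qf_bond hxy]
  have hnum : ∀ (u : Λ) (φ : Cf Λ t → ℂ), qf (onSite u (numOp t)) φ = nsq (onSite u (bmat t) *ᵥ φ) := by
    intro u φ
    rw [← qf_conj_mul, onSite_conjTranspose, onSite_mul, bmat_conj_mul]
  have hle : ∀ (u : Λ) (φ : Cf Λ t → ℂ), nsq (onSite u (amat t) *ᵥ φ) ≤ t * nsq φ := by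
    intro u φ
    have h1 := sum_nsq_local u φ
    have h2 := nsq_nonneg (onSite u (bmat t) *ᵥ φ)
    linarith
  have e : omegaOp t x y *ᵥ ψ = onSite x (amat t) *ᵥ (onSite y (bmat t) *ᵥ ψ)
      - onSite y (amat t) *ᵥ (onSite x (bmat t) *ᵥ ψ) := by
    rw [omegaOp, Matrix.sub_mulVec, Matrix.mulVec_mulVec, Matrix.mulVec_mulVec,
      onSite_comm hxy.symm (amat t) (bmat t)]
  have h1 := nsq_sub_le_two (onSite x (amat t) *ᵥ (onSite y (bmat t) *ᵥ ψ))
    (onSite y (amat t) *ᵥ (onSite x (bmat t) *ᵥ ψ))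
  have h2 := hle x (onSite y (bmat t) *ᵥ ψ)
  have h3 := hle y (onSite x (bmat t) *ᵥ ψ)
  rw [e, hnum, hnum]
  linarith

end Vale.Agent.Lib.P361
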