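import Vale.Agent.Lib.P361.SpinAlg

open scoped Matrix
open WithLp

set_option linter.unusedSectionVars false

namespace Vale.Agent.Lib.P361

/-! ### The real convexity core -/

theorem stringari_real {P : Type} [Fintype P] (x y : P → ℝ) (hx : ∀ p, 0 ≤ x p)
    (hy : ∀ p, 0 < y p) (hG : 0 < ∑ p, x p) (hF : 0 < ∑ p, x p * y p) :
    (∑ p, x p * y p - ∑ p, x p) * Real.log ((∑ p, x p * y p) / ∑ p, x p) ≤
      ∑ p, x p * ((y p - 1) * Real.log (y p)) := by
  set G := ∑ p, x p with hGdef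
  set F := ∑ p, x p * y p with hFdef
  set y0 := F / G with hy0def
  have hy0 : 0 < y0 := div_pos hF hG
  set L := Real.log y0 with hL
  have hFG : F = y0 * G := by
    rw [hy0def]
    field_simp
  have key : ∀ p, x p * ((y0 - 1) * L + (L + 1 - 1 / y0) * (y p - y0)) ≤
      x p * ((y p - 1) * Real.log (y p)) := by
    intro p
    apply mul_le_mul_of_nonneg_left _ (hx p)
    have hyp := hy p
    set r := y p / y0 with hr
    have hr0 : 0 < r := div_pos hyp hy0
    have hlog : Real.log r = Real.log (y p) - L := Real.log_div hyp.ne' hy0.ne'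
    have h1 : Real.log r ≤ r - 1 := Real.log_le_sub_one_of_pos hr0
    have h2 : 1 - r⁻¹ ≤ Real.log r := Real.one_sub_inv_le_log_of_pos hr0
    have e1 : y p = r * y0 := by
      rw [hr]
      field_simp
    have e2 : y p * (1 - r⁻¹) = y p - y0 := by
      rw [e1]
      field_simp
    have h3 : y p - y0 ≤ y p * Real.log r := by
      rw [← e2]
      exact mul_le_mul_of_nonneg_left h2 hyp.le
    have e3 : (y p - 1) * Real.log (y p) - ((y0 - 1) * L + (L + 1 - 1 / y0) * (y p - y0)) =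
        (y p * Real.log r - (y p - y0)) + (r - 1 - Real.log r) := by
      rw [hlog]
      have e4 : 1 / y0 * (y p - y0) = r - 1 := by
        rw [hr]
        field_simp
      linear_combination e4
    linarith
  have e : ∑ p, x p * ((y0 - 1) * L + (L + 1 - 1 / y0) * (y p - y0)) = (F - G) * L := by
    have e1 : ∀ p, x p * ((y0 - 1) * L + (L + 1 - 1 / y0) * (y p - y0)) =
        ((y0 - 1) * L - (L + 1 - 1 / y0) * y0) * x p + (L + 1 - 1 / y0) * (x p * y p) := by
      intro p
      ring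
    simp only [e1]
    rw [Finset.sum_add_distrib, ← Finset.mul_sum, ← Finset.mul_sum, ← hGdef, ← hFdef, hFG]
    ring
  rw [← e]
  exact Finset.sum_le_sum fun p _ => key p

/-! ### Gibbs expectation -/

variable {n : Type} [Fintype n] [DecidableEq n]

/-- The unnormalized Gibbs expectation `Re Tr (exp (-Y) X)`. -/
noncomputable def gE (Y X : Matrix n n ℂ) : ℝ :=
  (Matrix.trace (NormedSpace.exp (-Y) * X)).re

theorem gE_add (Y X X' : Matrix n n ℂ) : gE Y (X + X') = gE Y X + gE Y X' := by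
  simp [gE, mul_add, Matrix.trace_add]

theorem gE_sub (Y X X' : Matrix n n ℂ) : gE Y (X - X') = gE Y X - gE Y X' := by
  simp [gE, mul_sub, Matrix.trace_sub]

theorem gE_smul (Y X : Matrix n n ℂ) (c : ℝ) : gE Y ((c : ℂ) • X) = c * gE Y X := by
  simp [gE, Matrix.trace_smul]

theorem gE_sum {ι : Type} (Y : Matrix n n ℂ) (s : Finset ι) (X : ι → Matrix n n ℂ) :
    gE Y (∑ i ∈ s, X i) = ∑ i ∈ s, gE Y (X i) := by
  simp [gE, Finset.mul_sum, Matrix.trace_sum]

/-! ### Conjugation into an eigenbasis -/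

/-- Conjugation by `U`. -/
noncomputable def cj (U X : Matrix n n ℂ) : Matrix n n ℂ := star U * X * U

theorem cj_mul {U : Matrix n n ℂ} (h2 : U * star U = 1) (X X' : Matrix n n ℂ) :
    cj U (X * X') = cj U X * cj U X' := by
  unfold cj
  calc star U * (X * X') * U = star U * X * 1 * X' * U := by simp [mul_assoc]
    _ = _ := by
        rw [← h2]
        simp only [mul_assoc]

theorem cj_sub (U X X' : Matrix n n ℂ) : cj U (X - X') = cj U X - cj U X' := by
  unfold cj
  rw [mul_sub, sub_mul]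

theorem cj_conjTranspose (U X : Matrix n n ℂ) : cj U Xᴴ = (cj U X)ᴴ := by
  unfold cj
  rw [Matrix.conjTranspose_mul, Matrix.conjTranspose_mul, Matrix.star_eq_conjTranspose,
    Matrix.conjTranspose_conjTranspose, mul_assoc]

theorem cj_self {U Y : Matrix n n ℂ} {lam : n → ℝ} (h1 : star U * U = 1)
    (hs : Y = U * Matrix.diagonal (fun i => ((lam i : ℝ) : ℂ)) * star U) :
    cj U Y = Matrix.diagonal (fun i => ((lam i : ℝ) : ℂ)) := by
  unfold cj
  rw [hs]
  calc star U * (U * Matrix.diagonal (fun i => ((lam i : ℝ) : ℂ)) * star U) * U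
      = (star U * U) * Matrix.diagonal (fun i => ((lam i : ℝ) : ℂ)) * (star U * U) := by
        simp only [mul_assoc]
    _ = _ := by rw [h1]; simp

theorem exp_spec {U Y : Matrix n n ℂ} {lam : n → ℝ} (h1 : star U * U = 1) (h2 : U * star U = 1)
    (hs : Y = U * Matrix.diagonal (fun i => ((lam i : ℝ) : ℂ)) * star U) :
    NormedSpace.exp (-Y) =
      U * Matrix.diagonal (fun i => ((Real.exp (-lam i) : ℝ) : ℂ)) * star U := by
  have hinv : U⁻¹ = star U := Matrix.inv_eq_left_inv h1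
  have hUunit : IsUnit U := ⟨⟨U, star U, h2, h1⟩, rfl⟩
  have e1 : -Y = U * Matrix.diagonal (fun i => ((-lam i : ℝ) : ℂ)) * U⁻¹ := by
    rw [hinv, hs, ← neg_mul, ← mul_neg]
    congr 2
    ext i j
    by_cases h : i = j
    · subst h
      simp
    · simp [h]
  rw [e1, Matrix.exp_conj _ _ hUunit, hinv]
  congr 2
  rw [Matrix.exp_diagonal]
  congr 1
  funext i
  rw [Pi.coe_exp, ← Complex.exp_eq_exp_ℂ, ← Complex.ofReal_exp]

theorem gE_eq_cj {U Y : Matrix n n ℂ} {lam : n → ℝ} (h1 : star U * U = 1) (h2 : U * star U = 1)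
    (hs : Y = U * Matrix.diagonal (fun i => ((lam i : ℝ) : ℂ)) * star U) (X : Matrix n n ℂ) :
    gE Y X = ∑ i, Real.exp (-lam i) * (cj U X i i).re := by
  unfold gE cj
  rw [exp_spec h1 h2 hs]
  have e : U * Matrix.diagonal (fun i => ((Real.exp (-lam i) : ℝ) : ℂ)) * star U * X =
      U * (Matrix.diagonal (fun i => ((Real.exp (-lam i) : ℝ) : ℂ)) * (star U * X)) := by
    simp only [mul_assoc]
  rw [e, Matrix.trace_mul_comm, mul_assoc, Matrix.trace, Complex.re_sum]
  refine Finset.sum_congr rfl fun i _ => ?_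
  rw [Matrix.diag_apply, Matrix.diagonal_mul, Complex.re_ofReal_mul]

theorem cj_apply_self (U X : Matrix n n ℂ) (i : n) :
    cj U X i i = star (fun k => U k i) ⬝ᵥ (X *ᵥ fun k => U k i) := by
  simp only [cj, Matrix.mul_apply, dotProduct, Matrix.mulVec, Pi.star_apply, Matrix.star_apply,
    Finset.mul_sum, Finset.sum_mul]
  rw [Finset.sum_comm]
  refine Finset.sum_congr rfl fun l _ => Finset.sum_congr rfl fun k _ => ?_
  ring

theorem gE_eq_sum_qf {U Y : Matrix n n ℂ} {lam : n → ℝ} (h1 : star U * U = 1) (h2 : U * star U = 1)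
    (hs : Y = U * Matrix.diagonal (fun i => ((lam i : ℝ) : ℂ)) * star U) (X : Matrix n n ℂ) :
    gE Y X = ∑ i, Real.exp (-lam i) * qf X (fun k => U k i) := by
  rw [gE_eq_cj h1 h2 hs]
  refine Finset.sum_congr rfl fun i _ => ?_
  rw [cj_apply_self]
  rfl

/-- Existence of the diagonalization. -/
theorem exists_spec {Y : Matrix n n ℂ} (hY : Y.IsHermitian) :
    ∃ (U : Matrix n n ℂ) (lam : n → ℝ), star U * U = 1 ∧ U * star U = 1 ∧
      Y = U * Matrix.diagonal (fun i => ((lam i : ℝ) : ℂ)) * star U := by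
  refine ⟨(hY.eigenvectorUnitary : Matrix n n ℂ), hY.eigenvalues,
    Unitary.coe_star_mul_self hY.eigenvectorUnitary,
    Unitary.coe_mul_star_self hY.eigenvectorUnitary, ?_⟩
  have := hY.spectral_theorem
  simpa [Unitary.conjStarAlgAut_apply, Function.comp_def] using this

theorem gE_one_eq {U Y : Matrix n n ℂ} {lam : n → ℝ} (h1 : star U * U = 1) (h2 : U * star U = 1)
    (hs : Y = U * Matrix.diagonal (fun i => ((lam i : ℝ) : ℂ)) * star U) :
    gE Y 1 = ∑ i, Real.exp (-lam i) := by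
  rw [gE_eq_cj h1 h2 hs]
  refine Finset.sum_congr rfl fun i _ => ?_
  have : cj U 1 = 1 := by
    unfold cj
    rw [mul_one, h1]
  rw [this]
  simp

theorem nsq_col {U : Matrix n n ℂ} (h1 : star U * U = 1) (i : n) : nsq (fun k => U k i) = 1 := by
  have h := congrFun (congrFun h1 i) i
  rw [Matrix.mul_apply, Matrix.one_apply_eq] at h
  unfold nsq dotProduct
  simp only [Pi.star_apply]
  have e : ∑ k, star (U k i) * U k i = 1 := by
    rw [← h]
    rfl
  rw [e]
  simp

/-- A bound on the quadratic forms transfers to the Gibbs expectation. -/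
theorem gE_mono {Y X X' : Matrix n n ℂ} (hY : Y.IsHermitian) (h : ∀ ψ, qf X ψ ≤ qf X' ψ) :
    gE Y X ≤ gE Y X' := by
  obtain ⟨U, lam, h1, h2, hs⟩ := exists_spec hY
  rw [gE_eq_sum_qf h1 h2 hs, gE_eq_sum_qf h1 h2 hs]
  exact Finset.sum_le_sum fun i _ => mul_le_mul_of_nonneg_left (h _) (Real.exp_pos _).le

theorem gE_one_pos [Nonempty n] {Y : Matrix n n ℂ} (hY : Y.IsHermitian) : 0 < gE Y 1 := by
  obtain ⟨U, lam, h1, h2, hs⟩ := exists_spec hY
  rw [gE_one_eq h1 h2 hs]
  exact Finset.sum_pos (fun i _ => Real.exp_pos _) Finset.univ_nonempty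

theorem gE_le_mul_one {Y X : Matrix n n ℂ} (hY : Y.IsHermitian) {a : ℝ}
    (h : ∀ ψ, qf X ψ ≤ a * nsq ψ) : gE Y X ≤ a * gE Y 1 := by
  rw [← gE_smul]
  apply gE_mono hY
  intro ψ
  rw [qf_smul, qf_one]
  exact h ψ

theorem gE_nonneg {Y X : Matrix n n ℂ} (hY : Y.IsHermitian) (h : ∀ ψ, 0 ≤ qf X ψ) : 0 ≤ gE Y X := by
  obtain ⟨U, lam, h1, h2, hs⟩ := exists_spec hY
  rw [gE_eq_sum_qf h1 h2 hs]
  exact Finset.sum_nonneg fun i _ => mul_nonneg (Real.exp_pos _).le (h _)

/-! ### The inequality -/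

/-- The convexity inequality between the two orderings and the double commutator. -/
theorem stringari {Y A : Matrix n n ℂ} (hY : Y.IsHermitian)
    (hlt : gE Y (A * Aᴴ) < gE Y (Aᴴ * A)) :
    0 < gE Y (A * Aᴴ) ∧ (gE Y (Aᴴ * A) - gE Y (A * Aᴴ)) *
        Real.log (gE Y (Aᴴ * A) / gE Y (A * Aᴴ)) ≤
      gE Y (Aᴴ * (Y * A - A * Y) - (Y * A - A * Y) * Aᴴ) := by
  obtain ⟨U, lam, h1, h2, hs⟩ := exists_spec hY
  set B := cj U A with hB
  set a : n → n → ℝ := fun i j => Complex.normSq (B j i) with ha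
  set w : n → ℝ := fun i => Real.exp (-lam i) with hw
  have hw0 : ∀ i, 0 < w i := fun i => Real.exp_pos _
  have ha0 : ∀ i j, 0 ≤ a i j := fun i j => Complex.normSq_nonneg _
  have hD : cj U Y = Matrix.diagonal (fun i => ((lam i : ℝ) : ℂ)) := cj_self h1 hs
  have hdiag1 : ∀ i, ((Bᴴ * B) i i).re = ∑ j, a i j := by
    intro i
    rw [Matrix.mul_apply, Complex.re_sum]
    refine Finset.sum_congr rfl fun j _ => ?_
    rw [Matrix.conjTranspose_apply, Complex.star_def, ← Complex.normSq_eq_conj_mul_self,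
      Complex.ofReal_re]
  have hdiag2 : ∀ i, ((B * Bᴴ) i i).re = ∑ j, a j i := by
    intro i
    rw [Matrix.mul_apply, Complex.re_sum]
    refine Finset.sum_congr rfl fun j _ => ?_
    rw [Matrix.conjTranspose_apply, Complex.star_def, Complex.mul_conj, Complex.ofReal_re]
  have hcomm : ∀ i, ((Bᴴ * (Matrix.diagonal (fun i => ((lam i : ℝ) : ℂ)) * B -
      B * Matrix.diagonal (fun i => ((lam i : ℝ) : ℂ))) -
      (Matrix.diagonal (fun i => ((lam i : ℝ) : ℂ)) * B -
      B * Matrix.diagonal (fun i => ((lam i : ℝ) : ℂ))) * Bᴴ) i i).re =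
      ∑ j, a i j * (lam j - lam i) - ∑ j, a j i * (lam i - lam j) := by
    intro i
    rw [Matrix.sub_apply, Complex.sub_re]
    congr 1
    · rw [Matrix.mul_apply, Complex.re_sum]
      refine Finset.sum_congr rfl fun j _ => ?_
      rw [Matrix.sub_apply, Matrix.diagonal_mul, Matrix.mul_diagonal, Matrix.conjTranspose_apply,
        Complex.star_def]
      have e : (starRingEnd ℂ) (B j i) * (((lam j : ℝ) : ℂ) * B j i - B j i * ((lam i : ℝ) : ℂ)) =
          ((starRingEnd ℂ) (B j i) * B j i) * (((lam j - lam i : ℝ)) : ℂ) := by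
        push_cast
        ring
      rw [e, ← Complex.normSq_eq_conj_mul_self, ← Complex.ofReal_mul, Complex.ofReal_re]
    · rw [Matrix.mul_apply, Complex.re_sum]
      refine Finset.sum_congr rfl fun j _ => ?_
      rw [Matrix.sub_apply, Matrix.diagonal_mul, Matrix.mul_diagonal, Matrix.conjTranspose_apply,
        Complex.star_def]
      have e : (((lam i : ℝ) : ℂ) * B i j - B i j * ((lam j : ℝ) : ℂ)) * (starRingEnd ℂ) (B i j) =
          (B i j * (starRingEnd ℂ) (B i j)) * (((lam i - lam j : ℝ)) : ℂ) := by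
        push_cast
        ring
      rw [e, Complex.mul_conj, ← Complex.ofReal_mul, Complex.ofReal_re]
  have hF : gE Y (Aᴴ * A) = ∑ i, ∑ j, w i * a i j := by
    rw [gE_eq_cj h1 h2 hs, cj_mul h2, cj_conjTranspose]
    refine Finset.sum_congr rfl fun i _ => ?_
    rw [hdiag1, Finset.mul_sum]
  have hG : gE Y (A * Aᴴ) = ∑ i, ∑ j, w j * a i j := by
    rw [gE_eq_cj h1 h2 hs, cj_mul h2, cj_conjTranspose, Finset.sum_comm]
    refine Finset.sum_congr rfl fun i _ => ?_
    rw [hdiag2, Finset.mul_sum]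
  have hC : gE Y (Aᴴ * (Y * A - A * Y) - (Y * A - A * Y) * Aᴴ) =
      ∑ i, ∑ j, (w i - w j) * a i j * (lam j - lam i) := by
    rw [gE_eq_cj h1 h2 hs, cj_sub, cj_mul h2, cj_mul h2, cj_sub, cj_mul h2, cj_mul h2,
      cj_conjTranspose, hD, ← hB]
    have e : ∀ i, w i * ((Bᴴ * (Matrix.diagonal (fun i => ((lam i : ℝ) : ℂ)) * B -
        B * Matrix.diagonal (fun i => ((lam i : ℝ) : ℂ))) -
        (Matrix.diagonal (fun i => ((lam i : ℝ) : ℂ)) * B -
        B * Matrix.diagonal (fun i => ((lam i : ℝ) : ℂ))) * Bᴴ) i i).re =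
        ∑ j, w i * a i j * (lam j - lam i) - ∑ j, w i * a j i * (lam i - lam j) := by
      intro i
      rw [hcomm, mul_sub, Finset.mul_sum, Finset.mul_sum]
      congr 1
      · exact Finset.sum_congr rfl fun j _ => by ring
      · exact Finset.sum_congr rfl fun j _ => by ring
    refine Eq.trans (Finset.sum_congr rfl fun i _ => e i) ?_
    rw [Finset.sum_sub_distrib]
    have e2 : ∑ i, ∑ j, w i * a j i * (lam i - lam j) = ∑ i, ∑ j, w j * a i j * (lam j - lam i) :=
      Finset.sum_comm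
    rw [e2, ← Finset.sum_sub_distrib]
    refine Finset.sum_congr rfl fun i _ => ?_
    rw [← Finset.sum_sub_distrib]
    exact Finset.sum_congr rfl fun j _ => by ring
  set x : n × n → ℝ := fun p => w p.2 * a p.1 p.2 with hx
  set y : n × n → ℝ := fun p => Real.exp (lam p.2 - lam p.1) with hy
  have hx0 : ∀ p, 0 ≤ x p := fun p => mul_nonneg (hw0 _).le (ha0 _ _)
  have hy0 : ∀ p, 0 < y p := fun p => Real.exp_pos _
  have hwy : ∀ p, w p.2 * y p = w p.1 := by
    intro p
    simp only [hw, hy]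
    rw [← Real.exp_add]
    congr 1
    ring
  have hsx : ∑ p, x p = gE Y (A * Aᴴ) := by
    rw [hG, Fintype.sum_prod_type]
  have hsxy : ∑ p, x p * y p = gE Y (Aᴴ * A) := by
    rw [hF, Fintype.sum_prod_type]
    refine Finset.sum_congr rfl fun i _ => Finset.sum_congr rfl fun j _ => ?_
    have := hwy (i, j)
    simp only [hx] at this ⊢
    rw [← this]
    ring
  have hsC : ∑ p, x p * ((y p - 1) * Real.log (y p)) =
      gE Y (Aᴴ * (Y * A - A * Y) - (Y * A - A * Y) * Aᴴ) := by
    rw [hC, Fintype.sum_prod_type]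
    refine Finset.sum_congr rfl fun i _ => Finset.sum_congr rfl fun j _ => ?_
    have := hwy (i, j)
    simp only [hx] at this ⊢
    have e3 : Real.log (y (i, j)) = lam j - lam i := Real.log_exp _
    rw [e3, ← this]
    ring
  -- positivity of `G`
  have hGnn : 0 ≤ ∑ p, x p := Finset.sum_nonneg fun p _ => hx0 p
  have hGpos : 0 < ∑ p, x p := by
    refine lt_of_le_of_ne hGnn fun h0 => ?_
    have hall : ∀ p, x p = 0 := by
      intro p
      exact (Finset.sum_eq_zero_iff_of_nonneg fun p _ => hx0 p).mp h0.symm p (Finset.mem_univ p)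
    have hFz : ∑ p, x p * y p = 0 := Finset.sum_eq_zero fun p _ => by rw [hall p, zero_mul]
    rw [hsx] at h0
    rw [hsxy] at hFz
    rw [hFz, ← h0] at hlt
    exact lt_irrefl _ hlt
  have hFpos : 0 < ∑ p, x p * y p := by
    rw [hsxy]
    rw [hsx] at hGpos
    linarith
  refine ⟨by rwa [hsx] at hGpos, ?_⟩
  have := stringari_real x y hx0 hy0 hGpos hFpos
  rwa [hsx, hsxy, hsC] at this

/-- The form of the inequality used for the lower bound on the occupation. -/
theorem stringari_bound {Y A : Matrix n n ℂ} (hY : Y.IsHermitian) {d e : ℝ} (hd : 0 < d)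
    (h1 : d ≤ gE Y (Aᴴ * A) - gE Y (A * Aᴴ))
    (h2 : gE Y (Aᴴ * (Y * A - A * Y) - (Y * A - A * Y) * Aᴴ) ≤
      (gE Y (Aᴴ * A) - gE Y (A * Aᴴ)) * e) :
    1 < Real.exp e ∧ d ≤ gE Y (A * Aᴴ) * (Real.exp e - 1) := by
  set F := gE Y (Aᴴ * A) with hF
  set G := gE Y (A * Aᴴ) with hG
  have hlt : G < F := by linarith
  obtain ⟨hGpos, hs⟩ := stringari hY hlt
  have hFG : 0 < F - G := by linarith
  have hFpos : 0 < F := by linarith
  have h3 : Real.log (F / G) ≤ e := by
    have h4 := hs.trans h2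
    exact le_of_mul_le_mul_left h4 hFG
  have h5 : F / G ≤ Real.exp e := by
    rw [← Real.exp_log (div_pos hFpos hGpos)]
    exact Real.exp_le_exp.mpr h3
  have h6 : F ≤ G * Real.exp e := by
    rw [div_le_iff₀ hGpos] at h5
    linarith
  have h7 : 1 < F / G := by
    rw [one_lt_div hGpos]
    exact hlt
  refine ⟨lt_of_lt_of_le h7 h5, ?_⟩
  have e2 : G * (Real.exp e - 1) = G * Real.exp e - G := by ring
  rw [e2]
  linarith

end Vale.Agent.Lib.P361
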