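import Vale.Agent.Lib.P361.Shift
import Vale.Agent.Lib.P361.Stringari

open scoped Matrix
open Function

set_option linter.unusedSectionVars false

namespace Vale.Agent.Lib.P361

/-! ### Commutators -/

section Cm

variable {n : Type} [Fintype n] [DecidableEq n]

/-- The commutator of two matrices. -/
def cm (X X' : Matrix n n ℂ) : Matrix n n ℂ := X * X' - X' * X

theorem cm_add_left (X X' W : Matrix n n ℂ) : cm (X + X') W = cm X W + cm X' W := by
  simp only [cm, add_mul, mul_add]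
  abel

theorem cm_sub_left (X X' W : Matrix n n ℂ) : cm (X - X') W = cm X W - cm X' W := by
  simp only [cm, sub_mul, mul_sub]
  abel

theorem cm_add_right (W X X' : Matrix n n ℂ) : cm W (X + X') = cm W X + cm W X' := by
  simp only [cm, add_mul, mul_add]
  abel

theorem cm_sub_right (W X X' : Matrix n n ℂ) : cm W (X - X') = cm W X - cm W X' := by
  simp only [cm, sub_mul, mul_sub]
  abel

theorem cm_smul_left (c : ℂ) (X W : Matrix n n ℂ) : cm (c • X) W = c • cm X W := by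
  simp only [cm, Matrix.smul_mul, Matrix.mul_smul, smul_sub]

theorem cm_smul_right (c : ℂ) (X W : Matrix n n ℂ) : cm W (c • X) = c • cm W X := by
  simp only [cm, Matrix.smul_mul, Matrix.mul_smul, smul_sub]

theorem cm_sum_left {ι : Type} (s : Finset ι) (X : ι → Matrix n n ℂ) (W : Matrix n n ℂ) :
    cm (∑ i ∈ s, X i) W = ∑ i ∈ s, cm (X i) W := by
  simp only [cm, Finset.sum_mul, Finset.mul_sum, Finset.sum_sub_distrib]

theorem cm_sum_right {ι : Type} (s : Finset ι) (X : ι → Matrix n n ℂ) (W : Matrix n n ℂ) :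
    cm W (∑ i ∈ s, X i) = ∑ i ∈ s, cm W (X i) := by
  simp only [cm, Finset.sum_mul, Finset.mul_sum, Finset.sum_sub_distrib]

theorem cm_one_left (W : Matrix n n ℂ) : cm (1 : Matrix n n ℂ) W = 0 := by
  simp [cm]

theorem qf_conjTranspose (X : Matrix n n ℂ) (ψ : n → ℂ) : qf Xᴴ ψ = qf X ψ := by
  rw [qf_eq_ip, qf_eq_ip, ← ip_adj]
  have : ip (X *ᵥ ψ) ψ = star (ip ψ (X *ᵥ ψ)) := by
    simp only [ip]
    rw [Matrix.star_dotProduct]
  rw [this]
  simp

end Cm

variable {t : ℕ}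

/-! ### One site commutators -/

theorem cm_plus_minus : cm (spinPlus t) (spinPlus t)ᴴ = (2 : ℂ) • spin3 t := by
  unfold cm
  rw [spinPlus_mul_spinMinus, spinMinus_mul_spinPlus, Matrix.diagonal_sub, spin3,
    ← Matrix.diagonal_smul]
  congr 1
  funext k
  simp only [Pi.smul_apply, smul_eq_mul]
  ring

theorem cm_spin3_plus : cm (spin3 t) (spinPlus t) = spinPlus t := by
  ext k l
  unfold cm
  rw [Matrix.sub_apply, spin3, Matrix.diagonal_mul, Matrix.mul_diagonal, spinPlus_apply]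
  split_ifs with h
  · have e : ((l : ℕ) : ℂ) = ((k : ℕ) : ℂ) + 1 := by
      rw [← h]
      push_cast
      rfl
    rw [e]
    ring
  · simp

theorem cm_spin3_minus : cm (spin3 t) (spinPlus t)ᴴ = -(spinPlus t)ᴴ := by
  ext k l
  unfold cm
  rw [Matrix.sub_apply, spin3, Matrix.diagonal_mul, Matrix.mul_diagonal, Matrix.neg_apply,
    spinMinus_apply]
  split_ifs with h
  · have e : ((k : ℕ) : ℂ) = ((l : ℕ) : ℂ) + 1 := by
      rw [← h]
      push_cast
      rfl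
    rw [e]
    ring
  · simp

theorem cm_plus_spin3 : cm (spinPlus t) (spin3 t) = -spinPlus t := by
  have h : cm (spinPlus t) (spin3 t) = - cm (spin3 t) (spinPlus t) := by
    simp [cm]
  rw [h, cm_spin3_plus]

/-! ### Commutators of products at two sites -/

section Pair

variable {Λ : Type} [Fintype Λ] [DecidableEq Λ]

theorem cm_on_self (x : Λ) (C A : Matrix (Fin (t + 1)) (Fin (t + 1)) ℂ) :
    cm (onSite x C) (onSite x A) = onSite x (cm C A) := by
  unfold cm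
  rw [onSite_mul, onSite_mul, onSite_sub]

theorem cm_on_ne {x z : Λ} (h : z ≠ x) (C A : Matrix (Fin (t + 1)) (Fin (t + 1)) ℂ) :
    cm (onSite z C) (onSite x A) = 0 := by
  unfold cm
  rw [onSite_comm h, sub_self]

theorem cm_mul_right (W X X' : Matrix (Cf Λ t) (Cf Λ t) ℂ) :
    cm W (X * X') = cm W X * X' + X * cm W X' := by
  simp only [cm, sub_mul, mul_sub]
  noncomm_ring

theorem cm_mul_left (W X X' : Matrix (Cf Λ t) (Cf Λ t) ℂ) :
    cm (X * X') W = X * cm X' W + cm X W * X' := by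
  simp only [cm, sub_mul, mul_sub]
  noncomm_ring

variable {x y z : Λ}

/-- The operator appearing in the first commutator. -/
noncomputable def dD (t : ℕ) (x y : Λ) : Matrix (Cf Λ t) (Cf Λ t) ℂ :=
  onSite x (spin3 t) * onSite y (spinPlus t)ᴴ - onSite x (spinPlus t)ᴴ * onSite y (spin3 t)

theorem cm_dotS_x (hxy : x ≠ y) :
    cm (dotS t x y) (onSite x (spinPlus t)ᴴ) = dD t x y := by
  rw [dotS_eq, cm_add_left, cm_smul_left, cm_add_left]
  simp only [cm_mul_left, cm_on_self, cm_on_ne hxy.symm, mul_zero, zero_add, cm_spin3_minus,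
    cm_plus_minus]
  have e : cm ((spinPlus t)ᴴ) ((spinPlus t)ᴴ) = 0 := by simp [cm]
  rw [e, onSite_zero, zero_mul, add_zero, onSite_smul, Matrix.smul_mul, smul_smul, dD]
  have e2 : onSite x (-(spinPlus t)ᴴ) = - onSite x (spinPlus t)ᴴ := by
    have := onSite_smul x (-1 : ℂ) (spinPlus t)ᴴ
    simpa using this
  rw [e2]
  norm_num
  abel

theorem cm_dotS_y (hxy : x ≠ y) :
    cm (dotS t x y) (onSite y (spinPlus t)ᴴ) = - dD t x y := by
  rw [dotS_eq, cm_add_left, cm_smul_left, cm_add_left]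
  simp only [cm_mul_left, cm_on_self, cm_on_ne hxy, zero_mul, add_zero, cm_spin3_minus,
    cm_plus_minus]
  have e : cm ((spinPlus t)ᴴ) ((spinPlus t)ᴴ) = 0 := by simp [cm]
  rw [e, onSite_zero, mul_zero, zero_add, onSite_smul, Matrix.mul_smul, smul_smul, dD]
  have e2 : onSite y (-(spinPlus t)ᴴ) = - onSite y (spinPlus t)ᴴ := by
    have := onSite_smul y (-1 : ℂ) (spinPlus t)ᴴ
    simpa using this
  rw [e2]
  norm_num
  abel

theorem cm_dotS_other (hx : z ≠ x) (hy : z ≠ y) (C : Matrix (Fin (t + 1)) (Fin (t + 1)) ℂ) :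
    cm (dotS t x y) (onSite z C) = 0 := by
  rw [dotS_eq, cm_add_left, cm_smul_left, cm_add_left]
  simp only [cm_mul_left, cm_on_ne hx.symm, cm_on_ne hy.symm, mul_zero, zero_mul, add_zero, smul_zero]

theorem cm_plus_dD_x (hxy : x ≠ y) :
    cm (onSite x (spinPlus t)) (dD t x y) =
      - (onSite x (spinPlus t) * onSite y (spinPlus t)ᴴ) -
        (2 : ℂ) • (onSite x (spin3 t) * onSite y (spin3 t)) := by
  unfold dD
  rw [cm_sub_right]
  simp only [cm_mul_right, cm_on_self, cm_on_ne hxy, mul_zero, add_zero, cm_plus_spin3,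
    cm_plus_minus]
  rw [onSite_smul, Matrix.smul_mul]
  have e2 : onSite x (-spinPlus t) = - onSite x (spinPlus t) := by
    have := onSite_smul x (-1 : ℂ) (spinPlus t)
    simpa using this
  rw [e2, neg_mul]

theorem cm_plus_dD_y (hxy : x ≠ y) :
    cm (onSite y (spinPlus t)) (dD t x y) =
      (2 : ℂ) • (onSite x (spin3 t) * onSite y (spin3 t)) +
        onSite x (spinPlus t)ᴴ * onSite y (spinPlus t) := by
  unfold dD
  rw [cm_sub_right]
  simp only [cm_mul_right, cm_on_self, cm_on_ne hxy.symm, zero_mul, zero_add, cm_plus_spin3,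
    cm_plus_minus]
  rw [onSite_smul, Matrix.mul_smul]
  have e2 : onSite y (-spinPlus t) = - onSite y (spinPlus t) := by
    have := onSite_smul y (-1 : ℂ) (spinPlus t)
    simpa using this
  rw [e2, mul_neg, sub_neg_eq_add]

theorem cm_plus_dD_other (hx : z ≠ x) (hy : z ≠ y) :
    cm (onSite z (spinPlus t)) (dD t x y) = 0 := by
  unfold dD
  rw [cm_sub_right]
  simp only [cm_mul_right, cm_on_ne hx, cm_on_ne hy, mul_zero, zero_mul, add_zero, sub_self]

end Pair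

/-! ### The lowering operator with a profile -/

section Profile

variable {Λ : Type} [Fintype Λ] [DecidableEq Λ]

/-- The lowering operator with the real profile `f`. -/
noncomputable def Sm (t : ℕ) (f : Λ → ℝ) : Matrix (Cf Λ t) (Cf Λ t) ℂ :=
  ∑ x, ((f x : ℝ) : ℂ) • onSite x (spinPlus t)ᴴ

theorem Sm_conj (f : Λ → ℝ) : (Sm t f)ᴴ = ∑ x, ((f x : ℝ) : ℂ) • onSite x (spinPlus t) := by
  simp [Sm, Matrix.conjTranspose_sum, Matrix.conjTranspose_smul, onSite_conjTranspose]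

variable {x y : Λ}

theorem cm_dotS_Sm (hxy : x ≠ y) (f : Λ → ℝ) :
    cm (dotS t x y) (Sm t f) = (((f x - f y : ℝ)) : ℂ) • dD t x y := by
  unfold Sm
  rw [cm_sum_right, Fintype.sum_eq_add x y hxy]
  · rw [cm_smul_right, cm_smul_right, cm_dotS_x hxy, cm_dotS_y hxy]
    push_cast
    rw [smul_neg, sub_smul]
    abel
  · rintro z ⟨hx, hy⟩
    rw [cm_smul_right, cm_dotS_other hx hy, smul_zero]

theorem cm_bond_Sm (hxy : x ≠ y) (f : Λ → ℝ) :
    cm (bond t x y) (Sm t f) = (((f y - f x : ℝ)) : ℂ) • dD t x y := by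
  unfold bond
  rw [cm_sub_left, cm_smul_left, cm_one_left, smul_zero, zero_sub, cm_dotS_Sm hxy, ← neg_smul]
  congr 1
  push_cast
  ring

theorem cm_Sp_dD (hxy : x ≠ y) (f : Λ → ℝ) :
    cm (Sm t f)ᴴ (dD t x y) =
      ((f x : ℝ) : ℂ) • (- (onSite x (spinPlus t) * onSite y (spinPlus t)ᴴ) -
        (2 : ℂ) • (onSite x (spin3 t) * onSite y (spin3 t))) +
      ((f y : ℝ) : ℂ) • ((2 : ℂ) • (onSite x (spin3 t) * onSite y (spin3 t)) +
        onSite x (spinPlus t)ᴴ * onSite y (spinPlus t)) := by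
  rw [Sm_conj, cm_sum_left, Fintype.sum_eq_add x y hxy]
  · rw [cm_smul_left, cm_smul_left, cm_plus_dD_x hxy, cm_plus_dD_y hxy]
  · rintro z ⟨hx, hy⟩
    rw [cm_smul_left, cm_plus_dD_other hx hy, smul_zero]

theorem T2_eq_conj (hxy : x ≠ y) :
    onSite x (spinPlus t)ᴴ * onSite y (spinPlus t) =
      (onSite x (spinPlus t) * onSite y (spinPlus t)ᴴ)ᴴ := by
  rw [Matrix.conjTranspose_mul, onSite_conjTranspose, onSite_conjTranspose,
    Matrix.conjTranspose_conjTranspose, onSite_comm hxy]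

theorem qf_double_bond (hxy : x ≠ y) (f : Λ → ℝ) (ψ : Cf Λ t → ℂ) :
    qf (cm (Sm t f)ᴴ (cm (bond t x y) (Sm t f))) ψ =
      (f x - f y) ^ 2 * (qf (onSite x (spinPlus t) * onSite y (spinPlus t)ᴴ) ψ +
        2 * qf (onSite x (spin3 t) * onSite y (spin3 t)) ψ) := by
  have e2 : (2 : ℂ) = ((2 : ℝ) : ℂ) := by norm_num
  rw [cm_bond_Sm hxy, cm_smul_right, qf_smul, cm_Sp_dD hxy, qf_add, qf_smul, qf_smul, qf_sub, qf_add,
    T2_eq_conj hxy, qf_conjTranspose, e2, qf_smul]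
  have e3 : ∀ X : Matrix (Cf Λ t) (Cf Λ t) ℂ, qf (-X) ψ = - qf X ψ := by
    intro X
    simp only [qf, Matrix.neg_mulVec, dotProduct_neg, Complex.neg_re]
  rw [e3]
  ring

theorem qf_dotS (hxy : x ≠ y) (ψ : Cf Λ t → ℂ) :
    qf (dotS t x y) ψ = qf (onSite x (spin3 t) * onSite y (spin3 t)) ψ +
      qf (onSite x (spinPlus t) * onSite y (spinPlus t)ᴴ) ψ := by
  have e : (1 / 2 : ℂ) = ((1 / 2 : ℝ) : ℂ) := by norm_num
  rw [dotS_eq, qf_add, e, qf_smul, qf_add, T2_eq_conj hxy, qf_conjTranspose]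
  ring

theorem qf_dotS_le (hxy : x ≠ y) (ψ : Cf Λ t → ℂ) :
    qf (dotS t x y) ψ ≤ ((t : ℝ) / 2) ^ 2 * nsq ψ := by
  have h1 : 0 ≤ qf (bond t x y) ψ := by
    rw [qf_bond hxy]
    have := nsq_nonneg (omegaOp t x y *ᵥ ψ)
    positivity
  have e : ((t : ℂ) / 2) ^ 2 = ((((t : ℝ) / 2) ^ 2 : ℝ) : ℂ) := by
    push_cast
    ring
  unfold bond at h1
  rw [qf_sub, e, qf_smul, qf_one] at h1
  linarith

theorem qf_W_le (ψ : Cf Λ t → ℂ) :
    qf (onSite x (spin3 t) * onSite y (spin3 t)) ψ ≤ ((t : ℝ) / 2) ^ 2 * nsq ψ := by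
  have hW : onSite x (spin3 t) * onSite y (spin3 t) = Matrix.diagonal fun σ : Cf Λ t =>
      (((((t : ℝ) / 2 - ((σ x : ℕ) : ℝ)) * ((t : ℝ) / 2 - ((σ y : ℕ) : ℝ)) : ℝ)) : ℂ) := by
    rw [spin3, onSite_diagonal, onSite_diagonal, Matrix.diagonal_mul_diagonal]
    congr 1
    funext σ
    push_cast
    ring
  have h := qf_diag_nonneg (Λ := Λ) (t := t) (fun σ => ((t : ℝ) / 2) ^ 2 -
      ((t : ℝ) / 2 - ((σ x : ℕ) : ℝ)) * ((t : ℝ) / 2 - ((σ y : ℕ) : ℝ))) (fun σ => by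
      have h1 : ((σ x : ℕ) : ℝ) ≤ t := by exact_mod_cast Nat.lt_succ_iff.mp (σ x).2
      have h2 : ((σ y : ℕ) : ℝ) ≤ t := by exact_mod_cast Nat.lt_succ_iff.mp (σ y).2
      have h3 : (0 : ℝ) ≤ ((σ x : ℕ) : ℝ) := by positivity
      have h4 : (0 : ℝ) ≤ ((σ y : ℕ) : ℝ) := by positivity
      nlinarith [mul_nonneg h3 (sub_nonneg.mpr h2), mul_nonneg h4 (sub_nonneg.mpr h1)]) ψ
  have e : (Matrix.diagonal fun σ : Cf Λ t => ((((t : ℝ) / 2) ^ 2 -
      ((t : ℝ) / 2 - ((σ x : ℕ) : ℝ)) * ((t : ℝ) / 2 - ((σ y : ℕ) : ℝ)) : ℝ) : ℂ)) =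
      ((((t : ℝ) / 2) ^ 2 : ℝ) : ℂ) • (1 : Matrix (Cf Λ t) (Cf Λ t) ℂ) -
        onSite x (spin3 t) * onSite y (spin3 t) := by
    rw [hW]
    ext σ τ
    by_cases h : σ = τ
    · subst h
      simp
    · simp [h]
  rw [e, qf_sub, qf_smul, qf_one] at h
  linarith

theorem qf_double_bond_le (hxy : x ≠ y) (f : Λ → ℝ) (ψ : Cf Λ t → ℂ) :
    qf (cm (Sm t f)ᴴ (cm (bond t x y) (Sm t f))) ψ ≤
      (f x - f y) ^ 2 * (((t : ℝ) ^ 2 / 2) * nsq ψ) := by
  rw [qf_double_bond hxy]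
  apply mul_le_mul_of_nonneg_left _ (sq_nonneg _)
  have h1 := qf_dotS_le hxy ψ
  have h2 := qf_W_le (x := x) (y := y) ψ
  rw [qf_dotS hxy] at h1
  have e : ((t : ℝ) / 2) ^ 2 * nsq ψ = ((t : ℝ) ^ 2 / 4) * nsq ψ := by ring
  rw [e] at h1 h2
  nlinarith

/-! ### The number operator -/

theorem cm_NB_minus (x : Λ) :
    cm (NB t Finset.univ) (onSite x (spinPlus t)ᴴ) = onSite x (spinPlus t)ᴴ := by
  ext σ τ
  unfold cm NB
  rw [Matrix.sub_apply, Matrix.diagonal_mul, Matrix.mul_diagonal]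
  by_cases h : onSite x (spinPlus t)ᴴ σ τ = 0
  · rw [h]
    ring
  · have := onSite_minus_entry (Finset.mem_univ x) h
    rw [this]
    push_cast
    ring

theorem cm_NB_Sm (f : Λ → ℝ) : cm (NB t Finset.univ) (Sm t f) = Sm t f := by
  unfold Sm
  rw [cm_sum_right]
  refine Finset.sum_congr rfl fun x _ => ?_
  rw [cm_smul_right, cm_NB_minus]

theorem two_spin3_eq (x : Λ) :
    onSite x ((2 : ℂ) • spin3 t) =
      (t : ℂ) • (1 : Matrix (Cf Λ t) (Cf Λ t) ℂ) - (2 : ℂ) • onSite x (numOp t) := by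
  rw [spin3_eq, smul_sub, smul_smul, onSite_sub, onSite_smul, onSite_smul, onSite_one]
  congr 2
  ring

theorem cm_Sp_Sm (f : Λ → ℝ) :
    cm (Sm t f)ᴴ (Sm t f) = ∑ x, (((f x ^ 2 : ℝ)) : ℂ) •
      ((t : ℂ) • (1 : Matrix (Cf Λ t) (Cf Λ t) ℂ) - (2 : ℂ) • onSite x (numOp t)) := by
  rw [Sm_conj, cm_sum_left]
  refine Finset.sum_congr rfl fun x _ => ?_
  unfold Sm
  rw [cm_sum_right, Finset.sum_eq_single x]
  · rw [cm_smul_left, cm_smul_right, cm_on_self, cm_plus_minus, two_spin3_eq, smul_smul]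
    congr 1
    push_cast
    ring
  · intro y _ hy
    rw [cm_smul_left, cm_smul_right, cm_on_ne hy.symm, smul_zero, smul_zero]
  · intro hn
    exact absurd (Finset.mem_univ x) hn

end Profile

end Vale.Agent.Lib.P361
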