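import Vale.Agent.Lib.P361.LadderAbs

open scoped Matrix
open Function

set_option linter.unusedSectionVars false

namespace Vale.Agent.Lib.P361

variable {t : ℕ}

/-! ### One site identities -/

theorem spinPlus_apply (k l : Fin (t + 1)) :
    spinPlus t k l = if (k : ℕ) + 1 = (l : ℕ)
      then ((Real.sqrt ((((k : ℕ) : ℝ) + 1) * ((t : ℝ) - (k : ℕ))) : ℝ) : ℂ) else 0 := rfl

theorem spinMinus_apply (k l : Fin (t + 1)) :
    (spinPlus t)ᴴ k l = if (l : ℕ) + 1 = (k : ℕ)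
      then ((Real.sqrt ((((l : ℕ) : ℝ) + 1) * ((t : ℝ) - (l : ℕ))) : ℝ) : ℂ) else 0 := by
  rw [Matrix.conjTranspose_apply, spinPlus_apply]
  split_ifs
  · rw [Complex.star_def, Complex.conj_ofReal]
  · simp

theorem spinMinus_mul_spinPlus :
    (spinPlus t)ᴴ * spinPlus t =
      Matrix.diagonal fun k : Fin (t + 1) => ((k : ℕ) : ℂ) * ((t : ℂ) + 1 - (k : ℕ)) := by
  ext i j
  rw [Matrix.mul_apply]
  simp only [spinMinus_apply, spinPlus_apply]
  by_cases hi : (i : ℕ) = 0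
  · have hzero : ∀ m : Fin (t + 1), (if (m : ℕ) + 1 = (i : ℕ)
        then ((Real.sqrt ((((m : ℕ) : ℝ) + 1) * ((t : ℝ) - (m : ℕ))) : ℝ) : ℂ) else 0) = 0 := by
      intro m
      rw [if_neg (by omega)]
    simp only [hzero, zero_mul, Finset.sum_const_zero]
    by_cases h : i = j
    · subst h
      simp [hi]
    · rw [Matrix.diagonal_apply_ne _ h]
  · have hpos : 0 < (i : ℕ) := Nat.pos_of_ne_zero hi
    let m0 : Fin (t + 1) := ⟨(i : ℕ) - 1, by have := i.2; omega⟩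
    have hm0 : (m0 : ℕ) + 1 = (i : ℕ) := by simp [m0]; omega
    rw [Finset.sum_eq_single m0]
    · rw [if_pos hm0]
      by_cases h : i = j
      · subst h
        rw [if_pos hm0, Matrix.diagonal_apply_eq, ← Complex.ofReal_mul,
          Real.mul_self_sqrt (mul_nonneg (by positivity) (t_sub_nonneg m0))]
        have h1 : ((m0 : ℕ) : ℝ) + 1 = (i : ℕ) := by exact_mod_cast hm0
        have h2 : ((m0 : ℕ) : ℂ) + 1 = (i : ℕ) := by exact_mod_cast hm0
        push_cast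
        rw [h2]
        have : ((m0 : ℕ) : ℂ) = (i : ℕ) - 1 := by rw [← h2]; ring
        rw [this]
        ring
      · have hne : (m0 : ℕ) + 1 ≠ (j : ℕ) := by
          intro he
          apply h
          apply Fin.ext
          omega
        rw [if_neg hne, Matrix.diagonal_apply_ne _ h, mul_zero]
    · intro m _ hm
      have hne : (m : ℕ) + 1 ≠ (i : ℕ) := by
        intro he
        apply hm
        apply Fin.ext
        simp [m0]
        omega
      rw [if_neg hne, zero_mul]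
    · intro hn
      exact absurd (Finset.mem_univ _) hn

theorem spinPlus_mul_spinMinus :
    spinPlus t * (spinPlus t)ᴴ =
      Matrix.diagonal fun k : Fin (t + 1) => (((k : ℕ) : ℂ) + 1) * ((t : ℂ) - (k : ℕ)) := by
  ext i j
  rw [Matrix.mul_apply]
  simp only [spinMinus_apply, spinPlus_apply]
  by_cases hi : (i : ℕ) = t
  · have hzero : ∀ m : Fin (t + 1), (if (i : ℕ) + 1 = (m : ℕ)
        then ((Real.sqrt ((((i : ℕ) : ℝ) + 1) * ((t : ℝ) - (i : ℕ))) : ℝ) : ℂ) else 0) = 0 := by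
      intro m
      have := m.2
      rw [if_neg (by omega)]
    simp only [hzero, zero_mul, Finset.sum_const_zero]
    by_cases h : i = j
    · subst h
      simp [hi]
    · rw [Matrix.diagonal_apply_ne _ h]
  · have hlt : (i : ℕ) + 1 < t + 1 := by have := i.2; omega
    let m0 : Fin (t + 1) := ⟨(i : ℕ) + 1, hlt⟩
    have hm0 : (i : ℕ) + 1 = (m0 : ℕ) := rfl
    rw [Finset.sum_eq_single m0]
    · rw [if_pos hm0]
      by_cases h : i = j
      · subst h
        rw [if_pos hm0, Matrix.diagonal_apply_eq, ← Complex.ofReal_mul,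
          Real.mul_self_sqrt (mul_nonneg (by positivity) (t_sub_nonneg i))]
        push_cast
        ring
      · have hne : (j : ℕ) + 1 ≠ (m0 : ℕ) := by
          intro he
          apply h
          apply Fin.ext
          omega
        rw [if_neg hne, Matrix.diagonal_apply_ne _ h, mul_zero]
    · intro m _ hm
      have hne : (i : ℕ) + 1 ≠ (m : ℕ) := by
        intro he
        apply hm
        apply Fin.ext
        simp [m0]
        omega
      rw [if_neg hne, zero_mul]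
    · intro hn
      exact absurd (Finset.mem_univ _) hn

/-! ### Many body operators on a block -/

variable {Λ : Type} [Fintype Λ] [DecidableEq Λ]

theorem onSite_diagonal (x : Λ) (d : Fin (t + 1) → ℂ) :
    onSite x (Matrix.diagonal d) = Matrix.diagonal fun σ : Cf Λ t => d (σ x) := by
  ext σ τ
  rw [onSite_apply]
  by_cases h : σ = τ
  · subst h
    simp
  · rw [Matrix.diagonal_apply_ne _ h]
    by_cases hag : ∀ z, z ≠ x → σ z = τ z
    · rw [if_pos hag, Matrix.diagonal_apply_ne]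
      intro hx
      apply h
      funext z
      by_cases hz : z = x
      · subst hz; exact hx
      · exact hag z hz
    · rw [if_neg hag]

theorem sum_diagonal {ι : Type} (s : Finset ι) (d : ι → Cf Λ t → ℂ) :
    ∑ i ∈ s, (Matrix.diagonal (d i)) = Matrix.diagonal fun σ => ∑ i ∈ s, d i σ := by
  classical
  induction s using Finset.induction_on with
  | empty => simp
  | insert a s ha ih =>
    rw [Finset.sum_insert ha, ih, Matrix.diagonal_add]
    congr 1
    funext σ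
    rw [Finset.sum_insert ha]

/-- Number of magnons on the block `B`. -/
def nB (B : Finset Λ) (σ : Cf Λ t) : ℕ := ∑ x ∈ B, (σ x : ℕ)

/-- The raising operator of the block `B`. -/
noncomputable def SpB (t : ℕ) (B : Finset Λ) : Matrix (Cf Λ t) (Cf Λ t) ℂ :=
  ∑ x ∈ B, onSite x (spinPlus t)

theorem SpB_conj (B : Finset Λ) : (SpB t B)ᴴ = ∑ x ∈ B, onSite x (spinPlus t)ᴴ := by
  simp only [SpB, Matrix.conjTranspose_sum, onSite_conjTranspose]

/-- Twice the complete graph Hamiltonian on the block `B`. -/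
noncomputable def K2 (t : ℕ) (B : Finset Λ) : Matrix (Cf Λ t) (Cf Λ t) ℂ :=
  ∑ x ∈ B, ∑ y ∈ B, if x = y then 0 else bond t x y

theorem nB_le (B : Finset Λ) (σ : Cf Λ t) : nB B σ ≤ t * B.card := by
  unfold nB
  calc ∑ x ∈ B, (σ x : ℕ) ≤ ∑ _x ∈ B, t := Finset.sum_le_sum fun x _ => Nat.lt_succ_iff.mp (σ x).2
    _ = t * B.card := by simp [mul_comm]

theorem SpB_comm (B : Finset Λ) :
    SpB t B * (SpB t B)ᴴ - (SpB t B)ᴴ * SpB t B =
      Matrix.diagonal fun σ : Cf Λ t => ((t * B.card : ℕ) : ℂ) - 2 * (nB B σ : ℂ) := by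
  rw [SpB_conj, SpB, Finset.sum_mul_sum, Finset.sum_mul_sum]
  have h1 : ∑ i ∈ B, ∑ j ∈ B, (onSite j (spinPlus t)ᴴ * onSite i (spinPlus t)) =
      ∑ i ∈ B, ∑ j ∈ B, (onSite i (spinPlus t)ᴴ * onSite j (spinPlus t)) := by
    rw [Finset.sum_comm]
  rw [← h1, ← Finset.sum_sub_distrib]
  simp only [← Finset.sum_sub_distrib]
  have h2 : ∀ i ∈ B, ∑ j ∈ B, (onSite i (spinPlus t) * onSite j (spinPlus t)ᴴ -
      onSite j (spinPlus t)ᴴ * onSite i (spinPlus t)) =
      Matrix.diagonal fun σ : Cf Λ t => (t : ℂ) - 2 * ((σ i : ℕ) : ℂ) := by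
    intro i hi
    rw [Finset.sum_eq_single i]
    · rw [onSite_mul, onSite_mul, spinPlus_mul_spinMinus, spinMinus_mul_spinPlus, ← onSite_sub,
        Matrix.diagonal_sub, onSite_diagonal]
      congr 1
      funext σ
      ring
    · intro j _ hj
      rw [onSite_comm hj.symm, sub_self]
    · intro hn; exact absurd hi hn
  rw [Finset.sum_congr rfl h2, sum_diagonal]
  congr 1
  funext σ
  rw [Finset.sum_sub_distrib, ← Finset.mul_sum]
  simp [nB, mul_comm]

theorem bond_eq_sum {x y : Λ} (hxy : x ≠ y) :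
    bond t x y = (Matrix.diagonal fun σ : Cf Λ t =>
        ((t : ℂ) / 2) * (((σ x : ℕ) : ℂ) + ((σ y : ℕ) : ℂ)) - ((σ x : ℕ) : ℂ) * ((σ y : ℕ) : ℂ))
      - (1 / 2 : ℂ) • (onSite y (spinPlus t)ᴴ * onSite x (spinPlus t)
          + onSite x (spinPlus t)ᴴ * onSite y (spinPlus t)) := by
  rw [bond, dotS_eq, onSite_comm hxy (spinPlus t) (spinPlus t)ᴴ]
  have hS3 : onSite x (spin3 t) * onSite y (spin3 t) = Matrix.diagonal fun σ : Cf Λ t =>
      ((t : ℂ) / 2 - ((σ x : ℕ) : ℂ)) * ((t : ℂ) / 2 - ((σ y : ℕ) : ℂ)) := by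
    rw [spin3, onSite_diagonal, onSite_diagonal, Matrix.diagonal_mul_diagonal]
  have e : (((t : ℂ) / 2) ^ 2) • (1 : Matrix (Cf Λ t) (Cf Λ t) ℂ)
      = Matrix.diagonal fun _ : Cf Λ t => ((t : ℂ) / 2) ^ 2 := by
    ext σ τ
    by_cases h : σ = τ
    · subst h; simp
    · simp [h]
  have e3 : (Matrix.diagonal fun σ : Cf Λ t =>
        ((t : ℂ) / 2) * (((σ x : ℕ) : ℂ) + ((σ y : ℕ) : ℂ)) - ((σ x : ℕ) : ℂ) * ((σ y : ℕ) : ℂ))
      = (Matrix.diagonal fun _ : Cf Λ t => ((t : ℂ) / 2) ^ 2) -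
        (Matrix.diagonal fun σ : Cf Λ t =>
          ((t : ℂ) / 2 - ((σ x : ℕ) : ℂ)) * ((t : ℂ) / 2 - ((σ y : ℕ) : ℂ))) := by
    rw [Matrix.diagonal_sub]
    congr 1
    funext σ
    ring
  rw [hS3, e, e3, sub_add_eq_sub_sub]

theorem K2_eq (B : Finset Λ) :
    K2 t B = (Matrix.diagonal fun σ : Cf Λ t =>
        (nB B σ : ℂ) * (((t * B.card : ℕ) : ℂ) + 1 - (nB B σ : ℂ))) - (SpB t B)ᴴ * SpB t B := by
  set S : Λ → Λ → Matrix (Cf Λ t) (Cf Λ t) ℂ :=
    fun x y => onSite x (spinPlus t)ᴴ * onSite y (spinPlus t) with hS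
  set D : Λ → Λ → Cf Λ t → ℂ := fun x y σ =>
    ((t : ℂ) / 2) * (((σ x : ℕ) : ℂ) + ((σ y : ℕ) : ℂ)) - ((σ x : ℕ) : ℂ) * ((σ y : ℕ) : ℂ) with hD
  have h1 : ∀ x ∈ B, ∀ y ∈ B, (if x = y then (0 : Matrix (Cf Λ t) (Cf Λ t) ℂ) else bond t x y) =
      (if x = y then 0 else Matrix.diagonal (D x y))
        - (1 / 2 : ℂ) • ((if y = x then 0 else S y x) + (if x = y then 0 else S x y)) := by
    intro x _ y _
    by_cases h : x = y
    · subst h; simp
    · rw [if_neg h, if_neg h, if_neg h, if_neg (Ne.symm h), bond_eq_sum h]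
  have h2 : ∑ x ∈ B, ∑ y ∈ B, (if y = x then 0 else S y x) =
      ∑ x ∈ B, ∑ y ∈ B, (if x = y then 0 else S x y) := by
    rw [Finset.sum_comm]
  have h3 : ∑ x ∈ B, ∑ y ∈ B, (if x = y then 0 else S x y) =
      (SpB t B)ᴴ * SpB t B - ∑ x ∈ B, S x x := by
    rw [SpB_conj, SpB, Finset.sum_mul_sum, ← Finset.sum_sub_distrib]
    refine Finset.sum_congr rfl fun x hx => ?_
    have : ∑ y ∈ B, S x y = S x x + ∑ y ∈ B.erase x, S x y := by
      rw [Finset.add_sum_erase _ _ hx]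
    rw [this, add_sub_cancel_left]
    rw [← Finset.add_sum_erase _ _ hx]
    rw [if_pos rfl, zero_add]
    refine Finset.sum_congr rfl fun y hy => ?_
    rw [if_neg (Finset.ne_of_mem_erase hy).symm]
  have h4 : ∑ x ∈ B, S x x = Matrix.diagonal fun σ : Cf Λ t =>
      ∑ x ∈ B, ((σ x : ℕ) : ℂ) * ((t : ℂ) + 1 - ((σ x : ℕ) : ℂ)) := by
    simp only [hS]
    rw [← sum_diagonal]
    refine Finset.sum_congr rfl fun x _ => ?_
    rw [onSite_mul, spinMinus_mul_spinPlus, onSite_diagonal]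
  have h5 : ∑ x ∈ B, ∑ y ∈ B, (if x = y then (0 : Matrix (Cf Λ t) (Cf Λ t) ℂ)
        else Matrix.diagonal (D x y)) = Matrix.diagonal fun σ : Cf Λ t =>
      ∑ x ∈ B, ∑ y ∈ B, (if x = y then 0 else D x y σ) := by
    simp only [← sum_diagonal]
    refine Finset.sum_congr rfl fun x _ => Finset.sum_congr rfl fun y _ => ?_
    split_ifs
    · simp
    · rfl
  have h6 : ∀ σ : Cf Λ t, ∑ x ∈ B, ∑ y ∈ B, (if x = y then 0 else D x y σ)
      + ∑ x ∈ B, ((σ x : ℕ) : ℂ) * ((t : ℂ) + 1 - ((σ x : ℕ) : ℂ)) =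
      (nB B σ : ℂ) * (((t * B.card : ℕ) : ℂ) + 1 - (nB B σ : ℂ)) := by
    intro σ
    have hn : (nB B σ : ℂ) = ∑ x ∈ B, ((σ x : ℕ) : ℂ) := by simp [nB]
    have e1 : ∀ x ∈ B, ∑ y ∈ B, (if x = y then 0 else D x y σ) =
        ∑ y ∈ B, D x y σ - D x x σ := by
      intro x hx
      rw [← Finset.add_sum_erase _ (fun y => D x y σ) hx, add_sub_cancel_left,
        ← Finset.add_sum_erase _ _ hx, if_pos rfl, zero_add]
      refine Finset.sum_congr rfl fun y hy => ?_
      rw [if_neg (Finset.ne_of_mem_erase hy).symm]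
    rw [Finset.sum_congr rfl e1, Finset.sum_sub_distrib]
    have e2 : ∑ x ∈ B, ∑ y ∈ B, D x y σ =
        (t : ℂ) * (B.card : ℂ) * (nB B σ : ℂ) - (nB B σ : ℂ) * (nB B σ : ℂ) := by
      simp only [hD, Finset.sum_sub_distrib, ← Finset.mul_sum, Finset.sum_add_distrib,
        Finset.sum_const, nsmul_eq_mul, ← Finset.sum_mul]
      rw [← hn]
      ring
    have e3 : ∑ x ∈ B, D x x σ = (t : ℂ) * (nB B σ : ℂ) - ∑ x ∈ B, ((σ x : ℕ) : ℂ) ^ 2 := by
      rw [hn, Finset.mul_sum, ← Finset.sum_sub_distrib]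
      refine Finset.sum_congr rfl fun x _ => ?_
      simp only [hD]
      ring
    have e4 : ∑ x ∈ B, ((σ x : ℕ) : ℂ) * ((t : ℂ) + 1 - ((σ x : ℕ) : ℂ)) =
        ((t : ℂ) + 1) * (nB B σ : ℂ) - ∑ x ∈ B, ((σ x : ℕ) : ℂ) ^ 2 := by
      rw [hn, Finset.mul_sum, ← Finset.sum_sub_distrib]
      refine Finset.sum_congr rfl fun x _ => ?_
      ring
    rw [e2, e3, e4]
    push_cast
    ring
  rw [K2]
  simp only [Finset.sum_congr rfl fun x hx => Finset.sum_congr rfl (h1 x hx)]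
  simp only [Finset.sum_sub_distrib, ← Finset.smul_sum, Finset.sum_add_distrib]
  rw [h2, h3, h4, h5]
  have h7 : (Matrix.diagonal fun σ : Cf Λ t =>
        (nB B σ : ℂ) * (((t * B.card : ℕ) : ℂ) + 1 - (nB B σ : ℂ))) =
      (Matrix.diagonal fun σ : Cf Λ t => ∑ x ∈ B, ∑ y ∈ B, (if x = y then 0 else D x y σ))
      + Matrix.diagonal fun σ : Cf Λ t =>
        ∑ x ∈ B, ((σ x : ℕ) : ℂ) * ((t : ℂ) + 1 - ((σ x : ℕ) : ℂ)) := by
    rw [Matrix.diagonal_add]
    congr 1
    funext σ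
    exact (h6 σ).symm
  rw [h7]
  module

/-! ### The top spin projection of a block -/

/-- One site weight, the square root of a binomial coefficient. -/
noncomputable def wt (t : ℕ) (k : Fin (t + 1)) : ℝ := Real.sqrt (Nat.choose t k)

theorem wt_pos (k : Fin (t + 1)) : 0 < wt t k := by
  apply Real.sqrt_pos.mpr
  exact_mod_cast Nat.choose_pos (Nat.lt_succ_iff.mp k.2)

theorem wt_step_b (j : ℕ) (hj : j + 1 < t + 1) :
    wt t ⟨j + 1, hj⟩ * Real.sqrt ((j : ℝ) + 1) =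
      wt t ⟨j, by omega⟩ * Real.sqrt ((t : ℝ) - j) := by
  simp only [wt]
  rw [← Real.sqrt_mul (Nat.cast_nonneg _), ← Real.sqrt_mul (Nat.cast_nonneg _)]
  congr 1
  have h := Nat.choose_succ_right_eq t j
  have hle : j ≤ t := by omega
  have h2 : ((t.choose (j + 1) : ℝ)) * ((j : ℝ) + 1) = (t.choose j : ℝ) * ((t : ℝ) - j) := by
    have := congrArg (Nat.cast (R := ℝ)) h
    push_cast [Nat.cast_sub hle] at this
    exact this
  exact h2

theorem wt_step_m (j : ℕ) (hj : j + 1 < t + 1) :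
    wt t ⟨j, by omega⟩ * Real.sqrt (((j : ℝ) + 1) * ((t : ℝ) - j)) =
      wt t ⟨j + 1, hj⟩ * ((j : ℝ) + 1) := by
  have hle : (j : ℝ) + 1 ≤ t := by exact_mod_cast Nat.lt_succ_iff.mp hj
  have h0 : (0 : ℝ) ≤ (j : ℝ) + 1 := by positivity
  have h1 : (0 : ℝ) ≤ (t : ℝ) - j := by linarith
  rw [Real.sqrt_mul h0]
  have h2 := wt_step_b (t := t) j hj
  calc wt t ⟨j, by omega⟩ * (Real.sqrt ((j : ℝ) + 1) * Real.sqrt ((t : ℝ) - j))
      = (wt t ⟨j, by omega⟩ * Real.sqrt ((t : ℝ) - j)) * Real.sqrt ((j : ℝ) + 1) := by ring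
    _ = (wt t ⟨j + 1, hj⟩ * Real.sqrt ((j : ℝ) + 1)) * Real.sqrt ((j : ℝ) + 1) := by rw [h2]
    _ = wt t ⟨j + 1, hj⟩ * (Real.sqrt ((j : ℝ) + 1) * Real.sqrt ((j : ℝ) + 1)) := by ring
    _ = _ := by rw [Real.mul_self_sqrt h0]

/-- Block weight. -/
noncomputable def wB (B : Finset Λ) (σ : Cf Λ t) : ℝ := ∏ x ∈ B, wt t (σ x)

theorem wB_pos (B : Finset Λ) (σ : Cf Λ t) : 0 < wB B σ :=
  Finset.prod_pos fun x _ => wt_pos (σ x)

theorem nB_update {B : Finset Λ} {x : Λ} (hx : x ∈ B) (ρ : Cf Λ t) (k : Fin (t + 1)) :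
    nB B (update ρ x k) + (ρ x : ℕ) = nB B ρ + (k : ℕ) := by
  unfold nB
  rw [← Finset.add_sum_erase B _ hx, ← Finset.add_sum_erase B (fun z => (ρ z : ℕ)) hx]
  have : ∑ z ∈ B.erase x, ((update ρ x k z : Fin (t + 1)) : ℕ) = ∑ z ∈ B.erase x, (ρ z : ℕ) := by
    refine Finset.sum_congr rfl fun z hz => ?_
    rw [update_of_ne (Finset.ne_of_mem_erase hz)]
  rw [this, update_self]
  omega

theorem wB_update {B : Finset Λ} {x : Λ} (hx : x ∈ B) (ρ : Cf Λ t) (k : Fin (t + 1)) :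
    wB B (update ρ x k) * wt t (ρ x) = wB B ρ * wt t k := by
  unfold wB
  rw [← Finset.mul_prod_erase B _ hx, ← Finset.mul_prod_erase B (fun z => wt t (ρ z)) hx]
  have : ∏ z ∈ B.erase x, wt t (update ρ x k z) = ∏ z ∈ B.erase x, wt t (ρ z) := by
    refine Finset.prod_congr rfl fun z hz => ?_
    rw [update_of_ne (Finset.ne_of_mem_erase hz)]
  rw [this, update_self]
  ring

theorem nB_congr {B : Finset Λ} {σ σ' : Cf Λ t} (h : ∀ z ∈ B, σ z = σ' z) : nB B σ = nB B σ' :=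
  Finset.sum_congr rfl fun z hz => by rw [h z hz]

theorem wB_congr {B : Finset Λ} {σ σ' : Cf Λ t} (h : ∀ z ∈ B, σ z = σ' z) : wB B σ = wB B σ' :=
  Finset.prod_congr rfl fun z hz => by rw [h z hz]

/-- Same configuration off `B`, same number of magnons on `B`. -/
def Cl (B : Finset Λ) (σ τ : Cf Λ t) : Prop := (∀ z, z ∉ B → σ z = τ z) ∧ nB B σ = nB B τ

instance (B : Finset Λ) (σ τ : Cf Λ t) : Decidable (Cl B σ τ) := by
  unfold Cl; infer_instance

theorem Cl.refl (B : Finset Λ) (σ : Cf Λ t) : Cl B σ σ := ⟨fun _ _ => rfl, rfl⟩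

theorem Cl.symm {B : Finset Λ} {σ τ : Cf Λ t} (h : Cl B σ τ) : Cl B τ σ :=
  ⟨fun z hz => (h.1 z hz).symm, h.2.symm⟩

theorem Cl.trans {B : Finset Λ} {σ τ ρ : Cf Λ t} (h : Cl B σ τ) (h' : Cl B τ ρ) : Cl B σ ρ :=
  ⟨fun z hz => (h.1 z hz).trans (h'.1 z hz), h.2.trans h'.2⟩

/-- The normalization of the top vector of the class of `σ`. -/
noncomputable def Zc (B : Finset Λ) (σ : Cf Λ t) : ℝ :=
  ∑ ρ, if Cl B σ ρ then (wB B ρ) ^ 2 else 0

theorem Zc_pos (B : Finset Λ) (σ : Cf Λ t) : 0 < Zc B σ := by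
  apply Finset.sum_pos'
  · intro ρ _
    split_ifs <;> positivity
  · refine ⟨σ, Finset.mem_univ _, ?_⟩
    rw [if_pos (Cl.refl B σ)]
    have := wB_pos B σ
    positivity

theorem Zc_congr {B : Finset Λ} {σ τ : Cf Λ t} (h : Cl B σ τ) : Zc B σ = Zc B τ := by
  refine Finset.sum_congr rfl fun ρ _ => ?_
  have : Cl B σ ρ ↔ Cl B τ ρ := ⟨fun h' => h.symm.trans h', fun h' => h.trans h'⟩
  simp only [this]

theorem Zc_eq_sum_fib (B : Finset Λ) (σ : Cf Λ t) :
    Zc B σ = ∑ ρ ∈ fib B σ, if nB B σ = nB B ρ then (wB B ρ) ^ 2 else 0 := by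
  unfold Zc
  symm
  have h1 : ∑ ρ ∈ fib B σ, (if nB B σ = nB B ρ then (wB B ρ) ^ 2 else 0) =
      ∑ ρ ∈ fib B σ, (if Cl B σ ρ then (wB B ρ) ^ 2 else 0) := by
    refine Finset.sum_congr rfl fun ρ hρ => ?_
    have hm := mem_fib.mp hρ
    have : Cl B σ ρ ↔ nB B σ = nB B ρ :=
      ⟨fun h => h.2, fun h => ⟨fun z hz => (hm z hz).symm, h⟩⟩
    simp only [this]
  rw [h1]
  apply Finset.sum_subset (Finset.subset_univ _)
  intro ρ _ hρ
  rw [if_neg]
  intro hc
  apply hρ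
  rw [mem_fib]
  exact fun z hz => (hc.1 z hz).symm

theorem Zc_dep {B : Finset Λ} {σ σ' : Cf Λ t} (h : ∀ z ∈ B, σ z = σ' z) : Zc B σ = Zc B σ' := by
  rw [Zc_eq_sum_fib, Zc_eq_sum_fib]
  refine sum_fib_reindex B σ σ' _ _ fun ρ _ => ?_
  have e1 : nB B (glue B ρ σ') = nB B ρ := nB_congr fun z hz => glue_mem hz
  have e2 : wB B (glue B ρ σ') = wB B ρ := wB_congr fun z hz => glue_mem hz
  rw [e1, e2, nB_congr h]

/-- The projection onto the maximal total spin of the block `B`. -/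
noncomputable def topP (t : ℕ) (B : Finset Λ) : Matrix (Cf Λ t) (Cf Λ t) ℂ :=
  Matrix.of fun σ τ => if Cl B σ τ then ((wB B σ * wB B τ / Zc B σ : ℝ) : ℂ) else 0

/-- The top vector of the class of `σ`. -/
noncomputable def vecTop (B : Finset Λ) (σ : Cf Λ t) : Cf Λ t → ℂ :=
  fun τ => if Cl B σ τ then ((wB B τ : ℝ) : ℂ) else 0

theorem topP_apply (B : Finset Λ) (σ τ : Cf Λ t) :
    topP t B σ τ = if Cl B σ τ then ((wB B σ * wB B τ / Zc B σ : ℝ) : ℂ) else 0 := rfl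

theorem topP_col (B : Finset Λ) (ρ : Cf Λ t) :
    (fun u => topP t B u ρ) = ((wB B ρ / Zc B ρ : ℝ) : ℂ) • vecTop B ρ := by
  funext u
  simp only [topP_apply, vecTop, Pi.smul_apply, smul_eq_mul]
  by_cases h : Cl B u ρ
  · rw [if_pos h, if_pos h.symm, Zc_congr h, ← Complex.ofReal_mul]
    congr 1
    ring
  · rw [if_neg h, if_neg fun h' => h h'.symm, mul_zero]

theorem star_vecTop (B : Finset Λ) (σ : Cf Λ t) : star (vecTop B σ) = vecTop B σ := by
  funext τ
  simp only [vecTop, Pi.star_apply]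
  split_ifs
  · rw [Complex.star_def, Complex.conj_ofReal]
  · simp

theorem topP_mulVec (B : Finset Λ) (ψ : Cf Λ t → ℂ) (σ : Cf Λ t) :
    (topP t B *ᵥ ψ) σ = ((wB B σ / Zc B σ : ℝ) : ℂ) * ip (vecTop B σ) ψ := by
  simp only [Matrix.mulVec, dotProduct, ip, star_vecTop, Finset.mul_sum]
  refine Finset.sum_congr rfl fun τ _ => ?_
  simp only [topP_apply, vecTop]
  split_ifs
  · rw [← mul_assoc, ← Complex.ofReal_mul]
    congr 2
    ring
  · simp

theorem topP_isHermitian (B : Finset Λ) : (topP t B).IsHermitian := by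
  ext σ τ
  simp only [Matrix.conjTranspose_apply, topP_apply]
  by_cases h : Cl B σ τ
  · rw [if_pos h, if_pos h.symm, Complex.star_def, Complex.conj_ofReal, Zc_congr h]
    congr 2
    ring
  · rw [if_neg h, if_neg fun h' => h h'.symm, star_zero]

theorem topP_idem (B : Finset Λ) : topP t B * topP t B = topP t B := by
  ext σ τ
  rw [Matrix.mul_apply]
  by_cases h : Cl B σ τ
  · have hZ : Zc B σ ≠ 0 := (Zc_pos B σ).ne'
    have e : ∀ ρ, topP t B σ ρ * topP t B ρ τ =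
        (((if Cl B σ ρ then (wB B ρ) ^ 2 else 0) * (wB B σ * wB B τ / (Zc B σ) ^ 2) : ℝ) : ℂ) := by
      intro ρ
      simp only [topP_apply]
      by_cases hρ : Cl B σ ρ
      · rw [if_pos hρ, if_pos (hρ.symm.trans h), if_pos hρ, ← Complex.ofReal_mul,
          ← Zc_congr hρ]
        congr 1
        field_simp
      · have : ¬ Cl B ρ τ := fun h' => hρ (h.trans h'.symm)
        rw [if_neg hρ, if_neg hρ]
        simp
    simp only [e]
    rw [← Complex.ofReal_sum, ← Finset.sum_mul, topP_apply, if_pos h]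
    congr 1
    change Zc B σ * _ = _
    field_simp
  · rw [topP_apply, if_neg h]
    refine Finset.sum_eq_zero fun ρ _ => ?_
    simp only [topP_apply]
    by_cases hρ : Cl B σ ρ
    · have : ¬ Cl B ρ τ := fun h' => h (hρ.trans h')
      rw [if_neg this, mul_zero]
    · rw [if_neg hρ, zero_mul]

theorem topP_loc (B : Finset Λ) : Loc B (topP t B) := by
  refine ⟨?_, ?_⟩
  · rintro σ τ ⟨z, hz, hne⟩
    rw [topP_apply, if_neg]
    intro h
    exact hne (h.1 z hz)
  · intro σ τ σ' τ' h1 h2 h3 h4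
    have e1 : Cl B σ τ ↔ Cl B σ' τ' := by
      constructor
      · intro h
        exact ⟨h4, by rw [← nB_congr h1, ← nB_congr h2]; exact h.2⟩
      · intro h
        exact ⟨h3, by rw [nB_congr h1, nB_congr h2]; exact h.2⟩
    rw [topP_apply, topP_apply]
    simp only [e1, wB_congr h1, wB_congr h2, Zc_dep h1]

theorem topP_commute_diag (B : Finset Λ) (f : ℕ → ℂ) :
    Commute (topP t B) (Matrix.diagonal fun σ : Cf Λ t => f (nB B σ)) := by
  ext σ τ
  rw [Matrix.mul_diagonal, Matrix.diagonal_mul, topP_apply]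
  by_cases h : Cl B σ τ
  · rw [if_pos h, h.2, mul_comm]
  · rw [if_neg h]
    simp

/-! ### Action of the block operators on the top vector -/

theorem bmat_apply (k l : Fin (t + 1)) :
    bmat t k l = if (k : ℕ) + 1 = (l : ℕ) then ((Real.sqrt ((k : ℕ) + 1) : ℝ) : ℂ) else 0 := rfl

theorem onSite_amat_mulVec (x : Λ) (φ : Cf Λ t → ℂ) (τ : Cf Λ t) :
    (onSite x (amat t) *ᵥ φ) τ = ((Real.sqrt ((t : ℝ) - (τ x : ℕ)) : ℝ) : ℂ) * φ τ := by
  rw [onSite_mulVec, Finset.sum_eq_single (τ x)]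
  · rw [amat, Matrix.diagonal_apply_eq, update_eq_self]
  · intro k _ hk
    rw [amat, Matrix.diagonal_apply_ne _ (Ne.symm hk), zero_mul]
  · intro hn; exact absurd (Finset.mem_univ _) hn

/-- `b_y` on the top vector. -/
theorem bmat_vecTop {B : Finset Λ} {y : Λ} (hy : y ∈ B) (σ τ : Cf Λ t) :
    (onSite y (bmat t) *ᵥ vecTop B σ) τ =
      if (∀ z, z ∉ B → σ z = τ z) ∧ nB B σ = nB B τ + 1 then
        ((wB B τ * Real.sqrt ((t : ℝ) - (τ y : ℕ)) : ℝ) : ℂ) else 0 := by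
  rw [onSite_mulVec]
  by_cases hlt : (τ y : ℕ) < t
  · have hlt' : (τ y : ℕ) + 1 < t + 1 := by omega
    let k0 : Fin (t + 1) := ⟨(τ y : ℕ) + 1, hlt'⟩
    rw [Finset.sum_eq_single k0]
    · rw [bmat_apply, if_pos rfl]
      have hn := nB_update hy τ k0
      have hcl : Cl B σ (update τ y k0) ↔ ((∀ z, z ∉ B → σ z = τ z) ∧ nB B σ = nB B τ + 1) := by
        constructor
        · rintro ⟨h1, h2⟩
          refine ⟨fun z hz => ?_, ?_⟩
          · have hzy : z ≠ y := fun e => hz (e ▸ hy)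
            rw [h1 z hz, update_of_ne hzy]
          · have : ((k0 : Fin (t + 1)) : ℕ) = (τ y : ℕ) + 1 := rfl
            omega
        · rintro ⟨h1, h2⟩
          refine ⟨fun z hz => ?_, ?_⟩
          · have hzy : z ≠ y := fun e => hz (e ▸ hy)
            rw [h1 z hz, update_of_ne hzy]
          · have : ((k0 : Fin (t + 1)) : ℕ) = (τ y : ℕ) + 1 := rfl
            omega
      simp only [vecTop, hcl]
      split_ifs with hc
      · rw [← Complex.ofReal_mul]
        congr 1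
        have h1 := wB_update hy τ k0
        have h2 : wt t k0 * Real.sqrt (((τ y : ℕ) : ℝ) + 1) =
            wt t (τ y) * Real.sqrt ((t : ℝ) - (τ y : ℕ)) := wt_step_b (τ y : ℕ) hlt'
        have hpos := wt_pos (τ y)
        apply mul_right_cancel₀ hpos.ne'
        calc Real.sqrt (((τ y : ℕ) : ℝ) + 1) * wB B (update τ y k0) * wt t (τ y)
            = Real.sqrt (((τ y : ℕ) : ℝ) + 1) * (wB B (update τ y k0) * wt t (τ y)) := by ring
          _ = Real.sqrt (((τ y : ℕ) : ℝ) + 1) * (wB B τ * wt t k0) := by rw [h1]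
          _ = wB B τ * (wt t k0 * Real.sqrt (((τ y : ℕ) : ℝ) + 1)) := by ring
          _ = wB B τ * (wt t (τ y) * Real.sqrt ((t : ℝ) - (τ y : ℕ))) := by rw [h2]
          _ = _ := by ring
      · simp
    · intro k _ hk
      rw [bmat_apply, if_neg, zero_mul]
      intro he
      exact hk (Fin.ext he.symm)
    · intro hn; exact absurd (Finset.mem_univ _) hn
  · have hte : (τ y : ℕ) = t := by have := (τ y).2; omega
    rw [Finset.sum_eq_zero]
    · rw [hte, sub_self, Real.sqrt_zero, mul_zero]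
      simp
    · intro k _
      rw [bmat_apply, if_neg, zero_mul]
      have := k.2
      omega

/-- `Ω` kills the top vector. -/
theorem omega_vecTop {B : Finset Λ} {x y : Λ} (hx : x ∈ B) (hy : y ∈ B) (hxy : x ≠ y)
    (σ : Cf Λ t) : omegaOp t x y *ᵥ vecTop B σ = 0 := by
  rw [omegaOp, onSite_comm hxy (bmat t) (amat t), Matrix.sub_mulVec, ← Matrix.mulVec_mulVec,
    ← Matrix.mulVec_mulVec]
  funext τ
  simp only [Pi.sub_apply, Pi.zero_apply]
  rw [onSite_amat_mulVec, onSite_amat_mulVec, bmat_vecTop hy, bmat_vecTop hx]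
  split_ifs
  · rw [← Complex.ofReal_mul, ← Complex.ofReal_mul, sub_eq_zero]
    congr 1
    ring
  · simp

theorem bond_vecTop {B : Finset Λ} {x y : Λ} (hx : x ∈ B) (hy : y ∈ B) (hxy : x ≠ y)
    (σ : Cf Λ t) : bond t x y *ᵥ vecTop B σ = 0 := by
  have h : bond t x y = ((1 / 2 : ℝ) : ℂ) • ((omegaOp t x y)ᴴ * omegaOp t x y) := by
    rw [← two_bond_eq hxy, smul_smul]
    norm_num
  rw [h, Matrix.smul_mulVec, ← Matrix.mulVec_mulVec, omega_vecTop hx hy hxy]
  simp

theorem K2_vecTop {B B' : Finset Λ} (hsub : B' ⊆ B) (σ : Cf Λ t) :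
    K2 t B' *ᵥ vecTop B σ = 0 := by
  rw [K2, Matrix.sum_mulVec]
  refine Finset.sum_eq_zero fun x hx => ?_
  rw [Matrix.sum_mulVec]
  refine Finset.sum_eq_zero fun y hy => ?_
  split_ifs with h
  · simp
  · exact bond_vecTop (hsub hx) (hsub hy) h σ

end Vale.Agent.Lib.P361
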