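import Vale.Agent.Lib.P361.Recursion

open scoped Matrix
open Function

set_option linter.unusedSectionVars false

namespace Vale.Agent.Lib.P361

variable {t N : ℕ}

/-- The Hamiltonian with the ground state energy shifted to zero. -/
noncomputable def H0 (t N : ℕ) : Matrix (Cf (Site N) t) (Cf (Site N) t) ℂ :=
  ∑ j : Fin 3, ∑ x ∈ Finset.univ.filter (fun x : Site N => (x j : ℕ) < 2 * N), bond t x (nxt x j)

theorem qf_H0 (ψ : Cf (Site N) t → ℂ) : qf (H0 t N) ψ = Eblk t N ψ Finset.univ := by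
  unfold H0 Eblk
  rw [qf_sum]
  refine Finset.sum_congr rfl fun j _ => ?_
  rw [qf_sum, Finset.sum_filter]
  refine Finset.sum_congr rfl fun x _ => ?_
  by_cases h : (x j : ℕ) < 2 * N
  · rw [if_pos h, if_pos ⟨h, Finset.mem_univ _⟩]
  · rw [if_neg h, if_neg (fun hc => h hc.1)]

theorem H0_isHermitian : (H0 t N).IsHermitian := by
  unfold H0 Matrix.IsHermitian
  rw [Matrix.conjTranspose_sum]
  refine Finset.sum_congr rfl fun j _ => ?_
  rw [Matrix.conjTranspose_sum]
  refine Finset.sum_congr rfl fun x hx => ?_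
  exact bond_isHermitian (nxt_ne (Finset.mem_filter.mp hx).2)

theorem isHermitian_smul_real {n : Type} [Fintype n] [DecidableEq n] {A : Matrix n n ℂ}
    (hA : A.IsHermitian) (c : ℝ) : ((c : ℂ) • A).IsHermitian := by
  unfold Matrix.IsHermitian
  rw [Matrix.conjTranspose_smul, hA.eq]
  simp

theorem isHermitian_sum' {n ι : Type} [Fintype n] [DecidableEq n] (s : Finset ι)
    {A : ι → Matrix n n ℂ} (hA : ∀ i ∈ s, (A i).IsHermitian) : (∑ i ∈ s, A i).IsHermitian := by
  unfold Matrix.IsHermitian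
  rw [Matrix.conjTranspose_sum]
  exact Finset.sum_congr rfl hA

theorem trace_exp_re_pos {n : Type} [Fintype n] [DecidableEq n] [Nonempty n] {A : Matrix n n ℂ}
    (hA : A.IsHermitian) : 0 < (Matrix.trace (NormedSpace.exp A)).re := by
  rw [trace_exp_hermitian hA, Complex.re_sum]
  apply Finset.sum_pos
  · intro i _
    rw [Complex.ofReal_re]
    exact Real.exp_pos _
  · exact Finset.univ_nonempty

/-! ### The top level partition -/

/-- The index set of the partition of the box: top blocks and left over sites. -/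
abbrev TopIdx (N j : ℕ) : Type := (Fin 3 → Fin j) ⊕ {x : Site N // ∃ i, (x i : ℕ) = 2 * N}

/-- The blocks of the partition. -/
def topB (N K j : ℕ) : TopIdx N j → Finset (Site N)
  | Sum.inl a => blk N K (fun i => (a i : ℕ))
  | Sum.inr x => {x.1}

theorem top_good {K j : ℕ} (hN : 2 * N = j * 2 ^ K) (a : Fin 3 → Fin j) :
    Good N K (fun i => (a i : ℕ)) := by
  intro i
  have h1 : (a i : ℕ) + 1 ≤ j := (a i).2
  calc ((a i : ℕ) + 1) * 2 ^ K ≤ j * 2 ^ K := Nat.mul_le_mul_right _ h1
    _ ≤ 2 * N + 1 := by omega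

theorem top_cover {K j : ℕ} (hN : 2 * N = j * 2 ^ K) :
    Finset.univ.biUnion (topB N K j) = Finset.univ := by
  ext x
  simp only [Finset.mem_biUnion, Finset.mem_univ, true_and, iff_true]
  by_cases h : ∃ i, (x i : ℕ) = 2 * N
  · exact ⟨Sum.inr ⟨x, h⟩, by simp [topB]⟩
  · push Not at h
    have hlt : ∀ i, (x i : ℕ) / 2 ^ K < j := by
      intro i
      have h1 : (x i : ℕ) < 2 * N + 1 := (x i).2
      have h2 := h i
      have h3 : (x i : ℕ) < j * 2 ^ K := by omega
      apply Nat.div_lt_of_lt_mul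
      have h4 : 2 ^ K * j = j * 2 ^ K := mul_comm _ _
      omega
    refine ⟨Sum.inl fun i => ⟨(x i : ℕ) / 2 ^ K, hlt i⟩, ?_⟩
    simp only [topB, mem_blk]
    intro i
    trivial

theorem top_disjoint {K j : ℕ} (hN : 2 * N = j * 2 ^ K) :
    ((Finset.univ : Finset (TopIdx N j)) : Set (TopIdx N j)).PairwiseDisjoint (topB N K j) := by
  have hlt : ∀ (a : Fin 3 → Fin j) (x : Site N) (i : Fin 3),
      x ∈ blk N K (fun i => (a i : ℕ)) → (x i : ℕ) < 2 * N := by
    intro a x i hx
    have h1 := (mem_blk.mp hx) i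
    have h2 : (x i : ℕ) / 2 ^ K < j := by rw [h1]; exact (a i).2
    have h3 := (Nat.div_lt_iff_lt_mul (by positivity)).mp h2
    omega
  rintro (a | x) _ (a' | x') _ hne
  · rw [Function.onFun, Finset.disjoint_left]
    intro z hz hz'
    apply hne
    congr 1
    funext i
    have h1 := (mem_blk.mp hz) i
    have h2 := (mem_blk.mp hz') i
    exact Fin.ext (h1.symm.trans h2)
  · rw [Function.onFun, Finset.disjoint_left]
    intro z hz hz'
    simp only [topB, Finset.mem_singleton] at hz'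
    obtain ⟨i, hi⟩ := x'.2
    have := hlt a z i hz
    rw [hz'] at this
    omega
  · rw [Function.onFun, Finset.disjoint_left]
    intro z hz hz'
    simp only [topB, Finset.mem_singleton] at hz
    obtain ⟨i, hi⟩ := x.2
    have := hlt a' z i hz'
    rw [hz] at this
    omega
  · rw [Function.onFun, Finset.disjoint_left]
    intro z hz hz'
    simp only [topB, Finset.mem_singleton] at hz hz'
    apply hne
    congr 1
    exact Subtype.ext (hz.symm.trans hz')

/-- The count of left over sites. -/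
theorem left_card {K j : ℕ} (hN : 2 * N = j * 2 ^ K) :
    Fintype.card {x : Site N // ∃ i, (x i : ℕ) = 2 * N} + (2 * N) ^ 3 = (2 * N + 1) ^ 3 := by
  have h1 : (Finset.univ.biUnion (topB N K j)).card = (2 * N + 1) ^ 3 := by
    rw [top_cover hN, Finset.card_univ]
    simp
  rw [Finset.card_biUnion (fun i hi i' hi' hne => top_disjoint hN hi hi' hne),
    Fintype.sum_sum_type] at h1
  have h2 : ∑ a : Fin 3 → Fin j, (topB N K j (Sum.inl a)).card = (2 * N) ^ 3 := by
    simp only [topB]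
    rw [Finset.sum_congr rfl fun a _ => card_blk (top_good hN a)]
    simp [hN, Finset.card_univ]
    ring
  have h3 : ∑ x : {x : Site N // ∃ i, (x i : ℕ) = 2 * N}, (topB N K j (Sum.inr x)).card =
      Fintype.card {x : Site N // ∃ i, (x i : ℕ) = 2 * N} := by
    simp [topB]
  rw [h2, h3] at h1
  omega

/-- The operators of the partition. -/
noncomputable def topX (t N K j : ℕ) (τ c : ℝ) : TopIdx N j → Matrix (Cf (Site N) t) (Cf (Site N) t) ℂ
  | Sum.inl a => XX t N τ c K (fun i => (a i : ℕ))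
  | Sum.inr x => (c : ℂ) • NB t {x.1}

theorem topX_loc (K j : ℕ) (τ c : ℝ) (i : TopIdx N j) :
    Loc (topB N K j i) (topX t N K j τ c i) := by
  rcases i with a | x
  · exact XX_loc τ c K _
  · exact (NB_loc _).smul _

theorem topX_sum {K j : ℕ} (hN : 2 * N = j * 2 ^ K) (τ c : ℝ) :
    ∑ i, topX t N K j τ c i =
      (τ : ℂ) • ∑ a : Fin 3 → Fin j, RR t N K (fun i => (a i : ℕ)) +
        (c : ℂ) • NB t Finset.univ := by
  have h1 : NB t (Finset.univ : Finset (Site N)) =
      ∑ a : Fin 3 → Fin j, NB t (blk N K (fun i => (a i : ℕ)))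
        + ∑ x : {x : Site N // ∃ i, (x i : ℕ) = 2 * N}, NB t {x.1} := by
    conv_lhs => rw [← top_cover hN]
    rw [NB_biUnion _ _ (top_disjoint hN), Fintype.sum_sum_type]
    rfl
  rw [Fintype.sum_sum_type, h1, smul_add, Finset.smul_sum, Finset.smul_sum, Finset.smul_sum,
    ← add_assoc, ← Finset.sum_add_distrib]
  rfl

theorem topX_hermitian {K j : ℕ} (hN : 2 * N = j * 2 ^ K) (τ c : ℝ) :
    (∑ i, topX t N K j τ c i).IsHermitian := by
  rw [topX_sum hN]
  refine Matrix.IsHermitian.add (isHermitian_smul_real (isHermitian_sum' _ fun a _ => ?_) _)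
    (isHermitian_smul_real (NB_isHermitian _) _)
  exact RR_isHermitian _ _

/-- Comparison of the Hamiltonian with the partition operator. -/
theorem top_compare (ht : 0 < t) {K j : ℕ} (hN : 2 * N = j * 2 ^ K) {β c : ℝ} (hβ : 0 < β)
    (ψ : Cf (Site N) t → ℂ) :
    qf (∑ i, topX t N K j (β * t / (4 * 4 ^ K)) c i) ψ ≤
      qf ((β : ℂ) • H0 t N + (c : ℂ) • NB t Finset.univ) ψ := by
  have ht' : (0 : ℝ) < t := by exact_mod_cast ht
  rw [topX_sum hN, qf_add, qf_add, qf_smul, qf_smul, qf_smul, qf_H0, qf_sum]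
  have h1 : ∑ a : Fin 3 → Fin j, qf (RR t N K (fun i => (a i : ℕ))) ψ ≤
      (4 * 4 ^ K / (t : ℝ)) * Eblk t N ψ Finset.univ := by
    calc ∑ a : Fin 3 → Fin j, qf (RR t N K (fun i => (a i : ℕ))) ψ
        ≤ ∑ a : Fin 3 → Fin j, (4 * 4 ^ K / (t : ℝ)) * Eblk t N ψ (blk N K fun i => (a i : ℕ)) :=
          Finset.sum_le_sum fun a _ => RR_qf_le ht K _ (top_good hN a) ψ
      _ = (4 * 4 ^ K / (t : ℝ)) * ∑ a : Fin 3 → Fin j, Eblk t N ψ (blk N K fun i => (a i : ℕ)) := by
          rw [Finset.mul_sum]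
      _ ≤ _ := by
          apply mul_le_mul_of_nonneg_left _ (by positivity)
          refine Eblk_sum_le _ _ _ ?_ (fun a _ => Finset.subset_univ _) ψ
          intro a _ a' _ hne
          have := top_disjoint (K := K) hN (Finset.mem_coe.mpr (Finset.mem_univ (Sum.inl a)))
            (Finset.mem_coe.mpr (Finset.mem_univ (Sum.inl a')))
            (fun e => hne (Sum.inl_injective e))
          exact this
  have hτ : (0 : ℝ) ≤ β * t / (4 * 4 ^ K) := by positivity
  have h2 := mul_le_mul_of_nonneg_left h1 hτ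
  have e : β * t / (4 * 4 ^ K) * (4 * 4 ^ K / (t : ℝ) * Eblk t N ψ Finset.univ) =
      β * Eblk t N ψ Finset.univ := by
    field_simp
  rw [e] at h2
  linarith

/-- The trace bound at the top level. -/
theorem trace_upper (ht : 0 < t) {K j : ℕ} (hN : 2 * N = j * 2 ^ K) {β c : ℝ} (hβ : 0 < β)
    (hc : 0 ≤ c) (hτ : Real.exp (-(β * t / (4 * 4 ^ K))) ≤ 1 / 20)
    (hy : Real.exp (-c) ≤ 1 / 100) :
    (Matrix.trace (NormedSpace.exp (-((β : ℂ) • H0 t N + (c : ℂ) • NB t Finset.univ)))).re ≤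
      ((1 + Real.exp (-c)) / (1 - Real.exp (-c))) ^ (j ^ 3) *
        (1 / (1 - Real.exp (-c))) ^ (Fintype.card {x : Site N // ∃ i, (x i : ℕ) = 2 * N}) := by
  set τ := β * t / (4 * 4 ^ K) with hτdef
  set y := Real.exp (-c) with hydef
  have hy0 : 0 ≤ y := (Real.exp_pos _).le
  have hy1 : y < 1 := by linarith
  have hA : ((β : ℂ) • H0 t N + (c : ℂ) • NB t Finset.univ).IsHermitian :=
    Matrix.IsHermitian.add (isHermitian_smul_real H0_isHermitian _)
      (isHermitian_smul_real (NB_isHermitian _) _)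
  have h1 := trace_exp_anti hA (topX_hermitian (t := t) (K := K) hN τ c) (top_compare ht hN hβ)
  refine h1.trans ?_
  have h2 : Matrix.trace (NormedSpace.exp (-∑ i, topX t N K j τ c i)) =
      ∏ i, ltr (topB N K j i) (NormedSpace.exp (-topX t N K j τ c i)) := by
    rw [← ltr_univ, ← Finset.sum_neg_distrib]
    conv_lhs => rw [← top_cover (K := K) hN]
    exact ltr_exp_sum _ _ _ (top_disjoint hN) fun i _ => (topX_loc K j τ c i).neg
  rw [h2, Fintype.prod_sum_type]
  have h3 : RB (∏ a : Fin 3 → Fin j, ltr (topB N K j (Sum.inl a))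
      (NormedSpace.exp (-topX t N K j τ c (Sum.inl a)))) (((1 + y) / (1 - y)) ^ (j ^ 3)) := by
    have := RB.prod (Finset.univ : Finset (Fin 3 → Fin j))
      (fun a => ltr (topB N K j (Sum.inl a)) (NormedSpace.exp (-topX t N K j τ c (Sum.inl a))))
      (a := (1 + y) / (1 - y))
      (fun a _ => XX_ltr_bound ht hc hy hτ K _ (top_good hN a))
    have hcard : (Finset.univ : Finset (Fin 3 → Fin j)).card = j ^ 3 := by
      simp [Finset.card_univ]
    rwa [hcard] at this
  have h4 : RB (∏ x : {x : Site N // ∃ i, (x i : ℕ) = 2 * N}, ltr (topB N K j (Sum.inr x))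
      (NormedSpace.exp (-topX t N K j τ c (Sum.inr x))))
      ((1 / (1 - y)) ^ (Fintype.card {x : Site N // ∃ i, (x i : ℕ) = 2 * N})) := by
    have := RB.prod (Finset.univ : Finset {x : Site N // ∃ i, (x i : ℕ) = 2 * N})
      (fun x => ltr (topB N K j (Sum.inr x)) (NormedSpace.exp (-topX t N K j τ c (Sum.inr x))))
      (a := 1 / (1 - y))
      (fun x _ => by
        show RB (ltr {x.1} (NormedSpace.exp (-((c : ℂ) • NB t {x.1})))) _
        rw [exp_NB]
        exact ltr_single_bound _ hy0 hy1)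
    rwa [Finset.card_univ] at this
  exact (h3.mul h4).2.2

/-- The logarithmic form of the upper bound. -/
theorem log_upper (ht : 0 < t) {K j : ℕ} (hN : 2 * N = j * 2 ^ K) {β c : ℝ} (hβ : 0 < β)
    (hc : 0 ≤ c) (hτ : Real.exp (-(β * t / (4 * 4 ^ K))) ≤ 1 / 20)
    (hy : Real.exp (-c) ≤ 1 / 100) :
    Real.log (Matrix.trace (NormedSpace.exp (-((β : ℂ) • H0 t N + (c : ℂ) • NB t Finset.univ)))).re ≤
      ((j : ℝ) ^ 3) * (3 * Real.exp (-c)) +
        (((2 * N + 1 : ℕ) : ℝ) ^ 3 - ((2 * N : ℕ) : ℝ) ^ 3) * (2 * Real.exp (-c)) := by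
  have h0 := trace_upper ht hN hβ hc hτ hy
  set y := Real.exp (-c) with hydef
  have hy0 : 0 < y := Real.exp_pos _
  have h1y : 0 < 1 - y := by linarith
  have hA : (-((β : ℂ) • H0 t N + (c : ℂ) • NB t Finset.univ)).IsHermitian :=
    (Matrix.IsHermitian.add (isHermitian_smul_real H0_isHermitian _)
      (isHermitian_smul_real (NB_isHermitian _) _)).neg
  have hpos := trace_exp_re_pos hA
  have hcard := left_card (N := N) hN
  have hL : (Fintype.card {x : Site N // ∃ i, (x i : ℕ) = 2 * N} : ℝ) =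
      ((2 * N + 1 : ℕ) : ℝ) ^ 3 - ((2 * N : ℕ) : ℝ) ^ 3 := by
    have := congrArg (fun n : ℕ => (n : ℝ)) hcard
    beta_reduce at this
    push_cast at this ⊢
    linarith
  have hA0 : 0 < (1 + y) / (1 - y) := by positivity
  have hl0 : 0 < 1 / (1 - y) := by positivity
  have h2 := Real.log_le_log hpos h0
  rw [Real.log_mul (by positivity) (by positivity), Real.log_pow, Real.log_pow, hL] at h2
  refine h2.trans ?_
  have h3 : Real.log ((1 + y) / (1 - y)) ≤ 3 * y := by
    have := Real.log_le_sub_one_of_pos hA0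
    refine this.trans ?_
    rw [div_sub_one h1y.ne', div_le_iff₀ h1y]
    nlinarith
  have h4 : Real.log (1 / (1 - y)) ≤ 2 * y := by
    have := Real.log_le_sub_one_of_pos hl0
    refine this.trans ?_
    rw [div_sub_one h1y.ne', div_le_iff₀ h1y]
    nlinarith
  have hL0 : 0 ≤ ((2 * N + 1 : ℕ) : ℝ) ^ 3 - ((2 * N : ℕ) : ℝ) ^ 3 := by
    rw [← hL]
    positivity
  have e1 : ((j ^ 3 : ℕ) : ℝ) = (j : ℝ) ^ 3 := by push_cast; rfl
  rw [e1]
  have h5 := mul_le_mul_of_nonneg_left h3 (by positivity : (0 : ℝ) ≤ (j : ℝ) ^ 3)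
  have h6 := mul_le_mul_of_nonneg_left h4 hL0
  linarith

end Vale.Agent.Lib.P361
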